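import Vale.Agent.P180.H386.Idm
import Vale.Agent.P180.H337.Idem
import Vale.Agent.P180.H19.Cusp
import Vale.Agent.P180.H768.Brauer

/-!
P180 H386: the Brauer image of a block at an element, as a sum over the conjugates of the
defect group.
-/

set_option linter.all false

namespace Vale.Agent.P180.H386

open Finset Subgroup Vale.Agent.P180 Vale.Agent.P180.R2.H799 Vale.Agent.P180.H768.Gd
  Vale.Agent.P180.H337
open Vale.Agent.P180.R2.H954.Hc (KK toKK)
open Vale.Agent.P180.R2.H12.Sl (exists_central_lift)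

universe u

open scoped Classical

section Act

variable {G : Type} [Group G] (D : Subgroup G) (x : G)

/-- the cosets fixed by `x` -/
def XX : Type := {q : G ⧸ D // x • q = q}

instance [Finite G] : Finite (XX D x) := Subtype.finite

noncomputable instance [Finite G] : Fintype (XX D x) := Fintype.ofFinite _

instance actXX : MulAction (centralizer ({x} : Set G)) (XX D x) where
  smul h q := ⟨(h : G) • q.1, by
    have h1 : (h : G) * x = x * h := Subgroup.mem_centralizer_singleton_iff.1 h.2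
    rw [← mul_smul, ← h1, mul_smul, q.2]⟩
  one_smul q := Subtype.ext (one_smul G q.1)
  mul_smul h h' q := Subtype.ext (mul_smul (h : G) (h' : G) q.1)

theorem smul_val (h : centralizer ({x} : Set G)) (q : XX D x) : (h • q).1 = (h : G) • q.1 := rfl

/-- fixed cosets, through representatives -/
theorem smul_eq_iff {z : G} {q : G ⧸ D} : z • q = q ↔ q.out⁻¹ * z * q.out ∈ D := by
  conv_lhs => rw [← QuotientGroup.out_eq' q]
  change ((z * q.out : G) : G ⧸ D) = ((q.out : G) : G ⧸ D) ↔ _
  rw [eq_comm, QuotientGroup.eq, mul_assoc]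

end Act

section Alg

variable {k : Type u} [Field k] {G : Type} [Group G] [Fintype G] {D : Subgroup G} {x : G}
  [Fintype (centralizer ({x} : Set G))]

/-- the restriction of a conjugate of `a` -/
noncomputable def aa (a : MonoidAlgebra k G) (q : XX D x) :
    MonoidAlgebra k (centralizer ({x} : Set G)) :=
  rs (centralizer ({x} : Set G)) (cj k G q.1.out a)

theorem aa_coeff (a : MonoidAlgebra k G) (q : XX D x) (h : centralizer ({x} : Set G)) :
    (aa a q).coeff h = a.coeff (q.1.out⁻¹ * h * q.1.out) := by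
  rw [aa, rs_coeff, cj_coeff]

theorem coeff_out {a : MonoidAlgebra k G} (ha : a ∈ Fix (cj k G) D) (g y : G) (q : G ⧸ D)
    (hq : q = (g : G ⧸ D)) : a.coeff (q.out⁻¹ * y * q.out) = a.coeff (g⁻¹ * y * g) := by
  subst hq
  obtain ⟨d, hd⟩ := QuotientGroup.mk_out_eq_mul D g
  rw [hd]
  have h1 := coeff_conj ha (D.inv_mem d.2) (g⁻¹ * y * g)
  rw [← h1]
  congr 1
  group

theorem aa_smul {a : MonoidAlgebra k G} (ha : a ∈ Fix (cj k G) D)
    (h : centralizer ({x} : Set G)) (q : XX D x) :
    MonoidAlgebra.single h 1 * aa a q = aa a (h • q) * MonoidAlgebra.single h 1 := by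
  apply MonoidAlgebra.coeff_injective
  ext y
  rw [MonoidAlgebra.coeff_single_mul_apply, MonoidAlgebra.coeff_mul_single_apply, one_mul, mul_one,
    aa_coeff, aa_coeff]
  have h1 : (h • q).1 = (((h : G) * q.1.out : G) : G ⧸ D) := by
    rw [smul_val]
    conv_lhs => rw [← QuotientGroup.out_eq' q.1]
    rfl
  rw [coeff_out ha ((h : G) * q.1.out) _ _ h1]
  congr 1
  push_cast
  group

variable {p : ℕ} [hp : Fact p.Prime] [CharP k p]

/-- **The Brauer image as a sum over the fixed cosets.** -/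
theorem rs_tr (hx : ∃ n : ℕ, x ^ p ^ n = 1) {a : MonoidAlgebra k G} (ha : a ∈ Fix (cj k G) D) :
    rs (centralizer ({x} : Set G)) (tr (cj k G) D ⊤ a) = ∑ q : XX D x, aa a q := by
  have _ := Fintype.ofFinite (G ⧸ D)
  have e1 : tr (cj k G) D ⊤ a = ∑ q : G ⧸ D, cj k G q.out a := by
    refine tr_eq_sum' (ι := G ⧸ D) ha (fun q => q.out) ?_ ?_ ?_
    · intro q; exact Subgroup.mem_top _
    · intro q r h
      rw [← QuotientGroup.out_eq' q, ← QuotientGroup.out_eq' r, QuotientGroup.eq]
      exact h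
    · intro g _
      refine ⟨(g : G ⧸ D), ?_⟩
      rw [← QuotientGroup.eq, QuotientGroup.out_eq']
  apply MonoidAlgebra.coeff_injective
  ext h
  rw [rs_coeff, e1, MonoidAlgebra.coeff_sum, Finsupp.finset_sum_apply, MonoidAlgebra.coeff_sum,
    Finsupp.finset_sum_apply]
  have hP : IsPGroup p (zpowers x) := by
    obtain ⟨n, hn⟩ := hx
    intro g
    obtain ⟨i, hi⟩ := Subgroup.mem_zpowers_iff.1 g.2
    refine ⟨n, ?_⟩
    apply Subtype.ext
    rw [SubmonoidClass.coe_pow, ← hi, ← zpow_natCast, ← zpow_mul, mul_comm, zpow_mul,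
      zpow_natCast, hn, one_zpow]
    rfl
  have h2 := sum_fixed (k := k) hP ((MulAction.toPermHom G (G ⧸ D)).comp (zpowers x).subtype)
    (fun q : G ⧸ D => (cj k G q.out a).coeff (h : G)) ?_ (fun q => x • q = q) ?_
  · rw [h2, ← Finset.sum_filter]
    symm
    refine Finset.sum_bij (fun (q : XX D x) _ => q.1) ?_ ?_ ?_ ?_
    · intro q _
      exact mem_filter.2 ⟨mem_univ _, q.2⟩
    · intro q _ q' _ hqq
      exact Subtype.ext hqq
    · intro q hq
      exact ⟨⟨q, (mem_filter.1 hq).2⟩, mem_univ _, rfl⟩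
    · intro q _
      rw [aa_coeff, cj_coeff]
  · intro v q
    rw [cj_coeff, cj_coeff]
    change a.coeff (((v : G) • q).out⁻¹ * (h : G) * ((v : G) • q).out) = _
    have h1 : (v : G) • q = (((v : G) * q.out : G) : G ⧸ D) := by
      conv_lhs => rw [← QuotientGroup.out_eq' q]
      rfl
    rw [coeff_out ha _ _ _ h1]
    congr 1
    have h3 : (v : G)⁻¹ * h * v = h := by
      obtain ⟨i, hi⟩ := Subgroup.mem_zpowers_iff.1 v.2
      have h4 : Commute (h : G) x := Subgroup.mem_centralizer_singleton_iff.1 h.2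
      have h5 := (h4.zpow_right i).eq
      rw [hi] at h5
      rw [mul_assoc, h5, inv_mul_cancel_left]
    calc ((v : G) * q.out)⁻¹ * h * ((v : G) * q.out) = q.out⁻¹ * ((v : G)⁻¹ * h * v) * q.out := by
          group
      _ = _ := by rw [h3]
  · intro q
    constructor
    · intro hq v
      obtain ⟨i, hi⟩ := Subgroup.mem_zpowers_iff.1 v.2
      change (v : G) • q = q
      rw [← hi]
      exact MulAction.mem_stabilizer_iff.1 (zpow_mem (MulAction.mem_stabilizer_iff.2 hq) i)
    · intro hq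
      exact hq ⟨x, Subgroup.mem_zpowers x⟩

/-- the Brauer image is idempotent -/
theorem rs_idem' (hx : ∃ n : ℕ, x ^ p ^ n = 1) {b : MonoidAlgebra k G} (hb : b ∈ Fix (cj k G) ⊤)
    (hbb : b * b = b) : rs (centralizer ({x} : Set G)) b * rs (centralizer ({x} : Set G)) b =
      rs (centralizer ({x} : Set G)) b := by
  have hP : IsPGroup p (zpowers x) := by
    obtain ⟨n, hn⟩ := hx
    intro g
    obtain ⟨i, hi⟩ := Subgroup.mem_zpowers_iff.1 g.2
    refine ⟨n, ?_⟩
    apply Subtype.ext
    rw [SubmonoidClass.coe_pow, ← hi, ← zpow_natCast, ← zpow_mul, mul_comm, zpow_mul,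
      zpow_natCast, hn, one_zpow]
    rfl
  have hcc : centralizer (zpowers x : Set G) = centralizer ({x} : Set G) := by
    rw [Subgroup.zpowers_eq_closure, Subgroup.centralizer_closure]
  have hb' : b ∈ Fix (cj k G) (zpowers x) := Fix_mono _ le_top hb
  have h1 := br_mul (k := k) hP hb' hb'
  rw [hbb] at h1
  have h2 : ∀ c : MonoidAlgebra k G, rs (centralizer ({x} : Set G)) (br (zpowers x) c) =
      rs (centralizer ({x} : Set G)) c := by
    intro c
    apply MonoidAlgebra.coeff_injective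
    ext h
    rw [rs_coeff, rs_coeff, br_coeff, if_pos]
    rw [hcc]; exact h.2
  have h3 : br (zpowers x) b ∈ SubAlg k (centralizer ({x} : Set G)) := by
    rw [← hcc]; exact br_mem _ _
  rw [← h2 b, ← rs_mul h3, ← h1, h2]

/-- the Brauer image is central -/
theorem rs_comm {b : MonoidAlgebra k G} (hb : b ∈ Fix (cj k G) ⊤)
    (y : MonoidAlgebra k (centralizer ({x} : Set G))) :
    y * rs (centralizer ({x} : Set G)) b = rs (centralizer ({x} : Set G)) b * y := by
  induction y using MonoidAlgebra.induction_linear with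
  | zero => rw [zero_mul, mul_zero]
  | add a b ha hb => rw [add_mul, mul_add, ha, hb]
  | single h r =>
    apply MonoidAlgebra.coeff_injective
    ext y
    rw [MonoidAlgebra.coeff_single_mul_apply, MonoidAlgebra.coeff_mul_single_apply, rs_coeff,
      rs_coeff, mul_comm]
    congr 1
    have h1 := coeff_conj hb (Subgroup.mem_top (h : G)⁻¹) ((y * h⁻¹ : centralizer ({x} : Set G)) : G)
    rw [← h1]
    congr 1
    push_cast
    group

/-- **The interface of B2b:** the abstract cuspidality lemma for the Brauer image of a block. -/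
theorem cusp_block (hx : ∃ n : ℕ, x ^ p ^ n = 1)
    {a b : MonoidAlgebra k G} (ha : a ∈ Fix (cj k G) D) (hb : b = tr (cj k G) D ⊤ a)
    (hbb : b * b = b) (𝒱 : ParSys p (centralizer ({x} : Set G)))
    (hz : ∀ V ∈ 𝒱.car, V ≠ ⊥ → ∃ z ∈ Subgroup.normalizer (V : Set (centralizer ({x} : Set G))),
      (∀ y ∈ Subgroup.normalizer (V : Set (centralizer ({x} : Set G))), z * y * z⁻¹ * y⁻¹ ∈ V) ∧
      (∃ m : ℕ, z ^ p ^ m = 1) ∧ ∀ g : G, g⁻¹ * x * g ∈ D → g⁻¹ * z * g ∉ D)
    {V : Subgroup (centralizer ({x} : Set G))} (hV : V ∈ 𝒱.car) (hV0 : V ≠ ⊥) :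
    BN.av k V * rs (centralizer ({x} : Set G)) b = 0 := by
  have hbF : b ∈ Fix (cj k G) ⊤ := by rw [hb]; exact tr_mem_Fix ha
  refine H19.Cusp.cusp 𝒱 (a := fun q : XX D x => aa a q) (fun h q => aa_smul ha h q)
    (by rw [hb]; exact rs_tr hx ha) (rs_idem' hx hbF hbb) ?_ V hV hV0
  intro V hV hV0
  obtain ⟨z, h1, h2, h3, h4⟩ := hz V hV hV0
  refine ⟨z, h1, h2, h3, fun q hq => ?_⟩
  have h5 : (z : G) • q.1 = q.1 := congrArg Subtype.val hq
  exact h4 q.1.out ((smul_eq_iff D).1 q.2) ((smul_eq_iff D).1 h5)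

/-- a central idempotent over the Witt vectors above the Brauer image -/
theorem exists_E [IsAlgClosed k] (hx : ∃ n : ℕ, x ^ p ^ n = 1) {b : MonoidAlgebra k G}
    (hb : b ∈ Fix (cj k G) ⊤) (hbb : b * b = b) :
    ∃ E : MonoidAlgebra (WittVector p k) (centralizer ({x} : Set G)), E * E = E ∧
      (∀ y, y * E = E * y) ∧
      MonoidAlgebra.mapRingHom _ (WittVector.constantCoeff (p := p) (R := k)) E =
        rs (centralizer ({x} : Set G)) b := by
  obtain ⟨E, h1, h2, h3⟩ := exists_central_lift (p := p) (rs_comm (x := x) hb)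
    (rs_idem' hx hb hbb)
  exact ⟨E, h2, h1, h3⟩

end Alg

end Vale.Agent.P180.H386
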