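import Vale.Agent.P180.H386.Res

/-!
P180 H386 (block B3 of theorem B): the restriction of the singular part, for general linear groups.
-/

set_option linter.all false

namespace Vale.Agent.P180.H386

open Finset Subgroup Vale.Agent.P180.R2.H799
  Vale.Agent.P180.R2.H471.Hc Vale.Agent.P180.R2.H954.Hc Vale.Agent.P180.R2.H12.Sl
  Vale.Agent.P180.H337
open Vale.Agent.P180.H393 (IsIr IsCF ev PB UB Res sk sk_mul sk_inj UB_norm)
open P179X (pp)
open P179C (pr)

universe u

open scoped Classical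

section

variable {k : Type u} [Field k] [IsAlgClosed k] {p : ℕ} [hp : Fact p.Prime] [CharP k p]
variable {F : Type} [Field F] [Finite F]
variable {A B : Type} [AddCommGroup A] [Module F A] [AddCommGroup B] [Module F B]
  [Finite A] [Finite B]

omit [Finite F] [Finite A] [Finite B] in
/-- the unipotent radical is the space of homomorphisms -/
noncomputable def homEquiv (F A B : Type) [Field F] [AddCommGroup A] [Module F A]
    [AddCommGroup B] [Module F B] : (A →ₗ[F] B) ≃ UB (F := F) A B where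
  toFun f := ⟨sk 1 1 f, f, rfl⟩
  invFun y := Classical.choose y.2
  left_inv f := by
    have := Classical.choose_spec (⟨f, rfl⟩ : ∃ f', (sk 1 1 f : (A × B) ≃ₗ[F] (A × B)) = sk 1 1 f')
    exact (sk_inj this).2.2.symm
  right_inv y := by
    apply Subtype.ext
    exact (Classical.choose_spec y.2).symm

theorem not_dvd_UB (hpF : ¬ p ∣ Nat.card F) : ¬ p ∣ Nat.card (UB (F := F) A B) := by
  rw [← Nat.card_congr (homEquiv F A B), Module.natCard_eq_pow_finrank (K := F)]
  exact fun h => hpF (hp.out.dvd_of_dvd_pow h)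

omit [Finite F] [Finite A] [Finite B] in
theorem mem_UB_iff {m v : (A × B) ≃ₗ[F] (A × B)} (hm : m ∈ PB (F := F) A B) :
    v ∈ UB (F := F) A B ↔ m * v * m⁻¹ ∈ UB (F := F) A B := by
  constructor
  · exact UB_norm hm
  · intro h
    have h1 := UB_norm (inv_mem hm) h
    have e : m⁻¹ * (m * v * m⁻¹) * m⁻¹⁻¹ = v := by group
    rwa [e] at h1

omit [Finite F] in
theorem pp_mem_PB {m : (A × B) ≃ₗ[F] (A × B)} (hm : m ∈ PB (F := F) A B) :
    pp p m ∈ PB (F := F) A B := by
  obtain ⟨e, he⟩ := exists_exp (p := p) (G := (A × B) ≃ₗ[F] (A × B))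
  rw [← he]
  exact pow_mem hm e

/-- **(B3)**, with the averages. -/
theorem res_sg_av (hpF : ¬ p ∣ Nat.card F) {χ : ((A × B) ≃ₗ[F] (A × B)) → KK k p} (hχ : IsCF χ)
    (h : ∀ x ∈ PB (F := F) A B, x ≠ 1 → (∃ n : ℕ, x ^ p ^ n = 1) →
      ∃ E : MonoidAlgebra (WittVector p k) (centralizer ({x} : Set ((A × B) ≃ₗ[F] (A × B)))),
      E * E = E ∧ (∀ y, y * E = E * y) ∧
      BN.av k ((cU (UB (F := F) A B) x).subgroupOf
        (centralizer ({x} : Set ((A × B) ≃ₗ[F] (A × B))))) *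
        MonoidAlgebra.mapRingHom _ (WittVector.constantCoeff (p := p) (R := k)) E = 0 ∧
      Blk2 χ x E)
    (a : A ≃ₗ[F] A) (b : B ≃ₗ[F] B) : Res (sg p χ) a b = 0 := by
  have hmP : sk a b 0 ∈ PB (F := F) A B := ⟨a, b, 0, rfl⟩
  have _ : Fintype (UB (F := F) A B) := Fintype.ofFinite _
  have h1 := coset_sum (k := k) (p := p) hχ (U := UB (F := F) A B) (not_dvd_UB hpF)
    (m := sk a b 0) (fun j v => mem_UB_iff (pow_mem hmP j))
    (fun hx => h _ (pp_mem_PB hmP) hx (P179P.pp_pow_eq_one _))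
  have h2 : ∑ f : A →ₗ[F] B, sg p χ (sk a b f) = ∑ u : UB (F := F) A B, sg p χ (sk a b 0 * u) := by
    let e : (A →ₗ[F] B) ≃ (A →ₗ[F] B) :=
      { toFun := fun f => ((b⁻¹ : B ≃ₗ[F] B) : B →ₗ[F] B) ∘ₗ f
        invFun := fun f => (b : B →ₗ[F] B) ∘ₗ f
        left_inv := fun f => by
          ext y
          exact b.apply_symm_apply _
        right_inv := fun f => by
          ext y
          exact b.symm_apply_apply _ }
    rw [← Equiv.sum_comp (e.trans (homEquiv F A B))]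
    refine Finset.sum_congr rfl fun f _ => ?_
    change _ = sg p χ (sk a b 0 * sk 1 1 (((b⁻¹ : B ≃ₗ[F] B) : B →ₗ[F] B) ∘ₗ f))
    rw [sk_mul, mul_one, mul_one]
    congr 2
    ext y
    change f y = b (b⁻¹ (f y)) + (0 : B)
    rw [add_zero]
    exact (b.apply_symm_apply _).symm
  rw [Res, h2, h1, mul_zero]

/-- **(B3)** -/
theorem res_sg (hpF : ¬ p ∣ Nat.card F) {χ : ((A × B) ≃ₗ[F] (A × B)) → KK k p} (hχ : IsCF χ)
    (h : ∀ x ∈ PB (F := F) A B, x ≠ 1 → (∃ n : ℕ, x ^ p ^ n = 1) →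
      ∃ E : MonoidAlgebra (WittVector p k) (centralizer ({x} : Set ((A × B) ≃ₗ[F] (A × B)))),
      E * E = E ∧ (∀ y, y * E = E * y) ∧
      (∀ y : centralizer ({x} : Set ((A × B) ≃ₗ[F] (A × B))),
        ∀ [Fintype (cU (UB (F := F) A B) x)], ∑ v : cU (UB (F := F) A B) x,
          (MonoidAlgebra.mapRingHom _ (WittVector.constantCoeff (p := p) (R := k)) E).coeff
            (⟨v, (mem_inf.1 v.2).2⟩ * y) = 0) ∧
      Blk2 χ x E)
    (a : A ≃ₗ[F] A) (b : B ≃ₗ[F] B) : Res (sg p χ) a b = 0 := by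
  refine res_sg_av hpF hχ (fun x hx hx1 hxp => ?_) a b
  obtain ⟨E, h1, h2, h3, h4⟩ := h x hx hx1 hxp
  refine ⟨E, h1, h2, ?_, h4⟩
  have _ : Fintype (cU (UB (F := F) A B) x) := Fintype.ofFinite _
  have _ : Fintype ((cU (UB (F := F) A B) x).subgroupOf
        (centralizer ({x} : Set ((A × B) ≃ₗ[F] (A × B))))) := Fintype.ofFinite _
  apply MonoidAlgebra.coeff_injective
  ext y
  rw [H19.Cusp.av_mul_coeff, MonoidAlgebra.coeff_zero, Finsupp.coe_zero, Pi.zero_apply]
  have h5 := h3 y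
  let e : cU (UB (F := F) A B) x ≃ (cU (UB (F := F) A B) x).subgroupOf
      (centralizer ({x} : Set ((A × B) ≃ₗ[F] (A × B)))) :=
    { toFun := fun c => ⟨⟨c, (mem_inf.1 c.2).2⟩, c.2⟩
      invFun := fun c => ⟨(c.1 : (A × B) ≃ₗ[F] (A × B)), c.2⟩
      left_inv := fun c => rfl
      right_inv := fun c => rfl }
  rw [← Equiv.sum_comp e]
  erw [h5]
  rw [mul_zero]

end

end Vale.Agent.P180.H386
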