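import Vale.Agent.P180.R2.H799.BN3

/-!
P180 H386: the Mackey formula for the Harish-Chandra idempotent of a cuspidal idempotent, from the
relative positions (no form here).
-/

set_option linter.all false

namespace Vale.Agent.P180.H386.Mack

open Vale.Agent.P180 Vale.Agent.P180.H768.Gd Vale.Agent.P180.R2.H799
open Vale.Agent.P180.R2.H799.BN (av av_left av_right av_comm Nm mem_Nm)

section

variable {k : Type*} [Field k] {H G : Type*} [Group H] [Group G] [Finite G]

/-- an element of the group algebra of `H` in the group algebra of `G` -/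
noncomputable abbrev dd (k : Type*) [Field k] {H G : Type*} [Group H] [Group G] (d : H →* G) :
    MonoidAlgebra k H →+* MonoidAlgebra k G :=
  MonoidAlgebra.mapDomainRingHom k d

theorem dd_single (d : H →* G) (h : H) (c : k) :
    dd k d (MonoidAlgebra.single h c) = MonoidAlgebra.single (d h) c := by
  change MonoidAlgebra.mapDomain d _ = _
  rw [MonoidAlgebra.mapDomain_single]

/-- the data: `GL(A) → G`, the unipotent radical, the group of the orthogonal space, a cuspidal
idempotent -/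
structure Dat (k : Type*) [Field k] (H G : Type*) [Group H] [Group G] [Finite G] where
  d : H →* G
  U : Subgroup G
  G' : Subgroup G
  ε : MonoidAlgebra k H
  hcU : ((Nat.card U : ℕ) : k) ≠ 0
  dU : ∀ h, ∀ u ∈ U, d h * u * (d h)⁻¹ ∈ U
  GU : ∀ g ∈ G', ∀ u ∈ U, g * u * g⁻¹ ∈ U
  comm : ∀ g ∈ G', ∀ h, g * d h = d h * g
  idem : ε * ε = ε
  prim : ∀ h, ∃ c : k, ε * MonoidAlgebra.single h 1 * ε = c • ε

namespace Dat

variable (D : Dat k H G)

/-- the idempotent -/
noncomputable def E : MonoidAlgebra k G := av k D.U * dd k D.d D.ε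

theorem comm_av (x : MonoidAlgebra k H) : dd k D.d x * av k D.U = av k D.U * dd k D.d x := by
  induction x using MonoidAlgebra.induction_linear with
  | zero => rw [map_zero, zero_mul, mul_zero]
  | add x y hx hy => rw [map_add, add_mul, mul_add, hx, hy]
  | single h c =>
    rw [dd_single]
    have hh : D.d h ∈ D.d.range := ⟨h, rfl⟩
    refine av_comm (L := D.d.range) ?_ (single_mem_SubAlg hh c)
    rintro _ ⟨h, rfl⟩
    rw [mem_Nm]
    intro x
    constructor
    · intro hx
      exact D.dU h _ hx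
    · intro hx
      have h1 := D.dU h⁻¹ _ hx
      rw [map_inv, inv_inv] at h1
      have e : (D.d h)⁻¹ * (D.d h * x * (D.d h)⁻¹) * D.d h = x := by group
      rwa [e] at h1

theorem E_eq : D.E = dd k D.d D.ε * av k D.U := by rw [D.comm_av]; rfl

theorem E_left {u : G} (hu : u ∈ D.U) : (MonoidAlgebra.single u 1 : MonoidAlgebra _ _) * D.E = D.E := by
  rw [E, ← mul_assoc, av_left D.U hu]

theorem E_right {u : G} (hu : u ∈ D.U) : D.E * (MonoidAlgebra.single u 1 : MonoidAlgebra _ _) = D.E := by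
  rw [E_eq, mul_assoc, av_right D.U hu]

theorem E_eps : D.E * dd k D.d D.ε = D.E := by
  rw [E, mul_assoc, ← map_mul, D.idem]

theorem eps_E : dd k D.d D.ε * D.E = D.E := by
  rw [E_eq, ← mul_assoc, ← map_mul, D.idem]

theorem av_av : av k D.U * av k D.U = av k D.U := BN.av_idem D.hcU

theorem E_E : D.E * D.E = D.E := by
  calc D.E * D.E = D.E * (av k D.U * dd k D.d D.ε) := rfl
    _ = dd k D.d D.ε * (av k D.U * av k D.U) * dd k D.d D.ε := by
        rw [D.E_eq]; simp only [mul_assoc]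
    _ = av k D.U * dd k D.d D.ε * dd k D.d D.ε := by rw [D.av_av, D.comm_av]
    _ = D.E := D.E_eps

theorem G'_av {g : G} (hg : g ∈ D.G') : (MonoidAlgebra.single g 1 : MonoidAlgebra _ _) * av k D.U = av k D.U * (MonoidAlgebra.single g 1 : MonoidAlgebra _ _) := by
  refine av_comm (L := D.G') ?_ (single_mem_SubAlg hg 1)
  intro g hg
  rw [mem_Nm]
  intro x
  constructor
  · intro hx
    exact D.GU g hg _ hx
  · intro hx
    have h1 := D.GU g⁻¹ (D.G'.inv_mem hg) _ hx
    rw [inv_inv] at h1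
    have e : g⁻¹ * (g * x * g⁻¹) * g = x := by group
    rwa [e] at h1

theorem G'_dd {g : G} (hg : g ∈ D.G') (x : MonoidAlgebra k H) :
    (MonoidAlgebra.single g 1 : MonoidAlgebra _ _) * dd k D.d x = dd k D.d x * (MonoidAlgebra.single g 1 : MonoidAlgebra _ _) := by
  induction x using MonoidAlgebra.induction_linear with
  | zero => rw [map_zero, zero_mul, mul_zero]
  | add x y hx hy => rw [map_add, add_mul, mul_add, hx, hy]
  | single h c =>
    rw [dd_single, MonoidAlgebra.single_mul_single, MonoidAlgebra.single_mul_single,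
      D.comm g hg h, one_mul, mul_one]

theorem G'_E {g : G} (hg : g ∈ D.G') : (MonoidAlgebra.single g 1 : MonoidAlgebra _ _) * D.E = D.E * (MonoidAlgebra.single g 1 : MonoidAlgebra _ _) := by
  rw [E, ← mul_assoc, D.G'_av hg, mul_assoc, D.G'_dd hg, ← mul_assoc]

theorem sg_mul (g h : G) : (MonoidAlgebra.single (g * h) (1 : k) : MonoidAlgebra k G) =
    (MonoidAlgebra.single g 1 : MonoidAlgebra _ _) * (MonoidAlgebra.single h 1 : MonoidAlgebra _ _) := by
  rw [MonoidAlgebra.single_mul_single, one_mul]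

/-- `E g E = 0` for the positions which are neither extreme -/
theorem mack_zero {g : G} {ι : Type*} (s : Finset ι) (hs : ((s.card : ℕ) : k) ≠ 0) (v : ι → H)
    (hcusp : D.ε * ∑ i ∈ s, MonoidAlgebra.single (v i) 1 = 0)
    (hv : ∀ i ∈ s, ∃ u ∈ D.U, ∃ u' ∈ D.U, D.d (v i) * u = g * u' * g⁻¹) :
    D.E * (MonoidAlgebra.single g 1 : MonoidAlgebra _ _) * D.E = 0 := by
  have h1 : ∀ i ∈ s, D.E * (MonoidAlgebra.single g 1 : MonoidAlgebra _ _) * D.E =
      dd k D.d (D.ε * MonoidAlgebra.single (v i) 1) * (av k D.U * (MonoidAlgebra.single g 1 : MonoidAlgebra _ _) * D.E) := by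
    intro i hi
    obtain ⟨u, hu, u', hu', h⟩ := hv i hi
    have h2 : (MonoidAlgebra.single g 1 : MonoidAlgebra _ _) * D.E = (MonoidAlgebra.single (D.d (v i) * u) 1 : MonoidAlgebra _ _) * ((MonoidAlgebra.single g 1 : MonoidAlgebra _ _) * D.E) := by
      have h3 : D.d (v i) * u * g = g * u' := by rw [h]; group
      rw [← mul_assoc, ← sg_mul, h3, sg_mul, mul_assoc, D.E_left hu']
    have h4 : D.E * (MonoidAlgebra.single (D.d (v i) * u) 1 : MonoidAlgebra _ _) = dd k D.d (D.ε * MonoidAlgebra.single (v i) 1) *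
        av k D.U := by
      rw [sg_mul, ← dd_single (k := k), E_eq, mul_assoc, ← mul_assoc (av k D.U), ← D.comm_av,
        mul_assoc (dd k D.d _) (av k D.U), av_right D.U hu, ← mul_assoc, ← map_mul]
    calc D.E * (MonoidAlgebra.single g 1 : MonoidAlgebra _ _) * D.E = D.E * ((MonoidAlgebra.single g 1 : MonoidAlgebra _ _) * D.E) := mul_assoc _ _ _
      _ = D.E * ((MonoidAlgebra.single (D.d (v i) * u) 1 : MonoidAlgebra _ _) * ((MonoidAlgebra.single g 1 : MonoidAlgebra _ _) * D.E)) := by rw [← h2]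
      _ = D.E * (MonoidAlgebra.single (D.d (v i) * u) 1 : MonoidAlgebra _ _) * ((MonoidAlgebra.single g 1 : MonoidAlgebra _ _) * D.E) := (mul_assoc _ _ _).symm
      _ = _ := by rw [h4]; simp only [mul_assoc]
  have h5 : ((s.card : ℕ) : k) • (D.E * (MonoidAlgebra.single g 1 : MonoidAlgebra _ _) * D.E) = 0 := by
    have h6 : ∑ i ∈ s, D.E * (MonoidAlgebra.single g 1 : MonoidAlgebra _ _) * D.E = 0 := by
      rw [Finset.sum_congr rfl h1, ← Finset.sum_mul, ← map_sum, ← Finset.mul_sum, hcusp, map_zero,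
        zero_mul]
    rw [Finset.sum_const, ← Nat.cast_smul_eq_nsmul k] at h6
    exact h6
  exact (smul_eq_zero.mp h5).resolve_left hs

/-- `g` in the parabolic -/
theorem mack_par {u u' g' : G} {h : H} (hu : u ∈ D.U) (hg' : g' ∈ D.G') (hu' : u' ∈ D.U) :
    ∃ c : k, D.E * (MonoidAlgebra.single (u * D.d h * g' * u') 1 : MonoidAlgebra _ _) * D.E = c • ((MonoidAlgebra.single g' 1 : MonoidAlgebra _ _) * D.E) := by
  obtain ⟨c, hc⟩ := D.prim h
  refine ⟨c, ?_⟩
  calc D.E * (MonoidAlgebra.single (u * D.d h * g' * u') 1 : MonoidAlgebra _ _) * D.E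
      = (D.E * (MonoidAlgebra.single u 1 : MonoidAlgebra _ _)) * (MonoidAlgebra.single (D.d h) 1 : MonoidAlgebra _ _) * (MonoidAlgebra.single g' 1 : MonoidAlgebra _ _) * ((MonoidAlgebra.single u' 1 : MonoidAlgebra _ _) * D.E) := by
        simp only [sg_mul, mul_assoc]
    _ = D.E * (MonoidAlgebra.single (D.d h) 1 : MonoidAlgebra _ _) * ((MonoidAlgebra.single g' 1 : MonoidAlgebra _ _) * D.E) := by
        rw [D.E_right hu, D.E_left hu']; simp only [mul_assoc]
    _ = D.E * (MonoidAlgebra.single (D.d h) 1 : MonoidAlgebra _ _) * (D.E * (MonoidAlgebra.single g' 1 : MonoidAlgebra _ _)) := by rw [D.G'_E hg']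
    _ = (av k D.U * (dd k D.d D.ε * (MonoidAlgebra.single (D.d h) 1 : MonoidAlgebra _ _) * dd k D.d D.ε) * av k D.U) * (MonoidAlgebra.single g' 1 : MonoidAlgebra _ _) := by
        conv_lhs => rw [← mul_assoc]
        congr 1
        conv_lhs => enter [2]; rw [D.E_eq]
        rw [E]
        simp only [mul_assoc]
    _ = (c • D.E) * (MonoidAlgebra.single g' 1 : MonoidAlgebra _ _) := by
        congr 1
        rw [← dd_single (k := k), ← map_mul, ← map_mul, hc]
        have h1 : dd k D.d (c • D.ε) = c • dd k D.d D.ε := by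
          change MonoidAlgebra.mapDomain D.d _ = _
          rw [MonoidAlgebra.mapDomain_smul]
          rfl
        rw [h1, mul_smul_comm, smul_mul_assoc, mul_assoc, D.comm_av, ← mul_assoc, D.av_av]
        rfl
    _ = c • ((MonoidAlgebra.single g' 1 : MonoidAlgebra _ _) * D.E) := by rw [smul_mul_assoc, D.G'_E hg']

/-- the opposite position -/
theorem mack_opp {t u u' g' : G} {h : H} (hu : u ∈ D.U) (hg' : g' ∈ D.G') (hu' : u' ∈ D.U)
    {tt : H →* H} (ht : ∀ h, t * D.d h * t⁻¹ = D.d (tt h)) {J : MonoidAlgebra k H}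
    {εt : MonoidAlgebra k H} (hεt : dd k D.d D.ε * (MonoidAlgebra.single t 1 : MonoidAlgebra _ _) = (MonoidAlgebra.single t 1 : MonoidAlgebra _ _) * dd k D.d εt)
    (hJ : ∀ h, ∃ c : k, εt * MonoidAlgebra.single h 1 * D.ε = c • J) :
    ∃ c : k, D.E * (MonoidAlgebra.single (u * t * D.d h * g' * u') 1 : MonoidAlgebra _ _) * D.E =
      c • ((av k D.U * (MonoidAlgebra.single t 1 : MonoidAlgebra _ _) * dd k D.d J * av k D.U) * (MonoidAlgebra.single g' 1 : MonoidAlgebra _ _)) := by
  obtain ⟨c, hc⟩ := hJ h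
  refine ⟨c, ?_⟩
  calc D.E * (MonoidAlgebra.single (u * t * D.d h * g' * u') 1 : MonoidAlgebra _ _) * D.E
      = (D.E * (MonoidAlgebra.single u 1 : MonoidAlgebra _ _)) * (MonoidAlgebra.single t 1 : MonoidAlgebra _ _) * (MonoidAlgebra.single (D.d h) 1 : MonoidAlgebra _ _) * (MonoidAlgebra.single g' 1 : MonoidAlgebra _ _) * ((MonoidAlgebra.single u' 1 : MonoidAlgebra _ _) * D.E) := by
        simp only [sg_mul, mul_assoc]
    _ = D.E * (MonoidAlgebra.single t 1 : MonoidAlgebra _ _) * (MonoidAlgebra.single (D.d h) 1 : MonoidAlgebra _ _) * ((MonoidAlgebra.single g' 1 : MonoidAlgebra _ _) * D.E) := by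
        rw [D.E_right hu, D.E_left hu']; simp only [mul_assoc]
    _ = D.E * (MonoidAlgebra.single t 1 : MonoidAlgebra _ _) * (MonoidAlgebra.single (D.d h) 1 : MonoidAlgebra _ _) * (D.E * (MonoidAlgebra.single g' 1 : MonoidAlgebra _ _)) := by rw [D.G'_E hg']
    _ = (av k D.U * (dd k D.d D.ε * (MonoidAlgebra.single t 1 : MonoidAlgebra _ _)) * (MonoidAlgebra.single (D.d h) 1 : MonoidAlgebra _ _) * dd k D.d D.ε * av k D.U) *
          (MonoidAlgebra.single g' 1 : MonoidAlgebra _ _) := by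
        conv_lhs => rw [← mul_assoc]
        congr 1
        conv_lhs => enter [2]; rw [D.E_eq]
        rw [E]
        simp only [mul_assoc]
    _ = (av k D.U * (MonoidAlgebra.single t 1 : MonoidAlgebra _ _) * dd k D.d (εt * MonoidAlgebra.single h 1 * D.ε) * av k D.U) *
          (MonoidAlgebra.single g' 1 : MonoidAlgebra _ _) := by
        rw [hεt, map_mul, map_mul, dd_single]
        simp only [mul_assoc]
    _ = _ := by
        rw [hc]
        have h1 : dd k D.d (c • J) = c • dd k D.d J := by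
          change MonoidAlgebra.mapDomain D.d _ = _
          rw [MonoidAlgebra.mapDomain_smul]
          rfl
        rw [h1]
        simp only [mul_smul_comm, smul_mul_assoc]

/-- the orthogonal position -/
theorem mack_orth {s u u' g₁ g₂ : G} {h : H} (hu : u ∈ D.U) (hg₁ : g₁ ∈ D.G') (hg₂ : g₂ ∈ D.G')
    (hu' : u' ∈ D.U) (hs : ∀ h, s * D.d h * s⁻¹ ∈ D.G') :
    D.E * (MonoidAlgebra.single (u * g₁ * s * D.d h * g₂ * u') 1 : MonoidAlgebra _ _) * D.E =
      (MonoidAlgebra.single (g₁ * (s * D.d h * s⁻¹)) 1 : MonoidAlgebra _ _) * (D.E * (MonoidAlgebra.single s 1 : MonoidAlgebra _ _) * D.E) * (MonoidAlgebra.single g₂ 1 : MonoidAlgebra _ _) := by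
  have e : u * g₁ * s * D.d h * g₂ * u' = u * g₁ * (s * D.d h * s⁻¹) * s * g₂ * u' := by group
  rw [e]
  calc D.E * (MonoidAlgebra.single (u * g₁ * (s * D.d h * s⁻¹) * s * g₂ * u') 1 : MonoidAlgebra _ _) * D.E
      = (D.E * (MonoidAlgebra.single u 1 : MonoidAlgebra _ _)) * (MonoidAlgebra.single g₁ 1 : MonoidAlgebra _ _) * (MonoidAlgebra.single (s * D.d h * s⁻¹) 1 : MonoidAlgebra _ _) * (MonoidAlgebra.single s 1 : MonoidAlgebra _ _) * (MonoidAlgebra.single g₂ 1 : MonoidAlgebra _ _) *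
          ((MonoidAlgebra.single u' 1 : MonoidAlgebra _ _) * D.E) := by
        rw [sg_mul (g := u * g₁ * (s * D.d h * s⁻¹) * s * g₂) (h := u'),
          sg_mul (g := u * g₁ * (s * D.d h * s⁻¹) * s) (h := g₂),
          sg_mul (g := u * g₁ * (s * D.d h * s⁻¹)) (h := s),
          sg_mul (g := u * g₁) (h := s * D.d h * s⁻¹), sg_mul (g := u) (h := g₁)]
        simp only [mul_assoc]
    _ = (D.E * (MonoidAlgebra.single g₁ 1 : MonoidAlgebra _ _)) * (MonoidAlgebra.single (s * D.d h * s⁻¹) 1 : MonoidAlgebra _ _) * (MonoidAlgebra.single s 1 : MonoidAlgebra _ _) * ((MonoidAlgebra.single g₂ 1 : MonoidAlgebra _ _) * D.E) := by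
        rw [D.E_right hu, D.E_left hu']; simp only [mul_assoc]
    _ = (MonoidAlgebra.single g₁ 1 : MonoidAlgebra _ _) * (D.E * (MonoidAlgebra.single (s * D.d h * s⁻¹) 1 : MonoidAlgebra _ _)) * (MonoidAlgebra.single s 1 : MonoidAlgebra _ _) * (D.E * (MonoidAlgebra.single g₂ 1 : MonoidAlgebra _ _)) := by
        rw [← D.G'_E hg₁, D.G'_E hg₂]; simp only [mul_assoc]
    _ = (MonoidAlgebra.single g₁ 1 : MonoidAlgebra _ _) * ((MonoidAlgebra.single (s * D.d h * s⁻¹) 1 : MonoidAlgebra _ _) * D.E) * (MonoidAlgebra.single s 1 : MonoidAlgebra _ _) * (D.E * (MonoidAlgebra.single g₂ 1 : MonoidAlgebra _ _)) := by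
        rw [D.G'_E (hs h)]
    _ = _ := by
        rw [sg_mul (g := g₁)]
        simp only [mul_assoc]

end Dat

end

end Vale.Agent.P180.H386.Mack
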