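import Vale.Agent.P180.H386.PosB
import Vale.Agent.P180.H386.MackA
import Vale.Agent.P180.H354.Witt

/-!
P180 H386: the Mackey formula for the Harish-Chandra idempotent in a classical group.
-/

set_option linter.all false

namespace Vale.Agent.P180.H386.Fm

open Module Vale.Agent.P180.R2.H854
open Vale.Agent.P180.H354.Fm

variable {K E : Type*} [Field K] [AddCommGroup E] [Module K E] {Φ : HForm K E} {q : E → K}
  {τ : K → K} [FiniteDimensional K E] [Finite K]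

/-- a dual pair of singular subspaces of `W` -/
structure Lv (Φ : HForm K E) (q : E → K) (W A D : Submodule K E) : Prop where
  hW : W ⊓ Φ.perp W = ⊥
  hA : A ≤ W
  hD : D ≤ W
  sA : Sing Φ q A
  sD : Sing Φ q D
  dual : D ⊓ Φ.perp A = ⊥
  rk : finrank K A = finrank K D

namespace Lv

variable {W A D : Submodule K E} (L : Lv Φ q W A D)

include L

theorem perp_Wc : Φ.perp (W ⊓ Φ.perp (A ⊔ D)) = Φ.perp W ⊔ (A ⊔ D) := by
  rw [Φ.perp_inf, Φ.perp_perp]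

theorem nondeg_Wc : (W ⊓ Φ.perp (A ⊔ D)) ⊓ Φ.perp (W ⊓ Φ.perp (A ⊔ D)) = ⊥ := by
  rw [L.perp_Wc, eq_bot_iff]
  rintro x ⟨⟨hx1, hx2⟩, hx3⟩
  obtain ⟨w, hw, y, hy, rfl⟩ := Submodule.mem_sup.mp hx3
  obtain ⟨a, ha, d, hd, rfl⟩ := Submodule.mem_sup.mp hy
  have h1 : w ∈ W ⊓ Φ.perp W := by
    refine ⟨?_, hw⟩
    have e : w = (w + (a + d)) - (a + d) := by abel
    rw [e]
    exact W.sub_mem hx1 (W.add_mem (L.hA ha) (L.hD hd))
  rw [L.hW, Submodule.mem_bot] at h1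
  rw [h1, zero_add] at hx2 ⊢
  rw [Φ.perp_sup] at hx2
  have h2 : d ∈ D ⊓ Φ.perp A := by
    refine ⟨hd, fun y hy => ?_⟩
    have h3 := hx2.1 y hy
    rw [Φ.add_left, L.sA.2 a ha y hy, zero_add] at h3
    exact h3
  rw [L.dual, Submodule.mem_bot] at h2
  rw [h2, add_zero] at hx2 ⊢
  have h3 : a ∈ A ⊓ Φ.perp D := ⟨ha, hx2.2⟩
  rw [dual_symm L.dual L.rk] at h3
  exact h3

/-- the stabiliser of `A` -/
theorem exists_levi (hQ : QP Φ q τ) {H : Type*} [Group H] (d : H →* (E ≃ₗ[K] E))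
    (hd1 : ∀ h, d h ∈ GW Φ q W) (hd3 : ∀ h, ∀ a ∈ D, d h a ∈ D)
    (hd5 : ∀ f : E ≃ₗ[K] E, A.map (f : E →ₗ[K] E) = A → ∃ h, ∀ a ∈ A, d h a = f a)
    {g : E ≃ₗ[K] E} (hg : g ∈ GW Φ q W) (hgA : A.map (g : E →ₗ[K] E) = A) :
    ∃ h, ∃ g' ∈ GW Φ q (W ⊓ Φ.perp (A ⊔ D)), ∃ u ∈ UA Φ q W A, g = d h * g' * u := by
  have hgi := (GW Φ q W).inv_mem hg
  have hgm : ∀ a ∈ A, g a ∈ A := fun a ha => by
    have h : g a ∈ A.map (g : E →ₗ[K] E) := ⟨a, ha, rfl⟩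
    rwa [hgA] at h
  have h1' : D.map ((g⁻¹ : E ≃ₗ[K] E) : E →ₗ[K] E) ⊓ Φ.perp A = ⊥ := by
    rw [eq_bot_iff]
    rintro _ ⟨⟨y, hy, rfl⟩, hp⟩
    have h2 : y ∈ D ⊓ Φ.perp A := by
      refine ⟨hy, ?_⟩
      intro a ha
      have h3 : a ∈ A.map (g : E →ₗ[K] E) := by rw [hgA]; exact ha
      obtain ⟨b, hb, rfl⟩ := h3
      have h4 : Φ.B (g⁻¹ y) b = 0 := hp b hb
      rw [← hg.1.1, apply_inv_self''] at h4
      exact h4
    rw [L.dual, Submodule.mem_bot] at h2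
    rw [h2]
    change g⁻¹ 0 ∈ (⊥ : Submodule K E)
    rw [map_zero]
    exact Submodule.zero_mem _
  have hDW : D.map ((g⁻¹ : E ≃ₗ[K] E) : E →ₗ[K] E) ≤ W := by
    rintro _ ⟨y, hy, rfl⟩
    exact GW_mem hgi (L.hD hy)
  obtain ⟨u, hu, h2⟩ := exists_opp hQ L.hA L.hD hDW L.sA L.sD (L.sD.map hgi.1) L.dual h1' L.rk
    (L.rk.trans (LinearEquiv.finrank_map_eq g⁻¹ D).symm)
  have hf : g * u ∈ GW Φ q W := (GW Φ q W).mul_mem hg hu.1
  have hfA : A.map ((g * u : E ≃ₗ[K] E) : E →ₗ[K] E) = A := by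
    apply Submodule.eq_of_le_of_finrank_eq
    · rintro _ ⟨y, hy, rfl⟩
      change g (u y) ∈ A
      rw [hu.2.1 y hy]
      exact hgm y hy
    · rw [LinearEquiv.finrank_map_eq]
  have hfD : ∀ y ∈ D, (g * u) y ∈ D := by
    intro y hy
    have h3 : u y ∈ D.map ((g⁻¹ : E ≃ₗ[K] E) : E →ₗ[K] E) := by
      rw [← h2]
      exact ⟨y, hy, rfl⟩
    obtain ⟨z, hz, h4⟩ := h3
    have h5 : u y = g⁻¹ z := h4.symm
    rw [mul_apply', h5, apply_inv_self'']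
    exact hz
  obtain ⟨h, hh⟩ := hd5 _ hfA
  have hdi : ∀ x, (d h)⁻¹ (d h x) = x := fun x => inv_apply_self' (d h) x
  have hg'W : (d h)⁻¹ * (g * u) ∈ GW Φ q W := (GW Φ q W).mul_mem ((GW Φ q W).inv_mem (hd1 h)) hf
  have hg'A : ∀ a ∈ A, ((d h)⁻¹ * (g * u)) a = a := by
    intro a ha
    rw [mul_apply', ← hh a ha, hdi]
  have hg'D : ∀ a ∈ D, ((d h)⁻¹ * (g * u)) a = a := by
    intro y hy
    have h6 : ((d h)⁻¹ * (g * u)) y ∈ D := by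
      rw [mul_apply', ← map_inv]
      exact hd3 _ _ (hfD y hy)
    have h7 : ((d h)⁻¹ * (g * u)) y - y ∈ D ⊓ Φ.perp A := by
      refine ⟨D.sub_mem h6 hy, Φ.mem_perp'.mpr ?_⟩
      intro a ha
      rw [Φ.sub_right]
      have h8 := hg'W.1.1 a y
      rw [hg'A a ha] at h8
      rw [h8, sub_self]
    rw [L.dual, Submodule.mem_bot] at h7
    exact sub_eq_zero.mp h7
  refine ⟨h, (d h)⁻¹ * (g * u), ⟨hg'W.1, ?_⟩, u⁻¹, (UA Φ q W A).inv_mem hu, by group⟩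
  intro x hx
  rw [L.perp_Wc] at hx
  obtain ⟨w, hw, y, hy, rfl⟩ := Submodule.mem_sup.mp hx
  obtain ⟨a, ha, b, hb, rfl⟩ := Submodule.mem_sup.mp hy
  rw [map_add, map_add, hg'W.2 w hw, hg'A a ha, hg'D b hb]

/-- **The relative positions.** -/
theorem positions {g : E ≃ₗ[K] E} (hg : g ∈ GW Φ q W) :
    A.map (g : E →ₗ[K] E) = A ∨
      (∃ C, C ≠ ⊥ ∧ C < A ∧ (C = A ⊓ A.map (g : E →ₗ[K] E) ∨
        C = A ⊓ Φ.perp (A.map (g : E →ₗ[K] E)))) ∨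
      (A.map (g : E →ₗ[K] E) ≤ Φ.perp A ∧ A.map (g : E →ₗ[K] E) ⊓ A = ⊥) ∨
      A.map (g : E →ₗ[K] E) ⊓ Φ.perp A = ⊥ := by
  by_cases h1 : A ⊓ A.map (g : E →ₗ[K] E) = ⊥
  · by_cases h2 : A ⊓ Φ.perp (A.map (g : E →ₗ[K] E)) = ⊥
    · right; right; right
      exact dual_symm h2 (LinearEquiv.finrank_map_eq g A)
    · by_cases h3 : A ⊓ Φ.perp (A.map (g : E →ₗ[K] E)) = A
      · right; right; left
        refine ⟨?_, by rw [inf_comm]; exact h1⟩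
        intro y hy z hz
        have h4 : z ∈ A ⊓ Φ.perp (A.map (g : E →ₗ[K] E)) := by rw [h3]; exact hz
        exact Φ.eq_zero_comm (h4.2 y hy)
      · right; left
        exact ⟨_, h2, lt_of_le_of_ne inf_le_left h3, Or.inr rfl⟩
  · by_cases h3 : A ⊓ A.map (g : E →ₗ[K] E) = A
    · left
      symm
      apply Submodule.eq_of_le_of_finrank_eq (inf_eq_left.mp h3)
      rw [LinearEquiv.finrank_map_eq]
    · right; left
      exact ⟨_, h1, lt_of_le_of_ne inf_le_left h3, Or.inl rfl⟩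

/-! ### The Mackey formula -/

section mack

open Vale.Agent.P180.H386.Mack

variable {k : Type*} [Field k] {H : Type*} [Group H] [Finite (E ≃ₗ[K] E)]

/-- the intermediate positions -/
theorem mid (hQ : QP Φ q τ) (M : Dat k H (E ≃ₗ[K] E)) (hU : M.U = UA Φ q W A)
    (hd1 : ∀ h, M.d h ∈ GW Φ q W) (hd2 : ∀ h, ∀ a ∈ A, M.d h a ∈ A)
    (hd4 : ∀ h, ∀ z ∈ Φ.perp A, M.d h z - z ∈ A)
    (hcusp : ∀ C : Submodule K E, C ≠ ⊥ → C < A → ∃ s : Finset H, ((s.card : ℕ) : k) ≠ 0 ∧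
      M.ε * ∑ h ∈ s, MonoidAlgebra.single h 1 = 0 ∧ ∀ h ∈ s, (∀ a ∈ A, M.d h a - a ∈ C) ∧
        ∀ a ∈ C, M.d h a = a)
    {g : E ≃ₗ[K] E} (hg : g ∈ GW Φ q W) {C : Submodule K E} (hC0 : C ≠ ⊥) (hCA : C < A)
    (hC : C = A ⊓ A.map (g : E →ₗ[K] E) ∨ C = A ⊓ Φ.perp (A.map (g : E →ₗ[K] E))) :
    M.E * (MonoidAlgebra.single g 1 : MonoidAlgebra _ _) * M.E = 0 := by
  obtain ⟨s, hs, hε, hh⟩ := hcusp C hC0 hCA
  refine M.mack_zero s hs id hε fun h hhs => ?_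
  obtain ⟨h1, h2⟩ := hh h hhs
  let n : A →ₗ[K] E := (M.d h : E →ₗ[K] E) ∘ₗ A.subtype - A.subtype
  have hn : ∀ a : A, n a = M.d h a - a := fun a => rfl
  have hgA : A.map (g : E →ₗ[K] E) ≤ W := by
    rintro _ ⟨y, hy, rfl⟩
    exact GW_mem hg (L.hA hy)
  obtain ⟨w, hw, h3, h4⟩ := both_mid hQ L.hW L.hA hgA L.sA (L.sA.map hg.1) hC n
    (fun a => by rw [hn]; exact h1 a a.2) (fun a ha => by rw [hn, h2 a ha, sub_self])
  obtain ⟨u', hu', h5⟩ := exists_conj_UA hg hw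
  have hwA : ∀ a ∈ A, w a = M.d h a := by
    intro a ha
    have h6 := h3 ⟨a, ha⟩
    rw [hn] at h6
    rw [h6]
    change a + (M.d h a - a) = _
    abel
  refine ⟨(M.d h)⁻¹ * w, ?_, u', by rw [hU]; exact hu', ?_⟩
  · rw [hU]
    refine ⟨(GW Φ q W).mul_mem ((GW Φ q W).inv_mem (hd1 h)) hw.1, fun a ha => ?_, fun z hz => ?_⟩
    · rw [mul_apply', hwA a ha, inv_apply_self']
    · have h6 : ((M.d h)⁻¹ * w) z - z = M.d h⁻¹ (w z - z) + (M.d h⁻¹ z - z) := by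
        rw [mul_apply', ← map_inv, map_sub]
        abel
      rw [h6]
      exact A.add_mem (hd2 _ _ (h4 z hz)) (hd4 _ z hz)
  · rw [← h5]
    change M.d h * ((M.d h)⁻¹ * w) = w
    group

/-- **The Mackey formula.** -/
theorem mackey (hQ : QP Φ q τ) (M : Dat k H (E ≃ₗ[K] E)) (hU : M.U = UA Φ q W A)
    (hG' : M.G' = GW Φ q (W ⊓ Φ.perp (A ⊔ D)))
    (hd1 : ∀ h, M.d h ∈ GW Φ q W) (hd2 : ∀ h, ∀ a ∈ A, M.d h a ∈ A)
    (hd3 : ∀ h, ∀ a ∈ D, M.d h a ∈ D)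
    (hd4 : ∀ h, ∀ z ∈ Φ.perp A, M.d h z - z ∈ A)
    (hd5 : ∀ f : E ≃ₗ[K] E, A.map (f : E →ₗ[K] E) = A → ∃ h, ∀ a ∈ A, M.d h a = f a)
    (hcusp : ∀ C : Submodule K E, C ≠ ⊥ → C < A → ∃ s : Finset H, ((s.card : ℕ) : k) ≠ 0 ∧
      M.ε * ∑ h ∈ s, MonoidAlgebra.single h 1 = 0 ∧ ∀ h ∈ s, (∀ a ∈ A, M.d h a - a ∈ C) ∧
        ∀ a ∈ C, M.d h a = a)
    {t s : E ≃ₗ[K] E} (ht : t ∈ GW Φ q W) (htA : A.map (t : E →ₗ[K] E) = D)
    (hs : ∀ S : Submodule K E, S ≤ W ⊓ Φ.perp (A ⊔ D) → Sing Φ q S → finrank K S = finrank K A →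
      s ∈ GW Φ q W ∧ A.map (s : E →ₗ[K] E) ≤ W ⊓ Φ.perp (A ⊔ D) ∧
      ∀ h, s * M.d h * s⁻¹ ∈ M.G')
    {g : E ≃ₗ[K] E} (hg : g ∈ GW Φ q W) :
    (A.map (g : E →ₗ[K] E) = A ∧ ∃ c : k, ∃ g' ∈ M.G', M.E * (MonoidAlgebra.single g 1 : MonoidAlgebra _ _) * M.E = c • ((MonoidAlgebra.single g' 1 : MonoidAlgebra _ _) * M.E)) ∨
      (A.map (g : E →ₗ[K] E) ≠ A ∧ (M.E * (MonoidAlgebra.single g 1 : MonoidAlgebra _ _) * M.E = 0 ∨
        (∃ h, ∃ g' ∈ M.G', M.E * (MonoidAlgebra.single g 1 : MonoidAlgebra _ _) * M.E = M.E * (MonoidAlgebra.single (t * M.d h) 1 : MonoidAlgebra _ _) * M.E * (MonoidAlgebra.single g' 1 : MonoidAlgebra _ _)) ∨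
        ((∃ S : Submodule K E, S ≤ W ⊓ Φ.perp (A ⊔ D) ∧ Sing Φ q S ∧ finrank K S = finrank K A) ∧
          ∃ g₁ ∈ M.G', ∃ g₂ ∈ M.G',
          M.E * (MonoidAlgebra.single g 1 : MonoidAlgebra _ _) * M.E = (MonoidAlgebra.single g₁ 1 : MonoidAlgebra _ _) * (M.E * (MonoidAlgebra.single s 1 : MonoidAlgebra _ _) * M.E) * (MonoidAlgebra.single g₂ 1 : MonoidAlgebra _ _)))) := by
  by_cases h0 : A.map (g : E →ₗ[K] E) = A
  · left
    refine ⟨h0, ?_⟩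
    obtain ⟨h, g', hg', u, hu, rfl⟩ := L.exists_levi hQ M.d hd1 hd3 hd5 hg h0
    obtain ⟨c, hc⟩ := M.mack_par (u := 1) (u' := u) (g' := g') (h := h) M.U.one_mem
      (by rw [hG']; exact hg') (by rw [hU]; exact hu)
    rw [one_mul] at hc
    exact ⟨c, g', by rw [hG']; exact hg', hc⟩
  right
  refine ⟨h0, ?_⟩
  have hgA : A.map (g : E →ₗ[K] E) ≤ W := by
    rintro _ ⟨y, hy, rfl⟩
    exact GW_mem hg (L.hA hy)
  rcases L.positions hg with h1 | ⟨C, hC0, hCA, hC⟩ | ⟨h1, h2⟩ | h1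
  · exact absurd h1 h0
  · left
    exact L.mid hQ M hU hd1 hd2 hd4 hcusp hg hC0 hCA hC
  · right; right
    obtain ⟨u, hu, h3⟩ := exists_to_perp hQ L.hW L.hA hgA L.sA h1 h2 L.dual L.rk
    have hug : u * g ∈ GW Φ q W := (GW Φ q W).mul_mem hu.1 hg
    have hmm : (A.map (g : E →ₗ[K] E)).map (u : E →ₗ[K] E) =
        A.map ((u * g : E ≃ₗ[K] E) : E →ₗ[K] E) := by
      rw [← Submodule.map_comp]
      rfl
    rw [hmm] at h3
    have hS1 := L.sA.map hug.1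
    have hS2 : finrank K (A.map ((u * g : E ≃ₗ[K] E) : E →ₗ[K] E)) = finrank K A :=
      LinearEquiv.finrank_map_eq (u * g) A
    obtain ⟨hsW, hsA, hsd⟩ := hs _ h3 hS1 hS2
    obtain ⟨g₁, hg₁, h4⟩ := hQ.witt L.nondeg_Wc hsA h3 (L.sA.map hsW.1) hS1
      ((LinearEquiv.finrank_map_eq s A).trans hS2.symm)
    have hmm2 : (A.map (s : E →ₗ[K] E)).map (g₁ : E →ₗ[K] E) =
        A.map ((g₁ * s : E ≃ₗ[K] E) : E →ₗ[K] E) := by
      rw [← Submodule.map_comp]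
      rfl
    rw [hmm2] at h4
    have hle : GW Φ q (W ⊓ Φ.perp (A ⊔ D)) ≤ GW Φ q W := GW_mono Φ q inf_le_left
    have hf : (g₁ * s)⁻¹ * (u * g) ∈ GW Φ q W :=
      (GW Φ q W).mul_mem ((GW Φ q W).inv_mem ((GW Φ q W).mul_mem (hle hg₁) hsW)) hug
    have hfA : A.map (((g₁ * s)⁻¹ * (u * g) : E ≃ₗ[K] E) : E →ₗ[K] E) = A := by
      have h5 : A.map (((g₁ * s)⁻¹ * (u * g) : E ≃ₗ[K] E) : E →ₗ[K] E) =
          (A.map ((u * g : E ≃ₗ[K] E) : E →ₗ[K] E)).map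
            (((g₁ * s)⁻¹ : E ≃ₗ[K] E) : E →ₗ[K] E) := by
        rw [← Submodule.map_comp]
        rfl
      rw [h5, ← h4, ← Submodule.map_comp]
      have h6 : (((g₁ * s)⁻¹ : E ≃ₗ[K] E) : E →ₗ[K] E) ∘ₗ ((g₁ * s : E ≃ₗ[K] E) : E →ₗ[K] E) =
          LinearMap.id := by
        ext x
        exact inv_apply_self' (g₁ * s) x
      rw [h6, Submodule.map_id]
    obtain ⟨h, g', hg', u₁, hu₁, h7⟩ := L.exists_levi hQ M.d hd1 hd3 hd5 hf hfA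
    have e : g = u⁻¹ * g₁ * s * M.d h * g' * u₁ := by
      have e1 : g = u⁻¹ * (g₁ * s) * ((g₁ * s)⁻¹ * (u * g)) := by group
      rw [e1, h7]
      group
    refine ⟨⟨_, h3, hS1, hS2⟩, g₁ * (s * M.d h * s⁻¹), M.G'.mul_mem (by rw [hG']; exact hg₁) (hsd h), g',
      by rw [hG']; exact hg', ?_⟩
    rw [e]
    exact M.mack_orth (M.U.inv_mem (by rw [hU]; exact hu)) (by rw [hG']; exact hg₁)
      (by rw [hG']; exact hg') (by rw [hU]; exact hu₁) hsd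
  · right; left
    obtain ⟨u, hu, h3⟩ := exists_opp hQ L.hA hgA L.hD L.sA (L.sA.map hg.1) L.sD h1 L.dual
      (LinearEquiv.finrank_map_eq g A).symm L.rk
    have hug : u * g ∈ GW Φ q W := (GW Φ q W).mul_mem hu.1 hg
    have hf : t⁻¹ * (u * g) ∈ GW Φ q W := (GW Φ q W).mul_mem ((GW Φ q W).inv_mem ht) hug
    have hfA : A.map ((t⁻¹ * (u * g) : E ≃ₗ[K] E) : E →ₗ[K] E) = A := by
      have h5 : A.map ((t⁻¹ * (u * g) : E ≃ₗ[K] E) : E →ₗ[K] E) =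
          ((A.map (g : E →ₗ[K] E)).map (u : E →ₗ[K] E)).map
            ((t⁻¹ : E ≃ₗ[K] E) : E →ₗ[K] E) := by
        rw [← Submodule.map_comp, ← Submodule.map_comp]
        rfl
      rw [h5, h3, ← htA, ← Submodule.map_comp]
      have h6 : ((t⁻¹ : E ≃ₗ[K] E) : E →ₗ[K] E) ∘ₗ (t : E →ₗ[K] E) = LinearMap.id := by
        ext x
        exact inv_apply_self' t x
      rw [h6, Submodule.map_id]
    obtain ⟨h, g', hg', u₁, hu₁, h7⟩ := L.exists_levi hQ M.d hd1 hd3 hd5 hf hfA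
    have e : g = u⁻¹ * (t * M.d h) * g' * u₁ := by
      have e1 : g = u⁻¹ * t * (t⁻¹ * (u * g)) := by group
      rw [e1, h7]
      group
    have hg'' : g' ∈ M.G' := by rw [hG']; exact hg'
    refine ⟨h, g', hg'', ?_⟩
    rw [e]
    calc M.E * (MonoidAlgebra.single (u⁻¹ * (t * M.d h) * g' * u₁) 1 : MonoidAlgebra _ _) * M.E
        = (M.E * (MonoidAlgebra.single (u⁻¹) 1 : MonoidAlgebra _ _)) * (MonoidAlgebra.single (t * M.d h) 1 : MonoidAlgebra _ _) * (MonoidAlgebra.single g' 1 : MonoidAlgebra _ _) * ((MonoidAlgebra.single u₁ 1 : MonoidAlgebra _ _) * M.E) := by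
          simp only [Dat.sg_mul, mul_assoc]
      _ = M.E * (MonoidAlgebra.single (t * M.d h) 1 : MonoidAlgebra _ _) * ((MonoidAlgebra.single g' 1 : MonoidAlgebra _ _) * M.E) := by
          rw [M.E_right (M.U.inv_mem (by rw [hU]; exact hu)),
            M.E_left (by rw [hU]; exact hu₁)]
          simp only [mul_assoc]
      _ = _ := by
          rw [M.G'_E hg'', ← mul_assoc]

end mack

end Lv

end Vale.Agent.P180.H386.Fm
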