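import Vale.Agent.P179.H905.N4

/-!
P180 H386: sums of a class function over a coset of a normalised subgroup of order prime to `p`.
-/

set_option linter.all false

namespace Vale.Agent.P180.H386

open Finset Subgroup P179C P179P
open P179X (pp)

universe u

section Coset

variable {p : ℕ} [hp : Fact p.Prime] {G : Type} [Group G] [Finite G]

omit [Finite G] in
theorem pow_coset {U : Subgroup G} {m u : G} (hm : ∀ v, v ∈ U ↔ m * v * m⁻¹ ∈ U) (hu : u ∈ U)
    (n : ℕ) : ∃ w ∈ U, (m * u) ^ n = m ^ n * w := by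
  induction n with
  | zero => exact ⟨1, one_mem _, by simp⟩
  | succ n ih =>
    obtain ⟨w, hw, h⟩ := ih
    refine ⟨m⁻¹ * w * m * u, mul_mem ?_ hu, ?_⟩
    · rw [hm]
      have : m * (m⁻¹ * w * m) * m⁻¹ = w := by group
      rwa [this]
    · rw [pow_succ, h, pow_succ]; group

theorem reg_coset {U : Subgroup G} (hU : ¬ p ∣ Nat.card U) {m u : G}
    (hm : ∀ v, v ∈ U ↔ m * v * m⁻¹ ∈ U) (hu : u ∈ U) (h : ¬ p ∣ orderOf m) :
    ¬ p ∣ orderOf (m * u) := by
  obtain ⟨w, hw, h1⟩ := pow_coset hm hu (orderOf m)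
  rw [pow_orderOf_eq_one, one_mul] at h1
  have h2 : w ^ Nat.card U = 1 := by
    have := congrArg (Subtype.val) (pow_card_eq_one' (x := (⟨w, hw⟩ : U)))
    rw [SubmonoidClass.coe_pow] at this
    exact this
  have h3 : (m * u) ^ (orderOf m * Nat.card U) = 1 := by rw [pow_mul, h1, h2]
  intro h4
  have h5 := h4.trans (orderOf_dvd_of_pow_eq_one h3)
  exact ((Nat.Prime.dvd_mul hp.out).1 h5).elim h hU

theorem reg_coset_iff {U : Subgroup G} (hU : ¬ p ∣ Nat.card U) {m u : G}
    (hm : ∀ v, v ∈ U ↔ m * v * m⁻¹ ∈ U) (hu : u ∈ U) :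
    p ∣ orderOf (m * u) ↔ p ∣ orderOf m := by
  rw [← not_iff_not]
  constructor
  · intro h
    have h1 : ∀ v, v ∈ U ↔ (m * u) * v * (m * u)⁻¹ ∈ U := by
      intro v
      have e : (m * u) * v * (m * u)⁻¹ = m * (u * v * u⁻¹) * m⁻¹ := by group
      rw [e, ← hm]
      constructor
      · intro hv; exact mul_mem (mul_mem hu hv) (inv_mem hu)
      · intro hv
        have : v = u⁻¹ * (u * v * u⁻¹) * u := by group
        rw [this]
        exact mul_mem (mul_mem (inv_mem hu) hv) hu
    have h2 := reg_coset hU h1 (inv_mem hu) h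
    rwa [mul_assoc, mul_inv_cancel, mul_one] at h2
  · exact reg_coset hU hm hu

/-- a common exponent for the `p`-parts -/
theorem exists_exp : ∃ E : ℕ, ∀ h : G, h ^ E = pp p h := by
  have hcop : Nat.Coprime (ordProj[p] (Nat.card G)) (ordCompl[p] (Nat.card G)) :=
    Nat.Coprime.pow_left _ ((Nat.Prime.coprime_iff_not_dvd hp.out).mpr
      (Nat.not_dvd_ordCompl hp.out Nat.card_pos.ne'))
  obtain ⟨E, h1, h2⟩ := Nat.chineseRemainder hcop 1 0
  refine ⟨E, fun h => ?_⟩
  have hc : Commute (pp p h) (pr p h) := pp_comm h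
  conv_lhs => rw [← pp_mul_pr (p := p) h, hc.mul_pow]
  have h3 : pr p h ^ E = 1 := by
    rw [← orderOf_dvd_iff_pow_eq_one]
    refine Nat.dvd_trans ?_ (Nat.modEq_zero_iff_dvd.mp h2)
    have h4 : orderOf (pr p h) ∣ Nat.card G := orderOf_dvd_natCard _
    rw [← Nat.ordProj_mul_ordCompl_eq_self (Nat.card G) p] at h4
    refine Nat.Coprime.dvd_of_dvd_mul_left ?_ h4
    exact Nat.Coprime.pow_right _
      ((Nat.Prime.coprime_iff_not_dvd hp.out).2 (pr_regular' h)).symm
  have h4 : pp p h ^ E = pp p h := by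
    conv_rhs => rw [← pow_one (pp p h)]
    refine pow_eq_pow_iff_modEq.2 (h1.of_dvd ?_)
    obtain ⟨n, hn⟩ := pp_pow_eq_one (p := p) h
    obtain ⟨j, -, hj⟩ := (Nat.dvd_prime_pow hp.out).mp (orderOf_dvd_of_pow_eq_one hn)
    rw [hj]
    refine pow_dvd_pow _ ?_
    refine (hp.out.pow_dvd_iff_le_factorization Nat.card_pos.ne').1 ?_
    rw [← hj]
    exact orderOf_dvd_natCard _
  rw [h3, h4, mul_one]

/-- `p`-elements of a coset of a `p'`-group are conjugate -/
theorem conj_coset {U : Subgroup G} (hU : ¬ p ∣ Nat.card U) {x u : G} (hx : ∃ n : ℕ, x ^ p ^ n = 1)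
    (hN : ∀ v, v ∈ U ↔ x * v * x⁻¹ ∈ U) (hu : u ∈ U) (hz : ∃ n : ℕ, (x * u) ^ p ^ n = 1) :
    ∃ v ∈ U, x * u = v * x * v⁻¹ := by
  classical
  obtain ⟨n1, h1⟩ := hx
  obtain ⟨n2, h2⟩ := hz
  let σ : Equiv.Perm U :=
    { toFun := fun v => ⟨x * (u * v) * x⁻¹, (hN _).1 (mul_mem hu v.2)⟩
      invFun := fun v => ⟨u⁻¹ * (x⁻¹ * v * x), mul_mem (inv_mem hu) (by
        rw [hN]
        have : x * (x⁻¹ * (v : G) * x) * x⁻¹ = v := by group
        rw [this]; exact v.2)⟩
      left_inv := fun v => by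
        apply Subtype.ext
        change u⁻¹ * (x⁻¹ * (x * (u * v) * x⁻¹) * x) = v
        group
      right_inv := fun v => by
        apply Subtype.ext
        change x * (u * (u⁻¹ * (x⁻¹ * v * x))) * x⁻¹ = v
        group }
  have hσ : ∀ (j : ℕ) (v : U), ((σ ^ j) v : G) * x ^ j = (x * u) ^ j * v := by
    intro j
    induction j with
    | zero => intro v; simp
    | succ j ih =>
      intro v
      rw [pow_succ' σ, Equiv.Perm.mul_apply]
      change x * (u * ((σ ^ j) v : U)) * x⁻¹ * x ^ (j + 1) = _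
      have e : x * (u * ((σ ^ j) v : G)) * x⁻¹ * x ^ (j + 1) = x * u * (((σ ^ j) v : G) * x ^ j) := by
        rw [pow_succ' x]; group
      rw [e, ih, pow_succ']; group
  have hfix : σ ^ p ^ (n1 + n2) = 1 := by
    ext v
    have h3 := hσ (p ^ (n1 + n2)) v
    have h4 : x ^ p ^ (n1 + n2) = 1 := by rw [pow_add, pow_mul, h1, one_pow]
    have h5 : (x * u) ^ p ^ (n1 + n2) = 1 := by rw [add_comm, pow_add, pow_mul, h2, one_pow]
    rw [h4, h5, mul_one, one_mul] at h3
    rw [h3]; rfl
  have _ := Fintype.ofFinite U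
  obtain ⟨v, hv⟩ := Equiv.Perm.exists_fixed_point_of_prime (p := p) (n := n1 + n2)
    (by rwa [← Nat.card_eq_fintype_card]) hfix
  refine ⟨v, v.2, ?_⟩
  have h3 := congrArg (Subtype.val) hv
  change x * (u * (v : G)) * x⁻¹ = v at h3
  have h4 : x * u = (x * (u * (v : G)) * x⁻¹) * x * (v : G)⁻¹ := by group
  rw [h4, h3]

/-- the centraliser of `x` in `U` -/
def cU (U : Subgroup G) (x : G) : Subgroup G := U ⊓ centralizer {x}

omit [Finite G] in
theorem mem_cU {U : Subgroup G} {x u : G} : u ∈ cU U x ↔ u ∈ U ∧ u * x = x * u := by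
  unfold cU
  rw [Subgroup.mem_inf, Subgroup.mem_centralizer_singleton_iff]

end Coset

section Sum

variable {p : ℕ} [hp : Fact p.Prime] {G : Type} [Group G] [Finite G]
variable {K : Type u} [CommRing K]

open scoped Classical in
/-- **The sum of a class function over a coset.** -/
theorem sum_coset {U : Subgroup G} [Fintype U] (hU : ¬ p ∣ Nat.card U) {x y : G}
    [Fintype (cU U x)]
    (hx : ∃ n : ℕ, x ^ p ^ n = 1) (hy : ¬ p ∣ orderOf y) (hxy : x * y = y * x)
    (hxN : ∀ v, v ∈ U ↔ x * v * x⁻¹ ∈ U) (hyN : ∀ v, v ∈ U ↔ y * v * y⁻¹ ∈ U)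
    {f : G → K} (hf : ∀ a b, f (a * b * a⁻¹) = f b) :
    (Nat.card (cU U x) : K) * ∑ u : U, f (x * y * u) =
      (Nat.card U : K) * ∑ c : cU U x, f (x * (y * c)) := by
  have hmN : ∀ v, v ∈ U ↔ (x * y) * v * (x * y)⁻¹ ∈ U := by
    intro v
    have e : (x * y) * v * (x * y)⁻¹ = x * (y * v * y⁻¹) * x⁻¹ := by group
    rw [e, ← hxN, ← hyN]
  have hmi : ∀ v ∈ U, (x * y)⁻¹ * v * (x * y) ∈ U := by
    intro v hv
    rw [hmN]
    have e : x * y * ((x * y)⁻¹ * v * (x * y)) * (x * y)⁻¹ = v := by group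
    rwa [e]
  -- membership in the centraliser is detected by the `p`-part
  have hpp : ∀ u ∈ U, pp p (x * y * u) = x ↔ u * x = x * u := by
    intro u hu
    constructor
    · intro h
      have h1 : x * (x * y * u) = (x * y * u) * x := by
        have h2 := pp_comm (p := p) (x * y * u)
        have h3 := pp_mul_pr (p := p) (x * y * u)
        rw [h] at h2 h3
        calc x * (x * y * u) = x * (x * pr p (x * y * u)) := by rw [h3]
          _ = x * (pr p (x * y * u) * x) := by rw [h2]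
          _ = (x * pr p (x * y * u)) * x := (mul_assoc _ _ _).symm
          _ = (x * y * u) * x := by rw [h3]
      have h2 : x * (y * u) = y * u * x := by
        apply mul_left_cancel (a := x)
        rw [← mul_assoc x y u, h1]; group
      have h3 : y * (u * x) = y * (x * u) := by
        rw [← mul_assoc, ← h2, ← mul_assoc, hxy, mul_assoc]
      exact mul_left_cancel h3
    · intro h
      rw [mul_assoc]
      refine pp_eq ?_ hx (reg_coset hU hyN hu hy)
      rw [← mul_assoc, hxy, mul_assoc, ← h, mul_assoc]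
  -- number of conjugators
  have hcnt : ∀ u : U, (Finset.univ.filter fun v : U => (v : G) * x * (v : G)⁻¹ =
      pp p (x * y * u)).card = Nat.card (cU U x) := by
    intro u
    obtain ⟨E, hE⟩ := exists_exp (p := p) (G := G)
    obtain ⟨w, hw, h1⟩ := pow_coset hmN u.2 E
    rw [hE, hE] at h1
    have h2 : pp p (x * y) = x := pp_eq hxy hx hy
    rw [h2] at h1
    obtain ⟨v0, hv0, h3⟩ := conj_coset hU hx hxN hw (by
      rw [← h1]; exact pp_pow_eq_one _)
    rw [← h1] at h3
    rw [Nat.card_eq_fintype_card, ← Fintype.card_coe]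
    refine Fintype.card_congr ?_
    refine
      { toFun := fun v => ⟨v0⁻¹ * (v.1 : G), mem_cU.2 ⟨mul_mem (inv_mem hv0) v.1.2, ?_⟩⟩
        invFun := fun c => ⟨⟨v0 * c, mul_mem hv0 (mem_cU.1 c.2).1⟩, ?_⟩
        left_inv := fun v => by
          apply Subtype.ext; apply Subtype.ext
          change v0 * (v0⁻¹ * (v.1 : G)) = _
          group
        right_inv := fun c => by
          apply Subtype.ext
          change v0⁻¹ * (v0 * (c : G)) = _
          group }
    · have h4 : (v.1 : G) * x * (v.1 : G)⁻¹ = v0 * x * v0⁻¹ := ((mem_filter.1 v.2).2).trans h3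
      have h5 : v0⁻¹ * (v.1 : G) * x = v0⁻¹ * ((v.1 : G) * x * (v.1 : G)⁻¹) * v.1 := by group
      rw [h5, h4]; group
    · rw [mem_filter]
      refine ⟨mem_univ _, ?_⟩
      rw [h3]
      change v0 * (c : G) * x * (v0 * (c : G))⁻¹ = v0 * x * v0⁻¹
      have h4 := (mem_cU.1 c.2).2
      have h5 : v0 * (c : G) * x * (v0 * (c : G))⁻¹ = v0 * ((c : G) * x) * (c : G)⁻¹ * v0⁻¹ := by
        group
      rw [h5, h4]; group
  -- double counting
  have h1 : (Nat.card (cU U x) : K) * ∑ u : U, f (x * y * u) =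
      ∑ v : U, ∑ u : U, if (v : G) * x * (v : G)⁻¹ = pp p (x * y * u) then f (x * y * u) else 0 := by
    rw [Finset.sum_comm, Finset.mul_sum]
    refine Finset.sum_congr rfl fun u _ => ?_
    rw [← Finset.sum_filter, Finset.sum_const, hcnt u, nsmul_eq_mul]
  have h2 : ∀ v : U, (∑ u : U, if (v : G) * x * (v : G)⁻¹ = pp p (x * y * u)
      then f (x * y * u) else 0) = ∑ c : cU U x, f (x * (y * c)) := by
    intro v
    -- conjugation by `v`
    let ρ : U ≃ U :=
      { toFun := fun u => ⟨(x * y)⁻¹ * (v * (x * y * u) * (v : G)⁻¹), by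
          have e : (x * y)⁻¹ * (v * (x * y * u) * (v : G)⁻¹) =
            ((x * y)⁻¹ * v * (x * y)) * u * (v : G)⁻¹ := by group
          rw [e]
          exact mul_mem (mul_mem (hmi _ v.2) u.2) (inv_mem v.2)⟩
        invFun := fun u => ⟨(x * y)⁻¹ * ((v : G)⁻¹ * (x * y * u) * v), by
          have e : (x * y)⁻¹ * ((v : G)⁻¹ * (x * y * u) * v) =
            ((x * y)⁻¹ * (v : G)⁻¹ * (x * y)) * u * v := by group
          rw [e]
          exact mul_mem (mul_mem (hmi _ (inv_mem v.2)) u.2) v.2⟩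
        left_inv := fun u => by
          apply Subtype.ext
          change (x * y)⁻¹ * ((v : G)⁻¹ * (x * y * ((x * y)⁻¹ * (v * (x * y * u) * (v : G)⁻¹))) * v) = u
          group
        right_inv := fun u => by
          apply Subtype.ext
          change (x * y)⁻¹ * (v * (x * y * ((x * y)⁻¹ * ((v : G)⁻¹ * (x * y * u) * v))) * (v : G)⁻¹) = u
          group }
    have hρ : ∀ u : U, x * y * (ρ u : G) = v * (x * y * u) * (v : G)⁻¹ := fun u => by
      change x * y * ((x * y)⁻¹ * (v * (x * y * u) * (v : G)⁻¹)) = _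
      rw [mul_inv_cancel_left]
    rw [← Equiv.sum_comp ρ]
    have h3 : ∀ u : U, (if (v : G) * x * (v : G)⁻¹ = pp p (x * y * (ρ u : G))
        then f (x * y * (ρ u : G)) else 0) = if (u : G) ∈ cU U x then f (x * (y * u)) else 0 := by
      intro u
      rw [hρ, pp_conj, hf, mul_assoc x y]
      refine if_congr ?_ rfl rfl
      rw [mem_cU]
      constructor
      · intro h
        refine ⟨u.2, (hpp u u.2).1 ?_⟩
        have h4 := mul_right_cancel h
        rw [mul_assoc x y]
        exact (mul_left_cancel h4).symm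
      · intro h
        rw [← mul_assoc x y, (hpp u u.2).2 h.2]
    rw [Finset.sum_congr rfl fun u _ => h3 u, ← Finset.sum_filter]
    refine Finset.sum_bij (fun u hu => (⟨(u : G), (mem_filter.1 hu).2⟩ : cU U x)) ?_ ?_ ?_ ?_
    · intro u hu; exact mem_univ _
    · intro u hu u' hu' h
      apply Subtype.ext
      exact congrArg (fun z : cU U x => (z : G)) h
    · intro c _
      exact ⟨⟨c, (mem_cU.1 c.2).1⟩, mem_filter.2 ⟨mem_univ _, c.2⟩, rfl⟩
    · intro u hu; rfl
  rw [h1, Finset.sum_congr rfl fun v _ => h2 v, Finset.sum_const, Finset.card_univ, nsmul_eq_mul,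
    Nat.card_eq_fintype_card]

end Sum

end Vale.Agent.P180.H386
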