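import Vale.Agent.P180.H354.B2
import Vale.Agent.P180.H337.Ir

/-!
P180 H386 (block B4a of theorem B): irreducible characters over an arbitrary algebraically closed
field of characteristic zero are transported complex ones.
-/

set_option linter.all false

namespace Vale.Agent.P180.H386

open Finset Vale.Agent.P180.H354
open Vale.Agent.P180.H393 (IsIr ev)
open Vale.Agent.P180.R2.H471.Hc (ip)
open P179P (Irr)
open P179P (chA)

open scoped Classical

universe u

section

variable {K : Type u} [Field K] [IsAlgClosed K] [CharZero K] {G : Type} [Group G] [Fintype G]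

/-- the functional equation of an irreducible character -/
theorem conj_sum {ψ : G → K} (h : IsIr K G ψ) (g y : G) :
    ψ 1 * ∑ x : G, ψ (x * g * x⁻¹ * y) = Nat.card G * ψ g * ψ y := by
  let z : G → K := fun t => ∑ x : G, if x * g * x⁻¹ = t then 1 else 0
  have hcf : ∀ x y, ψ (x * y * x⁻¹) = ψ y := Vale.Agent.P180.H393.IsCh.cf h.1
  have hz : P179C.IsCF z := by
    intro a t
    simp only [z]
    rw [← Equiv.sum_comp (Equiv.mulLeft a)]
    refine Finset.sum_congr rfl fun x _ => ?_
    simp only [Equiv.coe_mulLeft, mul_inv_rev]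
    congr 1
    rw [eq_iff_iff]
    constructor
    · intro h
      have := congrArg (fun y => a⁻¹ * y * a) h
      simpa [mul_assoc] using this
    · intro h
      rw [← h]; simp [mul_assoc]
  have h0 := eigen h hz y
  have h1 : ∀ F : G → K, ∑ t : G, z t * F t = ∑ x : G, F (x * g * x⁻¹) := by
    intro F
    simp only [z, Finset.sum_mul, ite_mul, one_mul, zero_mul]
    rw [Finset.sum_comm]
    refine Finset.sum_congr rfl fun x _ => ?_
    rw [Finset.sum_ite_eq univ, if_pos (mem_univ _)]
  rw [h1 (fun t => ψ (t * y))] at h0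
  rw [h0, omF, h1]
  have h2 : ∀ x : G, ψ (x * g * x⁻¹) = ψ g := fun x => hcf x g
  simp only [h2, Finset.sum_const, Finset.card_univ, nsmul_eq_mul]
  have h3 := H337.one_ne h
  rw [Nat.card_eq_fintype_card]
  field_simp

variable (j : integralClosure ℤ ℂ →+* K)

theorem conj_sumA (χ : Irr G) (g y : G) :
    j (chA χ 1) * ∑ x : G, j (chA χ (x * g * x⁻¹ * y)) = Nat.card G * j (chA χ g) * j (chA χ y) := by
  rw [← map_sum, ← map_mul]
  have h1 : chA χ 1 * ∑ x : G, chA χ (x * g * x⁻¹ * y) = (Nat.card G : ℕ) * chA χ g * chA χ y := by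
    apply Subtype.ext
    push_cast
    change χ.1 1 * ∑ x : G, χ.1 (x * g * x⁻¹ * y) = _ * χ.1 g * χ.1 y
    rw [P179P.sum_conj_irr, Nat.card_eq_fintype_card]
    have := χ.one_ne_zero
    field_simp
  rw [h1, map_mul, map_mul, map_natCast]

theorem row_A (χ χ' : Irr G) : ∑ g : G, j (chA χ g) * j (chA χ' g⁻¹) =
    if χ = χ' then (Nat.card G : K) else 0 := by
  have h1 : ∑ g : G, chA χ g * chA χ' g⁻¹ = if χ = χ' then ((Nat.card G : ℕ) : integralClosure ℤ ℂ)
      else 0 := by
    apply Subtype.ext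
    push_cast
    change ∑ g : G, χ.1 g * χ'.1 g⁻¹ = _
    rw [P179P.row_orth]
    split_ifs <;> simp
  simp only [← map_mul, ← map_sum]
  rw [h1]
  split_ifs <;> simp

theorem col_A (g h : G) : ∑ χ : Irr G, j (chA χ g) * j (chA χ h⁻¹) =
    (Nat.card {x : G // x * g * x⁻¹ = h} : K) := by
  have h1 : ∑ χ : Irr G, chA χ g * chA χ h⁻¹ =
      ((Nat.card {x : G // x * g * x⁻¹ = h} : ℕ) : integralClosure ℤ ℂ) := by
    apply Subtype.ext
    push_cast
    exact P179P.col_orth g h
  simp only [← map_mul, ← map_sum]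
  rw [h1, map_natCast]

theorem expand_A {f : G → K} (hf : ∀ x y, f (x * y * x⁻¹) = f y) (x : G) :
    (Nat.card G : K) * f x = ∑ χ : Irr G, (∑ g : G, f g * j (chA χ g⁻¹)) * j (chA χ x) := by
  simp only [Finset.sum_mul]
  rw [Finset.sum_comm]
  have h1 : ∀ g : G, ∑ χ : Irr G, f g * j (chA χ g⁻¹) * j (chA χ x) =
      ∑ t : G, if t * x * t⁻¹ = g then f x else 0 := by
    intro g
    have h2 : ∀ χ : Irr G, f g * j (chA χ g⁻¹) * j (chA χ x) =
        f g * (j (chA χ x) * j (chA χ g⁻¹)) := fun χ => by ring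
    rw [Finset.sum_congr rfl fun χ _ => h2 χ, ← Finset.mul_sum, col_A, ← Finset.sum_filter,
      Finset.sum_const, nsmul_eq_mul, Nat.card_eq_fintype_card, Fintype.card_subtype, mul_comm]
    rcases Finset.eq_empty_or_nonempty (Finset.univ.filter fun t : G => t * x * t⁻¹ = g) with
      he | ⟨t, ht⟩
    · rw [he]; simp
    · rw [mem_filter] at ht
      rw [← ht.2, hf]
  rw [Finset.sum_congr rfl fun g _ => h1 g, Finset.sum_comm]
  have h2 : ∀ t : G, ∑ g : G, (if t * x * t⁻¹ = g then f x else 0) = f x := fun t => by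
    rw [Finset.sum_ite_eq univ, if_pos (mem_univ _)]
  rw [Finset.sum_congr rfl fun t _ => h2 t, Finset.sum_const, Finset.card_univ, nsmul_eq_mul,
    Nat.card_eq_fintype_card]

/-- **Every irreducible character over `K` is a transported complex one.** -/
theorem exists_irr_of {ψ : G → K} (h : IsIr K G ψ) : ∃ χ : Irr G, ∀ g, ψ g = j (chA χ g) := by
  have hcf : ∀ x y, ψ (x * y * x⁻¹) = ψ y := Vale.Agent.P180.H393.IsCh.cf h.1
  have hG0 : (Nat.card G : K) ≠ 0 := by
    have : Nat.card G ≠ 0 := Nat.card_pos.ne'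
    exact_mod_cast this
  have hψ1 := H337.one_ne h
  set a : Irr G → K := fun χ => ∑ g : G, ψ g * j (chA χ g⁻¹) with ha
  have hex : ∀ x, (Nat.card G : K) * ψ x = ∑ χ : Irr G, a χ * j (chA χ x) := fun x =>
    expand_A j hcf x
  have hχ1 : ∀ χ : Irr G, j (chA χ 1) ≠ 0 := by
    intro χ h0
    have h1 := conj_sumA j χ 1 1
    rw [h0, zero_mul, mul_zero] at h1
    have h2 := row_A j χ χ
    rw [if_pos rfl] at h2
    have h3 : ∀ g, j (chA χ g) = 0 := by
      intro g
      have h4 := conj_sumA j χ g g⁻¹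
      rw [h0, zero_mul] at h4
      by_contra h5
      have h6 : j (chA χ g⁻¹) = 0 := by
        have := mul_eq_zero.1 h4.symm
        rcases this with h7 | h7
        · exact absurd h7 (mul_ne_zero hG0 h5)
        · exact h7
      have h7 := conj_sumA j χ g g
      rw [h0, zero_mul] at h7
      exact (mul_ne_zero (mul_ne_zero hG0 h5) h5) h7.symm
    rw [Finset.sum_eq_zero fun g _ => by rw [h3 g, zero_mul]] at h2
    exact hG0 h2.symm
  -- some coefficient does not vanish
  have hne : ∃ χ, a χ ≠ 0 := by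
    by_contra hc
    push Not at hc
    have h1 := hex 1
    rw [Finset.sum_eq_zero fun χ _ => by rw [hc χ, zero_mul]] at h1
    exact (mul_ne_zero hG0 hψ1) h1
  obtain ⟨χ, hχ⟩ := hne
  -- proportionality
  have key : ∀ g, ψ 1 * j (chA χ g) = j (chA χ 1) * ψ g := by
    intro g
    -- the two expressions of `ψ(1) Σ_x |G| ψ(x g x⁻¹ y)`
    have h1 : ∀ y, ∑ θ : Irr G, a θ * (ψ 1 * j (chA θ g) * (j (chA θ 1))⁻¹ - ψ g) *
        j (chA θ y) = 0 := by
      intro y
      have h2 := conj_sum h g y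
      have h3 : ψ 1 * ∑ x : G, ((Nat.card G : K) * ψ (x * g * x⁻¹ * y)) =
          ∑ θ : Irr G, a θ * (ψ 1 * ((Nat.card G : K) * j (chA θ g) * (j (chA θ 1))⁻¹)) *
            j (chA θ y) := by
        have h4 : ∀ x : G, (Nat.card G : K) * ψ (x * g * x⁻¹ * y) =
            ∑ θ : Irr G, a θ * j (chA θ (x * g * x⁻¹ * y)) := fun x => hex _
        rw [Finset.sum_congr rfl fun x _ => h4 x, Finset.sum_comm, Finset.mul_sum]
        refine Finset.sum_congr rfl fun θ _ => ?_
        rw [← Finset.mul_sum]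
        have h5 := conj_sumA j θ g y
        have h6 : ∑ x : G, j (chA θ (x * g * x⁻¹ * y)) =
            (j (chA θ 1))⁻¹ * ((Nat.card G : K) * j (chA θ g) * j (chA θ y)) := by
          rw [← h5, inv_mul_cancel_left₀ (hχ1 θ)]
        rw [h6]; ring
      rw [← Finset.mul_sum, mul_left_comm, h2] at h3
      have h7 : (Nat.card G : K) * ((Nat.card G : K) * ψ g * ψ y) =
          (Nat.card G : K) * (ψ g * ∑ θ : Irr G, a θ * j (chA θ y)) := by
        rw [← hex y]; ring
      rw [h7] at h3
      apply mul_left_cancel₀ hG0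
      rw [mul_zero, Finset.mul_sum]
      have h8 : ∀ θ : Irr G, (Nat.card G : K) * (a θ * (ψ 1 * j (chA θ g) * (j (chA θ 1))⁻¹ - ψ g) *
          j (chA θ y)) = a θ * (ψ 1 * ((Nat.card G : K) * j (chA θ g) * (j (chA θ 1))⁻¹)) *
            j (chA θ y) - (Nat.card G : K) * (ψ g * (a θ * j (chA θ y))) := fun θ => by ring
      rw [Finset.sum_congr rfl fun θ _ => h8 θ, Finset.sum_sub_distrib, ← h3, Finset.mul_sum,
        Finset.mul_sum, sub_self]
    -- take the inner product with `χ`
    have h2 : ∑ y : G, (∑ θ : Irr G, a θ * (ψ 1 * j (chA θ g) * (j (chA θ 1))⁻¹ - ψ g) *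
        j (chA θ y)) * j (chA χ y⁻¹) = 0 := by
      refine Finset.sum_eq_zero fun y _ => ?_
      rw [h1 y, zero_mul]
    simp only [Finset.sum_mul] at h2
    rw [Finset.sum_comm] at h2
    have h3 : ∀ θ : Irr G, ∑ y : G, a θ * (ψ 1 * j (chA θ g) * (j (chA θ 1))⁻¹ - ψ g) *
        j (chA θ y) * j (chA χ y⁻¹) = a θ * (ψ 1 * j (chA θ g) * (j (chA θ 1))⁻¹ - ψ g) *
          (if θ = χ then (Nat.card G : K) else 0) := by
      intro θ
      rw [← row_A j θ χ, Finset.mul_sum]
      exact Finset.sum_congr rfl fun y _ => by ring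
    rw [Finset.sum_congr rfl fun θ _ => h3 θ, Finset.sum_eq_single χ] at h2
    · rw [if_pos rfl] at h2
      have h4 := (mul_eq_zero.1 ((mul_eq_zero.1 h2).resolve_right hG0)).resolve_left hχ
      have h5 := sub_eq_zero.1 h4
      rw [← h5]
      have := hχ1 χ
      field_simp
    · intro θ _ hθ
      rw [if_neg hθ, mul_zero]
    · intro h; exact absurd (mem_univ _) h
  -- the degrees
  obtain ⟨m, hm⟩ := H337.ev_nat h (v := 1) (by rw [mul_one])
  rw [H337.ev_one] at hm
  obtain ⟨n, hn0, hn⟩ : ∃ n : ℕ, n ≠ 0 ∧ χ.1 1 = n := by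
    obtain ⟨n, ρ, hρ, hρχ⟩ := χ.2
    have h1 : χ.1 1 = n := by
      rw [← hρχ, Representation.char_one]
      simp
    refine ⟨n, ?_, h1⟩
    intro h0
    apply χ.one_ne_zero
    rw [h1, h0, Nat.cast_zero]
  have hn' : j (chA χ 1) = n := by
    have h1 : chA χ 1 = ((n : ℕ) : integralClosure ℤ ℂ) := by
      apply Subtype.ext
      push_cast
      exact hn
    rw [h1, map_natCast]
  have hm0 : m ≠ 0 := by
    rintro rfl
    rw [Nat.cast_zero] at hm
    exact hψ1 hm
  rw [hm, hn'] at key
  -- norms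
  have h1 : ((m : K) * m) * (Nat.card G : K) = ((n : K) * n) * Nat.card G := by
    have h2 := row_A j χ χ
    rw [if_pos rfl] at h2
    have h3 : ∑ g : G, ψ g * ψ g⁻¹ = Nat.card G := by
      have h4 := h.2
      rw [ip] at h4
      have h5 : (Nat.card G : K) * ((Nat.card G : K)⁻¹ * ∑ g : G, ψ g * ψ g⁻¹) = Nat.card G := by
        rw [h4, mul_one]
      rwa [mul_inv_cancel_left₀ hG0] at h5
    conv_lhs => rw [← h2, Finset.mul_sum]
    conv_rhs => rw [← h3, Finset.mul_sum]
    refine Finset.sum_congr rfl fun g _ => ?_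
    linear_combination (m * j (chA χ g⁻¹) : K) * key g + (n * ψ g : K) * key g⁻¹
  have h2 : m * m = n * n := by
    have := mul_right_cancel₀ hG0 h1
    exact_mod_cast this
  have h3 : m = n := by
    rcases lt_trichotomy m n with h | h | h
    · exact absurd h2 (Nat.mul_self_lt_mul_self h).ne
    · exact h
    · exact absurd h2 (Nat.mul_self_lt_mul_self h).ne'
  refine ⟨χ, fun g => ?_⟩
  have h4 := key g
  rw [← h3] at h4
  have hmK : (m : K) ≠ 0 := by exact_mod_cast hm0
  exact (mul_left_cancel₀ hmK h4).symm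

end

end Vale.Agent.P180.H386
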