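import Vale.Agent.P180.R2.H854.Form

/-!
P180 H386: the form model (temporary copy).
-/

set_option linter.all false

namespace Vale.Agent.P180.H386.Fm

open Module Vale.Agent.P180.R2.H854

variable {K E : Type*} [Field K] [AddCommGroup E] [Module K E]

/-- a quadratic (or hermitian quadratic) map with values in `K` -/
structure QP (Φ : HForm K E) (q : E → K) (τ : K → K) : Prop where
  smul : ∀ (a : K) x, q (a • x) = a * Φ.θ a * q x
  add : ∀ x y, q (x + y) = q x + q y + τ (Φ.B x y)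
  τ_add : ∀ a b, τ (a + b) = τ a + τ b
  τ_symm : ∀ b, τ (Φ.ε * Φ.θ b) = τ b
  τ_smul : ∀ a b, τ (a * Φ.θ a * b) = a * Φ.θ a * τ b
  surj : ∀ x, ∃ t, τ t = q x ∧ t + Φ.ε * Φ.θ t = Φ.B x x

/-- the isometry group -/
def GI (Φ : HForm K E) (q : E → K) : Subgroup (E ≃ₗ[K] E) where
  carrier := {g | (∀ x y, Φ.B (g x) (g y) = Φ.B x y) ∧ ∀ x, q (g x) = q x}
  one_mem' := ⟨fun _ _ => rfl, fun _ => rfl⟩
  mul_mem' := by
    intro a b ha hb
    exact ⟨fun x y => (ha.1 (b x) (b y)).trans (hb.1 x y), fun x => (ha.2 (b x)).trans (hb.2 x)⟩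
  inv_mem' := by
    intro a ha
    have h : ∀ x, a (a⁻¹ x) = x := fun x => LinearEquiv.apply_symm_apply a x
    exact ⟨fun x y => by rw [← ha.1, h, h], fun x => by rw [← ha.2, h]⟩

/-- singular subspaces -/
def Sing (Φ : HForm K E) (q : E → K) (A : Submodule K E) : Prop :=
  (∀ x ∈ A, q x = 0) ∧ ∀ x ∈ A, ∀ y ∈ A, Φ.B x y = 0

/-- the isometries which are trivial on the orthogonal space of `W` -/
def GW (Φ : HForm K E) (q : E → K) (W : Submodule K E) : Subgroup (E ≃ₗ[K] E) where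
  carrier := {g | g ∈ GI Φ q ∧ ∀ x ∈ Φ.perp W, g x = x}
  one_mem' := ⟨(GI Φ q).one_mem, fun _ _ => rfl⟩
  mul_mem' := by
    intro a b ha hb
    refine ⟨(GI Φ q).mul_mem ha.1 hb.1, fun x hx => ?_⟩
    change a (b x) = x
    rw [hb.2 x hx, ha.2 x hx]
  inv_mem' := by
    intro a ha
    refine ⟨(GI Φ q).inv_mem ha.1, fun x hx => ?_⟩
    have h : a⁻¹ (a x) = x := LinearEquiv.symm_apply_apply a x
    rw [ha.2 x hx] at h
    exact h

end Vale.Agent.P180.H386.Fm
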