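import Vale.Agent.P180.H386.GrdB
import Vale.Agent.P180.R2.H259.Cyc.Zero

/-!
P180 H386, R1' leaf B1: a primitive idempotent of `(kN)^S` stays primitive in `(kG)^S` when `G/N` is
a cyclic `p`-group.
-/

set_option linter.all false

namespace Vale.Agent.P180.H386.Grd

open Vale.Agent.P180 Vale.Agent.P180.H768.Gd Vale.Agent.P180.R2.H799 Vale.Agent.P180.R2.H259.Cyc

variable {k : Type*} [Field k] {G : Type*} [Group G] [Finite G]

theorem comp_mul_right' {N : Subgroup G} [N.Normal] {e : MonoidAlgebra k G}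
    (he : e ∈ SubAlg k N) (c : G ⧸ N) (a : MonoidAlgebra k G) :
    comp N c (a * e) = comp N c a * e := by
  classical
  have _ := Fintype.ofFinite (G ⧸ N)
  have he' : SuppIn (cst N 1) e := fun x hx => (QuotientGroup.eq_one_iff x).mpr (he x hx)
  conv_lhs => rw [← sum_comp N a]
  rw [Finset.sum_mul, map_sum, Finset.sum_eq_single c]
  · apply comp_of_supp
    have := mul_supp_cst (comp_supp N c a) he'
    rwa [mul_one] at this
  · intro d _ hd
    apply comp_of_supp_ne N hd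
    have := mul_supp_cst (comp_supp N d a) he'
    rwa [mul_one] at this
  · intro h
    exact absurd (Finset.mem_univ c) h

theorem comp_fix {N S : Subgroup G} [N.Normal] (hcm : ∀ a b : G ⧸ N, a * b = b * a) (c : G ⧸ N)
    {a : MonoidAlgebra k G} (ha : a ∈ Fix (cj k G) S) : comp N c a ∈ Fix (cj k G) S := by
  classical
  intro s hs
  apply MonoidAlgebra.coeff_injective
  ext x
  rw [cj_coeff, comp_coeff, comp_coeff]
  have h1 : ((s⁻¹ * x * s : G) : G ⧸ N) = (x : G ⧸ N) := by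
    rw [QuotientGroup.mk_mul, QuotientGroup.mk_mul, QuotientGroup.mk_inv,
      hcm (s : G ⧸ N)⁻¹ (x : G ⧸ N), inv_mul_cancel_right]
  rw [h1]
  have h2 : a.coeff (s⁻¹ * x * s) = a.coeff x := by
    conv_rhs => rw [← ha s hs]
    rw [cj_coeff]
  rw [h2]

/-- the graded pieces of the corner -/
def VV (N S : Subgroup G) [N.Normal] (i : MonoidAlgebra k G) (x : G ⧸ N) :
    Submodule k (MonoidAlgebra k G) where
  carrier := {a | a ∈ Fix (cj k G) S ∧ i * a = a ∧ a * i = a ∧ SuppIn (cst N x) a}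
  zero_mem' := ⟨Subalgebra.zero_mem _, mul_zero i, zero_mul i, fun y hy => absurd rfl hy⟩
  add_mem' := by
    rintro a b ⟨h1, h2, h3, h4⟩ ⟨h1', h2', h3', h4'⟩
    exact ⟨Subalgebra.add_mem _ h1 h1', by rw [mul_add, h2, h2'], by rw [add_mul, h3, h3'],
      h4.add h4'⟩
  smul_mem' := by
    rintro c a ⟨h1, h2, h3, h4⟩
    exact ⟨Subalgebra.smul_mem _ h1 c, by rw [mul_smul_comm, h2], by rw [smul_mul_assoc, h3],
      h4.smul c⟩

theorem mem_VV {N S : Subgroup G} [N.Normal] {i a : MonoidAlgebra k G} {x : G ⧸ N} :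
    a ∈ VV N S i x ↔ a ∈ Fix (cj k G) S ∧ i * a = a ∧ a * i = a ∧ SuppIn (cst N x) a := Iff.rfl

theorem gl1 [IsAlgClosed k] {N S : Subgroup G} [N.Normal] {i : MonoidAlgebra k G}
    (hi : PrimIn (SubAlg k N ⊓ Fix (cj k G) S) i) : GL1 (VV N S i) i := by
  have hfin : FiniteDimensional k (MonoidAlgebra k G) :=
    Module.Finite.equiv (MonoidAlgebra.coeffLinearEquiv k (M := G) (S := k)).symm
  refine ⟨?_, ?_, hi.ne_zero, fun x a ha => ha.2.1, fun x a ha => ha.2.2.1, ?_, ?_⟩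
  · rintro x y a ⟨h1, h2, h3, h4⟩ b ⟨h1', h2', h3', h4'⟩
    exact ⟨Subalgebra.mul_mem _ h1 h1', by rw [← mul_assoc, h2], by rw [mul_assoc, h3'],
      mul_supp_cst h4 h4'⟩
  · exact ⟨hi.mem.2, hi.idem, hi.idem, mem_SubAlg_iff_cst.mp hi.mem.1⟩
  · rintro a ⟨h1, h2, h3, h4⟩
    rcases hi.dichotomy ⟨mem_SubAlg_iff_cst.mpr h4, h1⟩ h2 h3 with h | ⟨y, hy, h5, h6, h7, h8⟩
    · exact Or.inl h
    · exact Or.inr ⟨y, ⟨hy.2, h5, h6, mem_SubAlg_iff_cst.mp hy.1⟩, h7, h8⟩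
  · rintro a ⟨h1, h2, h3, h4⟩
    exact hi.exists_scalar ⟨mem_SubAlg_iff_cst.mpr h4, h1⟩ h2 h3

/-- **A primitive idempotent of `(kN)^S` stays primitive in `(kG)^S`, `G/N` a cyclic `p`-group.** -/
theorem primIn_pidx [IsAlgClosed k] {p : ℕ} [Fact p.Prime] [CharP k p] {N : Subgroup G} [N.Normal]
    [IsCyclic (G ⧸ N)] (hN : IsPGroup p (G ⧸ N)) {S : Subgroup G} {i : MonoidAlgebra k G}
    (hi : PrimIn (SubAlg k N ⊓ Fix (cj k G) S) i) : PrimIn (Fix (cj k G) S) i := by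
  classical
  have hfin : FiniteDimensional k (MonoidAlgebra k G) :=
    Module.Finite.equiv (MonoidAlgebra.coeffLinearEquiv k (M := G) (S := k)).symm
  have _ := Fintype.ofFinite (G ⧸ N)
  refine ⟨hi.mem.2, hi.idem, hi.ne_zero, fun c hc hcc hci hic => ?_⟩
  have hcm : ∀ a b : G ⧸ N, a * b = b * a := fun a b =>
    (IsCyclic.commGroup (α := G ⧸ N)).mul_comm a b
  refine (gl1 hi).idem_eq hN ?_ hcc
  rw [← sum_comp N c]
  refine Submodule.sum_mem _ fun q _ => Submodule.mem_iSup_of_mem q ?_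
  exact ⟨comp_fix hcm q hc, by rw [← comp_mul_left hi.mem.1, hic],
    by rw [← comp_mul_right' hi.mem.1, hci], comp_supp N q c⟩

/-- the same, without `PrimIn` -/
theorem prim_pidx [IsAlgClosed k] {p : ℕ} [Fact p.Prime] [CharP k p] {N : Subgroup G} [N.Normal]
    (hc : IsCyclic (G ⧸ N)) (hN : IsPGroup p (G ⧸ N)) {S : Subgroup G} {i : MonoidAlgebra k G}
    (hiN : i ∈ SubAlg k N) (hiS : i ∈ Fix (cj k G) S) (hii : i * i = i) (h0 : i ≠ 0)
    (hpr : ∀ f ∈ SubAlg k N, f ∈ Fix (cj k G) S → f * f = f → i * f = f → f * i = f →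
      f = 0 ∨ f = i) :
    ∀ f ∈ Fix (cj k G) S, f * f = f → i * f = f → f * i = f → f = 0 ∨ f = i := by
  have hi : PrimIn (SubAlg k N ⊓ Fix (cj k G) S) i :=
    ⟨⟨hiN, hiS⟩, hii, h0, fun c hc hcc hci hic => hpr c hc.1 hc.2 hcc hic hci⟩
  intro f hf hff hif hfi
  exact (primIn_pidx hN hi).prim f hf hff hfi hif

end Vale.Agent.P180.H386.Grd
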