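import Mathlib

/-!
P180 H386: graded algebras with a nil ideal in degree one.
-/

set_option linter.all false

namespace Vale.Agent.P180.H386.Grd

section nil

variable {k A : Type*} [Field k] [Ring A] [Algebra k A]

theorem nilp_comm {x y : A} (h : IsNilpotent (x * y)) : IsNilpotent (y * x) := by
  obtain ⟨n, hn⟩ := h
  refine ⟨n + 1, ?_⟩
  have h1 : ∀ m, (y * x) ^ (m + 1) = y * (x * y) ^ m * x := by
    intro m
    induction m with
    | zero => rw [zero_add, pow_one, pow_zero, mul_one]
    | succ m ih =>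
      rw [pow_succ, ih, pow_succ]
      simp only [mul_assoc]
  rw [h1, hn, mul_zero, zero_mul]

/-- a nil multiplicatively closed subspace is nilpotent -/
theorem nil_pow [FiniteDimensional k A] (J : Submodule k A)
    (hmul : ∀ x ∈ J, ∀ y ∈ J, x * y ∈ J) (hnil : ∀ x ∈ J, IsNilpotent x) : ∃ r, J ^ r = ⊥ := by
  let C : Subalgebra k A :=
    { carrier := {a | ∃ c : k, a - algebraMap k A c ∈ J}
      mul_mem' := by
        rintro a b ⟨c, hc⟩ ⟨d, hd⟩
        refine ⟨c * d, ?_⟩
        have h1 : a * b - algebraMap k A (c * d) = (a - algebraMap k A c) * (b - algebraMap k A d) +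
            (c • (b - algebraMap k A d) + d • (a - algebraMap k A c)) := by
          rw [map_mul, Algebra.smul_def, Algebra.smul_def, Algebra.commutes d]
          noncomm_ring
        rw [h1]
        exact J.add_mem (hmul _ hc _ hd) (J.add_mem (J.smul_mem _ hd) (J.smul_mem _ hc))
      add_mem' := by
        rintro a b ⟨c, hc⟩ ⟨d, hd⟩
        refine ⟨c + d, ?_⟩
        have h1 : a + b - algebraMap k A (c + d) = (a - algebraMap k A c) +
            (b - algebraMap k A d) := by
          rw [map_add]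
          abel
        rw [h1]
        exact J.add_mem hc hd
      algebraMap_mem' := fun c => ⟨c, by rw [sub_self]; exact J.zero_mem⟩ }
  have hJC : ∀ x ∈ J, x ∈ C := fun x hx => ⟨0, by rw [map_zero, sub_zero]; exact hx⟩
  have hCJ : ∀ y ∈ C, ∀ x ∈ J, y * x ∈ J := by
    rintro y ⟨c, hc⟩ x hx
    have h1 : y * x = (y - algebraMap k A c) * x + c • x := by
      rw [Algebra.smul_def]
      noncomm_ring
    rw [h1]
    exact J.add_mem (hmul _ hc _ hx) (J.smul_mem _ hx)
  have hart : IsArtinianRing C := IsArtinianRing.of_finite k C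
  have hjac : ∀ (x : A) (hx : x ∈ J), (⟨x, hJC x hx⟩ : C) ∈ Ideal.jacobson (⊥ : Ideal C) := by
    intro x hx
    rw [Ideal.mem_jacobson_iff]
    intro y
    have h1 : IsNilpotent (y * ⟨x, hJC x hx⟩ : C) := by
      obtain ⟨n, hn⟩ := hnil _ (hCJ y y.2 x hx)
      refine ⟨n, Subtype.ext ?_⟩
      rw [SubmonoidClass.coe_pow]
      exact hn
    obtain ⟨z, hz⟩ := h1.isUnit_one_add.exists_left_inv
    refine ⟨z, ?_⟩
    have h2 : z * y * ⟨x, hJC x hx⟩ + z - 1 = z * (1 + y * ⟨x, hJC x hx⟩) - 1 := by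
      noncomm_ring
    rw [h2, hz, sub_self]
    exact Submodule.zero_mem _
  obtain ⟨r, hr⟩ := IsArtinianRing.isNilpotent_jacobson_bot (R := C)
  have key : ∀ n : ℕ, ∀ x ∈ J ^ (n + 1), ∃ hx : x ∈ C,
      (⟨x, hx⟩ : C) ∈ (Ideal.jacobson (⊥ : Ideal C)) ^ (n + 1) := by
    intro n
    induction n with
    | zero =>
      intro x hx
      rw [zero_add, pow_one] at hx
      refine ⟨hJC x hx, ?_⟩
      rw [zero_add, Submodule.pow_one]
      exact hjac x hx
    | succ n ih =>
      intro x hx
      rw [pow_succ] at hx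
      induction hx using Submodule.mul_induction_on' with
      | mem_mul_mem a ha b hb =>
        obtain ⟨h1, h2⟩ := ih a ha
        refine ⟨C.mul_mem h1 (hJC b hb), ?_⟩
        rw [Submodule.pow_succ]
        exact Ideal.mul_mem_mul h2 (hjac b hb)
      | add a ha b hb h1 h2 =>
        obtain ⟨h1, h3⟩ := h1
        obtain ⟨h2, h4⟩ := h2
        exact ⟨C.add_mem h1 h2, Ideal.add_mem _ h3 h4⟩
  refine ⟨r + 1, ?_⟩
  rw [eq_bot_iff]
  intro x hx
  obtain ⟨h1, h2⟩ := key r x hx
  rw [Submodule.pow_succ, hr, zero_mul] at h2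
  have h3 : (⟨x, h1⟩ : C) = 0 := h2
  exact congrArg Subtype.val h3

end nil

section grd

variable {k A : Type*} [Field k] [Ring A] [Algebra k A] {P : Type*} [Group P] [Fintype P]

/-- **the pigeonhole lemma** -/
theorem grd_nil (H : P → Submodule k A)
    (hmul : ∀ x y, ∀ a ∈ H x, ∀ b ∈ H y, a * b ∈ H (x * y)) {r : ℕ} (hr : (H 1) ^ r = ⊥) :
    (⨆ x, H x) ^ (Fintype.card P * r) = ⊥ := by
  classical
  let W : ℕ → Set A := fun m => {a | ∃ (x : P) (c : P → ℕ), ∑ s, c s = m + 1 ∧
    ∀ s, 1 ≤ c s → a ∈ (⊤ : Submodule k A) * (H 1) ^ (c s - 1) *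
      (if x = s then 1 else H (s⁻¹ * x))}
  have hstep : ∀ m, ∀ a ∈ W m, ∀ y, ∀ b ∈ H y, a * b ∈ W (m + 1) := by
    rintro m a ⟨x, c, hc, ha⟩ y b hb
    refine ⟨x * y, c + Pi.single (x * y) 1, ?_, ?_⟩
    · simp only [Pi.add_apply]
      rw [Finset.sum_add_distrib, hc, Finset.sum_pi_single']
      simp
    · intro s hs
      have hsuf : ∀ n : ℕ, a ∈ (⊤ : Submodule k A) * (H 1) ^ n *
          (if x = s then 1 else H (s⁻¹ * x)) →
          a * b ∈ (⊤ : Submodule k A) * (H 1) ^ n * H (s⁻¹ * (x * y)) := by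
        intro n hn
        have h1 : a * b ∈ (⊤ : Submodule k A) * (H 1) ^ n *
            (if x = s then 1 else H (s⁻¹ * x)) * H y := Submodule.mul_mem_mul hn hb
        rw [mul_assoc] at h1
        have h2 : (if x = s then 1 else H (s⁻¹ * x)) * H y ≤ H (s⁻¹ * (x * y)) := by
          by_cases hxs : x = s
          · subst hxs
            rw [if_pos rfl, one_mul, ← mul_assoc, inv_mul_cancel, one_mul]
          · rw [if_neg hxs, Submodule.mul_le]
            intro u hu v hv
            have := hmul _ _ u hu v hv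
            rwa [mul_assoc] at this
        have h3 := mul_le_mul' (le_refl ((⊤ : Submodule k A) * (H 1) ^ n)) h2
        exact h3 h1
      by_cases hsx : s = x * y
      · subst hsx
        rw [if_pos rfl, Pi.add_apply, Pi.single_eq_same, Nat.add_sub_cancel, mul_one]
        rcases Nat.eq_zero_or_pos (c (x * y)) with h0 | h0
        · rw [h0, pow_zero, mul_one]
          trivial
        · have h1 := hsuf _ (ha _ h0)
          rw [inv_mul_cancel, mul_assoc, ← pow_succ] at h1
          have e : c (x * y) - 1 + 1 = c (x * y) := by omega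
          rwa [e] at h1
      · rw [Pi.add_apply, Pi.single_eq_of_ne hsx, add_zero] at hs ⊢
        rw [if_neg (Ne.symm hsx)]
        exact hsuf _ (ha s hs)
  have hpow : ∀ m, (⨆ x, H x) ^ m ≤ Submodule.span k (W m) := by
    intro m
    induction m with
    | zero =>
      rw [pow_zero, Submodule.one_eq_span]
      apply Submodule.span_mono
      rw [Set.singleton_subset_iff]
      refine ⟨1, Pi.single 1 1, ?_, ?_⟩
      · rw [Finset.sum_pi_single']
        simp
      · intro s hs
        by_cases h1 : s = 1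
        · subst h1
          rw [if_pos rfl, Pi.single_eq_same, Nat.sub_self, pow_zero, mul_one, mul_one]
          trivial
        · rw [Pi.single_eq_of_ne h1] at hs
          omega
    | succ m ih =>
      have h1 : ∀ a ∈ W m, ∀ b ∈ ⨆ y, H y, a * b ∈ Submodule.span k (W (m + 1)) := by
        intro a ha b hb
        refine Submodule.iSup_induction (motive := fun b => a * b ∈ Submodule.span k (W (m + 1)))
          H hb (fun y b hb => Submodule.subset_span (hstep m a ha y b hb)) ?_ ?_
        · rw [mul_zero]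
          exact Submodule.zero_mem _
        · intro u v h1 h2
          rw [mul_add]
          exact Submodule.add_mem _ h1 h2
      rw [pow_succ, Submodule.mul_le]
      intro a ha b hb
      refine Submodule.span_induction (p := fun a _ => a * b ∈ Submodule.span k (W (m + 1)))
        (fun a ha => h1 a ha b hb) ?_ ?_ ?_ (ih ha)
      · rw [zero_mul]
        exact Submodule.zero_mem _
      · intro u v _ _ h2 h3
        rw [add_mul]
        exact Submodule.add_mem _ h2 h3
      · intro c u _ h2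
        rw [smul_mul_assoc]
        exact Submodule.smul_mem _ c h2
  rw [eq_bot_iff]
  refine (hpow _).trans ?_
  rw [Submodule.span_le]
  rintro a ⟨x, c, hc, ha⟩
  obtain ⟨s, hs⟩ : ∃ s, r < c s := by
    by_contra hcon
    push Not at hcon
    have h1 : ∑ s, c s ≤ ∑ s : P, r := Finset.sum_le_sum fun s _ => hcon s
    rw [hc, Finset.sum_const, Finset.card_univ, smul_eq_mul] at h1
    omega
  have h1 := ha s (by omega)
  obtain ⟨t, ht⟩ : ∃ t, c s - 1 = r + t := ⟨c s - 1 - r, by omega⟩
  rw [ht, pow_add, hr, Submodule.bot_mul, Submodule.mul_bot, Submodule.bot_mul] at h1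
  exact h1

end grd

section prim

variable {k A : Type*} [Field k] [Ring A] [Algebra k A]

theorem mul_nil_zero {a w e : A} (h : a * w = e) (hw : e * w = w) (ha : IsNilpotent a) :
    e = 0 := by
  obtain ⟨n, hn⟩ := ha
  have h1 : ∀ m, a ^ (m + 1) * w ^ (m + 1) = e := by
    intro m
    induction m with
    | zero => rw [zero_add, pow_one, pow_one, h]
    | succ m ih =>
      rw [pow_succ a, pow_succ' w]
      have h2 : e * w ^ (m + 1) = w ^ (m + 1) := by rw [pow_succ', ← mul_assoc, hw]
      calc a ^ (m + 1) * a * (w * w ^ (m + 1)) = a ^ (m + 1) * ((a * w) * w ^ (m + 1)) := by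
            simp only [mul_assoc]
        _ = e := by rw [h, h2, ih]
  rw [← h1 n, pow_succ, hn, zero_mul, zero_mul]

theorem idem_nilp {e : A} (h : e * e = e) (hn : IsNilpotent e) : e = 0 :=
  mul_nil_zero h h hn

variable {P : Type*} [Group P]

/-- a graded corner with a local component of degree one -/
structure GL1 (V : P → Submodule k A) (e : A) : Prop where
  mul : ∀ x y, ∀ a ∈ V x, ∀ b ∈ V y, a * b ∈ V (x * y)
  mem : e ∈ V 1
  ne : e ≠ 0
  left : ∀ x, ∀ a ∈ V x, e * a = a
  right : ∀ x, ∀ a ∈ V x, a * e = a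
  loc : ∀ a ∈ V 1, IsNilpotent a ∨ ∃ b ∈ V 1, a * b = e ∧ b * a = e
  sc : ∀ a ∈ V 1, ∃ c : k, IsNilpotent (a - c • e)

namespace GL1

variable {V : P → Submodule k A} {e : A} (h : GL1 V e)

include h

theorem ee : e * e = e := h.left 1 e h.mem

theorem mul_nilp {a y : A} (hy : y ∈ V 1) (ha : a ∈ V 1) (hn : IsNilpotent a) :
    IsNilpotent (a * y) := by
  have h1 : a * y ∈ V 1 := by
    have := h.mul 1 1 a ha y hy
    rwa [mul_one] at this
  rcases h.loc _ h1 with h2 | ⟨z, hz, h3, -⟩
  · exact h2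
  · exfalso
    apply h.ne
    rw [mul_assoc] at h3
    refine mul_nil_zero h3 ?_ hn
    rw [← mul_assoc, h.left 1 y hy]

theorem add_nilp {a b : A} (ha : a ∈ V 1) (hb : b ∈ V 1) (hna : IsNilpotent a)
    (hnb : IsNilpotent b) : IsNilpotent (a + b) := by
  rcases h.loc _ ((V 1).add_mem ha hb) with h2 | ⟨z, hz, h3, -⟩
  · exact h2
  · exfalso
    apply h.ne
    have h4 := h.mul_nilp hz ha hna
    have h5 := h.mul_nilp hz hb hnb
    have h6 : a * z + b * z = e := by rw [← add_mul, h3]
    have haz : a * z ∈ V 1 := by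
      have := h.mul 1 1 a ha z hz
      rwa [mul_one] at this
    have h7 : b * z = e - a * z := by rw [← h6]; abel
    have h8 : Commute (a * z) (b * z) := by
      rw [h7]
      change a * z * (e - a * z) = (e - a * z) * (a * z)
      rw [mul_sub, sub_mul, h.left 1 _ haz, h.right 1 _ haz]
    have h9 := h8.isNilpotent_add h4 h5
    rw [h6] at h9
    exact idem_nilp h.ee h9

/-- the non-units -/
def HH : P → Submodule k A := fun x =>
  { carrier := {a | a ∈ V x ∧ ∀ b ∈ V x⁻¹, IsNilpotent (a * b)}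
    zero_mem' := ⟨(V x).zero_mem, fun b _ => by rw [zero_mul]; exact IsNilpotent.zero⟩
    add_mem' := by
      rintro a a' ⟨ha, ha'⟩ ⟨hb, hb'⟩
      refine ⟨(V x).add_mem ha hb, fun b hbV => ?_⟩
      have h1 := h.mul x x⁻¹ a ha b hbV
      have h2 := h.mul x x⁻¹ a' hb b hbV
      rw [mul_inv_cancel] at h1 h2
      rw [add_mul]
      exact h.add_nilp h1 h2 (ha' b hbV) (hb' b hbV)
    smul_mem' := by
      rintro c a ⟨ha, ha'⟩
      refine ⟨(V x).smul_mem c ha, fun b hb => ?_⟩
      rw [smul_mul_assoc]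
      exact (ha' b hb).smul c }

theorem mem_HH {x : P} {a : A} : a ∈ h.HH x ↔ a ∈ V x ∧ ∀ b ∈ V x⁻¹, IsNilpotent (a * b) := Iff.rfl

theorem HH_right {x y : P} {a c : A} (ha : a ∈ h.HH x) (hc : c ∈ V y) :
    a * c ∈ h.HH (x * y) := by
  refine ⟨h.mul _ _ a ha.1 c hc, fun b hb => ?_⟩
  rw [mul_assoc]
  apply ha.2
  have := h.mul _ _ c hc b hb
  rwa [mul_inv_rev, mul_inv_cancel_left] at this

theorem HH_left {x y : P} {a c : A} (ha : a ∈ h.HH x) (hc : c ∈ V y) :
    c * a ∈ h.HH (y * x) := by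
  refine ⟨h.mul _ _ c hc a ha.1, fun b hb => ?_⟩
  rw [mul_assoc]
  apply nilp_comm
  rw [mul_assoc]
  apply ha.2
  have := h.mul _ _ b hb c hc
  rwa [mul_inv_rev, inv_mul_cancel_right] at this

theorem HH_one {a : A} : a ∈ h.HH 1 ↔ a ∈ V 1 ∧ IsNilpotent a := by
  constructor
  · rintro ⟨h1, h2⟩
    refine ⟨h1, ?_⟩
    have h3 := h2 e (by rw [inv_one]; exact h.mem)
    rwa [h.right 1 a h1] at h3
  · rintro ⟨h1, h2⟩
    refine ⟨h1, fun b hb => ?_⟩
    rw [inv_one] at hb
    exact h.mul_nilp hb h1 h2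

/-- homogeneous units -/
theorem exists_inv {x : P} {a b : A} (ha : a ∈ V x) (hb : b ∈ V x⁻¹) (hn : ¬ IsNilpotent (a * b)) :
    ∃ v ∈ V x⁻¹, a * v = e ∧ v * a = e := by
  have h1 := h.mul _ _ a ha b hb
  rw [mul_inv_cancel] at h1
  rcases h.loc _ h1 with h2 | ⟨z, hz, h3, -⟩
  · exact absurd h2 hn
  · have h4 := h.mul _ _ b hb z hz
    rw [mul_one] at h4
    rw [mul_assoc] at h3
    refine ⟨b * z, h4, h3, ?_⟩
    have h5 := h.mul _ _ _ h4 a ha
    rw [inv_mul_cancel] at h5
    have h6 : (b * z * a) * (b * z * a) = b * z * a := by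
      calc (b * z * a) * (b * z * a) = (b * z) * (a * (b * z)) * a := by simp only [mul_assoc]
        _ = b * z * a := by rw [h3, h.right _ _ h4]
    rcases h.loc _ h5 with h7 | ⟨w, hw, h8, -⟩
    · exfalso
      apply h.ne
      have h9 := idem_nilp h6 h7
      calc e = (a * (b * z)) * (a * (b * z)) := by rw [h3, h.ee]
        _ = a * (b * z * a) * (b * z) := by simp only [mul_assoc]
        _ = 0 := by rw [h9, mul_zero, zero_mul]
    · calc b * z * a = (b * z * a) * e := (h.right 1 _ h5).symm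
        _ = (b * z * a) * ((b * z * a) * w) := by rw [h8]
        _ = (b * z * a) * w := by rw [← mul_assoc, h6]
        _ = e := h8

/-- the degrees of the units -/
def UP : Subgroup P where
  carrier := {x | ∃ u ∈ V x, ∃ v ∈ V x⁻¹, u * v = e ∧ v * u = e}
  one_mem' := ⟨e, h.mem, e, by rw [inv_one]; exact h.mem, h.ee, h.ee⟩
  mul_mem' := by
    rintro x y ⟨u, hu, v, hv, h1, h2⟩ ⟨u', hu', v', hv', h1', h2'⟩
    refine ⟨u * u', h.mul _ _ u hu u' hu', v' * v, by
      rw [mul_inv_rev]
      exact h.mul _ _ v' hv' v hv, ?_, ?_⟩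
    · calc u * u' * (v' * v) = u * (u' * v') * v := by simp only [mul_assoc]
        _ = e := by rw [h1', h.right _ _ hu, h1]
    · calc v' * v * (u * u') = v' * (v * u) * u' := by simp only [mul_assoc]
        _ = e := by rw [h2, h.right _ _ hv', h2']
  inv_mem' := by
    rintro x ⟨u, hu, v, hv, h1, h2⟩
    exact ⟨v, hv, u, by rw [inv_inv]; exact hu, h2, h1⟩

theorem HH_of_not {x : P} (hx : x ∉ h.UP) {a : A} (ha : a ∈ V x) : a ∈ h.HH x := by
  refine ⟨ha, fun b hb => ?_⟩
  by_contra hn
  obtain ⟨v, hv, h1, h2⟩ := h.exists_inv ha hb hn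
  exact hx ⟨a, ha, v, hv, h1, h2⟩

end GL1

end prim

end Vale.Agent.P180.H386.Grd
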