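import Vale.Agent.P180.H386.GrdA

/-!
P180 H386: a corner graded by a cyclic `p`-group with a local component of degree one is local.
-/

set_option linter.all false

namespace Vale.Agent.P180.H386.Grd

open Polynomial

variable {k A : Type*} [Field k] [Ring A] [Algebra k A] {P : Type*} [Group P]

namespace GL1

variable {V : P → Submodule k A} {e : A} (h : GL1 V e)

include h

theorem sup_mul {a b : A} (ha : a ∈ ⨆ x, V x) (hb : b ∈ ⨆ x, V x) : a * b ∈ ⨆ x, V x := by
  refine Submodule.iSup_induction (motive := fun a => a * b ∈ ⨆ x, V x) V ha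
    (fun x a ha => ?_) ?_ ?_
  · refine Submodule.iSup_induction (motive := fun b => a * b ∈ ⨆ x, V x) V hb
      (fun y b hb => ?_) ?_ ?_
    · exact Submodule.mem_iSup_of_mem (x * y) (h.mul x y a ha b hb)
    · rw [mul_zero]
      exact Submodule.zero_mem _
    · intro u v h1 h2
      rw [mul_add]
      exact Submodule.add_mem _ h1 h2
  · rw [zero_mul]
    exact Submodule.zero_mem _
  · intro u v h1 h2
    rw [add_mul]
    exact Submodule.add_mem _ h1 h2

theorem sup_HH_right {a b : A} (ha : a ∈ ⨆ x, h.HH x) (hb : b ∈ ⨆ x, V x) :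
    a * b ∈ ⨆ x, h.HH x := by
  refine Submodule.iSup_induction (motive := fun a => a * b ∈ ⨆ x, h.HH x) h.HH ha
    (fun x a ha => ?_) ?_ ?_
  · refine Submodule.iSup_induction (motive := fun b => a * b ∈ ⨆ x, h.HH x) V hb
      (fun y b hb => ?_) ?_ ?_
    · exact Submodule.mem_iSup_of_mem (x * y) (h.HH_right ha hb)
    · rw [mul_zero]
      exact Submodule.zero_mem _
    · intro u v h1 h2
      rw [mul_add]
      exact Submodule.add_mem _ h1 h2
  · rw [zero_mul]
    exact Submodule.zero_mem _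
  · intro u v h1 h2
    rw [add_mul]
    exact Submodule.add_mem _ h1 h2

theorem sup_HH_left {a b : A} (ha : a ∈ ⨆ x, V x) (hb : b ∈ ⨆ x, h.HH x) :
    a * b ∈ ⨆ x, h.HH x := by
  refine Submodule.iSup_induction (motive := fun a => a * b ∈ ⨆ x, h.HH x) V ha
    (fun x a ha => ?_) ?_ ?_
  · refine Submodule.iSup_induction (motive := fun b => a * b ∈ ⨆ x, h.HH x) h.HH hb
      (fun y b hb => ?_) ?_ ?_
    · exact Submodule.mem_iSup_of_mem (x * y) (h.HH_left hb ha)
    · rw [mul_zero]
      exact Submodule.zero_mem _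
    · intro u v h1 h2
      rw [mul_add]
      exact Submodule.add_mem _ h1 h2
  · rw [zero_mul]
    exact Submodule.zero_mem _
  · intro u v h1 h2
    rw [add_mul]
    exact Submodule.add_mem _ h1 h2

/-- there are no idempotents in the graded radical -/
theorem idem_HH [FiniteDimensional k A] [Finite P] {g : A} (hg : g ∈ ⨆ x, h.HH x)
    (hgg : g * g = g) : g = 0 := by
  have _ := Fintype.ofFinite P
  obtain ⟨r, hr⟩ := nil_pow (h.HH 1)
    (fun x hx y hy => by
      have := h.HH_right hx hy.1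
      rwa [mul_one] at this)
    (fun x hx => (h.HH_one.mp hx).2)
  have h1 := grd_nil h.HH (fun x y a ha b hb => h.HH_right ha hb.1) hr
  have h2 : ∀ m, g ^ (m + 1) = g := by
    intro m
    induction m with
    | zero => rw [zero_add, pow_one]
    | succ m ih => rw [pow_succ, ih, hgg]
  have h3 : g ^ (Fintype.card P * r + 1) ∈ (⨆ x, h.HH x) ^ (Fintype.card P * r + 1) :=
    Submodule.pow_mem_pow _ hg _
  rw [h2, pow_succ, h1, Submodule.bot_mul] at h3
  exact h3

omit h in
theorem eu_pow {e u : A} (hee : e * e = e) (h1 : e * u = u) (h2 : u * e = u) :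
    ∀ s m, (e * u ^ s) ^ (m + 1) = e * u ^ (s * (m + 1)) := by
  have hc : ∀ s, u ^ s * e = e * u ^ s := by
    intro s
    induction s with
    | zero => rw [pow_zero, one_mul, mul_one]
    | succ s ih => rw [pow_succ, mul_assoc, h2, ← mul_assoc, ← ih, mul_assoc, h1]
  intro s m
  induction m with
  | zero => rw [zero_add, pow_one, mul_one]
  | succ m ih =>
    rw [pow_succ, ih]
    calc e * u ^ (s * (m + 1)) * (e * u ^ s) = e * (u ^ (s * (m + 1)) * e) * u ^ s := by
          simp only [mul_assoc]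
      _ = (e * e) * (u ^ (s * (m + 1)) * u ^ s) := by rw [hc]; simp only [mul_assoc]
      _ = _ := by rw [hee, ← pow_add]; rfl

/-- the components of the degrees of the units -/
theorem unit_comp {x0 : P} {u v : A} (hu : u ∈ V x0) (hv : v ∈ V x0⁻¹) (hvu : v * u = e) (l : ℕ)
    {f : A} (hf : f ∈ V (x0 ^ l)) : ∃ c : k, f - c • (e * u ^ l) ∈ h.HH (x0 ^ l) := by
  have h1 : ∀ l, e * u ^ l ∈ V (x0 ^ l) ∧ ∃ w ∈ V (x0 ^ l)⁻¹, w * (e * u ^ l) = e := by
    intro l
    induction l with
    | zero =>
      rw [pow_zero, pow_zero, mul_one, inv_one]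
      exact ⟨h.mem, e, h.mem, h.ee⟩
    | succ l ih =>
      obtain ⟨h2, w, hw, h3⟩ := ih
      refine ⟨?_, v * w, ?_, ?_⟩
      · rw [pow_succ, pow_succ, ← mul_assoc]
        exact h.mul _ _ _ h2 u hu
      · rw [pow_succ, mul_inv_rev]
        exact h.mul _ _ v hv w hw
      · calc v * w * (e * u ^ (l + 1)) = v * (w * (e * u ^ l)) * u := by
              rw [pow_succ]; simp only [mul_assoc]
          _ = e := by rw [h3, h.right _ _ hv, hvu]
  obtain ⟨h2, w, hw, h3⟩ := h1 l
  have h4 := h.mul _ _ f hf w hw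
  rw [mul_inv_cancel] at h4
  obtain ⟨c, hc⟩ := h.sc _ h4
  refine ⟨c, ?_⟩
  have h5 : f * w - c • e ∈ h.HH 1 :=
    h.HH_one.mpr ⟨(V 1).sub_mem h4 ((V 1).smul_mem c h.mem), hc⟩
  have h6 := h.HH_right h5 h2
  rw [one_mul] at h6
  have h7 : (f * w - c • e) * (e * u ^ l) = f - c • (e * u ^ l) := by
    rw [sub_mul, mul_assoc, h3, h.right _ _ hf, smul_mul_assoc, ← mul_assoc e e, h.ee]
  rwa [h7] at h6

/-- **A corner graded by a cyclic `p`-group with a local component of degree one is local.** -/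
theorem idem_eq [FiniteDimensional k A] [Finite P] [IsCyclic P] {p : ℕ} [Fact p.Prime] [CharP k p]
    (hP : IsPGroup p P) {f : A} (hf : f ∈ ⨆ x, V x) (hff : f * f = f) : f = 0 ∨ f = e := by
  classical
  have hnt : Nontrivial A := ⟨⟨e, 0, h.ne⟩⟩
  have hch : CharP A p := charP_of_injective_algebraMap (algebraMap k A).injective p
  have hprime : p.Prime := Fact.out
  obtain ⟨⟨x0, hx0⟩, hgen⟩ := IsCyclic.exists_monoid_generator (α := h.UP)
  obtain ⟨u, hu, v, hv, huv, hvu⟩ := id hx0
  have heu : e * u = u := h.left _ _ hu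
  have hue : u * e = u := h.right _ _ hu
  -- the polynomials
  have hpoly : ∃ Q : k[X], f - e * aeval u Q ∈ ⨆ x, h.HH x := by
    refine Submodule.iSup_induction
      (motive := fun f => ∃ Q : k[X], f - e * aeval u Q ∈ ⨆ x, h.HH x) V hf (fun x f hf => ?_) ?_ ?_
    · by_cases hx : x ∈ h.UP
      · obtain ⟨l, hl⟩ := hgen ⟨x, hx⟩
        have hl' : x0 ^ l = x := congrArg Subtype.val hl
        rw [← hl'] at hf
        obtain ⟨c, hc⟩ := h.unit_comp hu hv hvu l hf
        refine ⟨C c * X ^ l, ?_⟩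
        have e1 : e * aeval u (C c * X ^ l : k[X]) = c • (e * u ^ l) := by
          rw [map_mul, aeval_C, map_pow, aeval_X, ← Algebra.smul_def, mul_smul_comm]
        rw [e1]
        exact Submodule.mem_iSup_of_mem _ hc
      · refine ⟨0, ?_⟩
        rw [map_zero, mul_zero, sub_zero]
        exact Submodule.mem_iSup_of_mem _ (h.HH_of_not hx hf)
    · refine ⟨0, ?_⟩
      rw [map_zero, mul_zero, sub_zero]
      exact Submodule.zero_mem _
    · rintro a b ⟨Q, hQ⟩ ⟨R, hR⟩
      refine ⟨Q + R, ?_⟩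
      have e1 : a + b - e * aeval u (Q + R) = (a - e * aeval u Q) + (b - e * aeval u R) := by
        rw [map_add, mul_add]; abel
      rw [e1]
      exact Submodule.add_mem _ hQ hR
  obtain ⟨Q, hQ⟩ := hpoly
  -- a power of `u`
  have hpow : ∃ (t : ℕ) (c : k), e * u ^ (p ^ t) = c • e := by
    obtain ⟨a, ha⟩ := hP x0
    have h1 : e * u ^ (p ^ a) ∈ V 1 := by
      have h2 : ∀ l, e * u ^ l ∈ V (x0 ^ l) := by
        intro l
        induction l with
        | zero =>
          rw [pow_zero, pow_zero, mul_one]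
          exact h.mem
        | succ l ih =>
          rw [pow_succ, pow_succ, ← mul_assoc]
          exact h.mul _ _ _ ih u hu
      have h3 := h2 (p ^ a)
      rwa [ha] at h3
    obtain ⟨c, n, hn⟩ := h.sc _ h1
    obtain ⟨b, hb⟩ : ∃ b, n ≤ p ^ b := ⟨n, (Nat.lt_pow_self hprime.one_lt).le⟩
    refine ⟨a + b, c ^ p ^ b, ?_⟩
    have hpb : 0 < p ^ b := pow_pos hprime.pos b
    obtain ⟨m, hm⟩ : ∃ m, p ^ b = m + 1 := ⟨p ^ b - 1, by omega⟩
    have h2 : (e * u ^ (p ^ a)) ^ (p ^ b) = e * u ^ (p ^ (a + b)) := by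
      rw [hm, eu_pow h.ee heu hue, ← hm, ← pow_add]
    rw [← h2]
    have h3 : e * u ^ (p ^ a) = c • e + (e * u ^ (p ^ a) - c • e) := by abel
    have h4 : Commute (c • e) (e * u ^ (p ^ a) - c • e) := by
      apply Commute.smul_left
      change e * (e * u ^ (p ^ a) - c • e) = (e * u ^ (p ^ a) - c • e) * e
      rw [h.left 1 _ ((V 1).sub_mem h1 ((V 1).smul_mem c h.mem)),
        h.right 1 _ ((V 1).sub_mem h1 ((V 1).smul_mem c h.mem))]
    rw [h3, add_pow_char_pow_of_commute p _ h4]
    have h5 : (e * u ^ (p ^ a) - c • e) ^ (p ^ b) = 0 := by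
      obtain ⟨d, hd⟩ := Nat.exists_eq_add_of_le hb
      rw [hd, pow_add, hn, zero_mul]
    have h6 : e ^ (p ^ b) = e := by
      rw [hm]
      clear hm
      induction m with
      | zero => rw [zero_add, pow_one]
      | succ m ih => rw [pow_succ, ih, h.ee]
    rw [h5, add_zero, _root_.smul_pow, h6]
  obtain ⟨t, c, hc⟩ := hpow
  have hq0 : 0 < p ^ t := pow_pos hprime.pos t
  have hcn : ∀ n : ℕ, e * (u ^ (p ^ t)) ^ n = c ^ n • e := by
    intro n
    induction n with
    | zero => rw [pow_zero, pow_zero, mul_one, one_smul]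
    | succ n ih =>
      rw [pow_succ, ← mul_assoc, ih, smul_mul_assoc, hc, smul_smul, ← pow_succ]
  -- the power of a polynomial in `u`
  have hQq : ∀ Q : k[X], ∃ l : k, e * (aeval u Q) ^ (p ^ t) = l • e := by
    intro Q
    induction Q using Polynomial.induction_on' with
    | add Q R hQ hR =>
      obtain ⟨l, hl⟩ := hQ
      obtain ⟨l', hl'⟩ := hR
      refine ⟨l + l', ?_⟩
      have h1 : Commute (aeval u Q) (aeval u R) := by
        change aeval u Q * aeval u R = aeval u R * aeval u Q
        rw [← map_mul, ← map_mul, mul_comm]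
      rw [map_add, add_pow_char_pow_of_commute p _ h1, mul_add, hl, hl', add_smul]
    | monomial n a =>
      refine ⟨a ^ (p ^ t) * c ^ n, ?_⟩
      rw [aeval_monomial, ← Algebra.smul_def, _root_.smul_pow, mul_smul_comm, ← pow_mul, mul_comm n,
        pow_mul, hcn, smul_smul]
  obtain ⟨l, hl⟩ := hQq Q
  have hcomm : e * aeval u Q = aeval u Q * e := by
    have h1 : Commute e u := heu.trans hue.symm
    clear hQ hl
    induction Q using Polynomial.induction_on' with
    | add Q R hQ hR => rw [map_add, mul_add, add_mul, hQ, hR]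
    | monomial n a =>
      rw [aeval_monomial, ← Algebra.smul_def, mul_smul_comm, smul_mul_assoc]
      congr 1
      exact (h1.pow_right n).eq
  have hgR : e * aeval u Q ∈ ⨆ x, V x := by
    have h1 : e * aeval u Q = f - (f - e * aeval u Q) := by abel
    rw [h1]
    refine Submodule.sub_mem _ hf ?_
    have hle : ⨆ x, h.HH x ≤ ⨆ x, V x := iSup_mono fun x a ha => ha.1
    exact hle hQ
  have hm : ∀ m, f - (e * aeval u Q) ^ (m + 1) ∈ ⨆ x, h.HH x := by
    intro m
    induction m with
    | zero => rwa [zero_add, pow_one]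
    | succ m ih =>
      have e1 : f - (e * aeval u Q) ^ (m + 1 + 1) = f * (f - e * aeval u Q) +
          (f - (e * aeval u Q) ^ (m + 1)) * (e * aeval u Q) := by
        rw [pow_succ _ (m + 1), mul_sub, sub_mul, hff]
        abel
      rw [e1]
      exact Submodule.add_mem _ (h.sup_HH_left hf hQ) (h.sup_HH_right ih hgR)
  have hgp : ∀ m, (e * aeval u Q) ^ (m + 1) = e * (aeval u Q) ^ (m + 1) := by
    intro m
    induction m with
    | zero => rw [zero_add, pow_one, pow_one]
    | succ m ih =>
      rw [pow_succ, ih]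
      calc e * (aeval u Q) ^ (m + 1) * (e * aeval u Q)
          = e * ((aeval u Q) ^ (m + 1) * (e * aeval u Q)) := mul_assoc _ _ _
        _ = e * ((aeval u Q) ^ (m + 1) * (aeval u Q * e)) := by rw [hcomm]
        _ = e * ((aeval u Q) ^ (m + 2) * e) := by rw [← mul_assoc (_ ^ _), ← pow_succ]
        _ = e * (e * (aeval u Q) ^ (m + 2)) := by
            rw [((show Commute e (aeval u Q) from hcomm).pow_right (m + 2)).eq]
        _ = _ := by rw [← mul_assoc, h.ee]
  obtain ⟨m, hm1⟩ : ∃ m, p ^ t = m + 1 := ⟨p ^ t - 1, by omega⟩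
  have h1 := hm m
  rw [hgp, ← hm1, hl] at h1
  -- conclusion
  have hfe : f * e = f := by
    refine Submodule.iSup_induction (motive := fun f => f * e = f) V hf
      (fun x a ha => h.right x a ha) (zero_mul e) (fun a b h1 h2 => by rw [add_mul, h1, h2])
  have hef : e * f = f := by
    refine Submodule.iSup_induction (motive := fun f => e * f = f) V hf
      (fun x a ha => h.left x a ha) (mul_zero e) (fun a b h1 h2 => by rw [mul_add, h1, h2])
  have heR : e ∈ ⨆ x, V x := Submodule.mem_iSup_of_mem 1 h.mem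
  have h2 : (l * (1 - l)) • e ∈ ⨆ x, h.HH x := by
    have h3 : f * (f - l • e) ∈ ⨆ x, h.HH x := h.sup_HH_left hf h1
    have h4 : (l * (1 - l)) • e = (1 - l) • (f - (f - l • e)) - ((1 - l) • f - (1 - l) • (f - l • e)
      - (l * (1 - l)) • e) := by
      rw [smul_sub, smul_sub, smul_smul]
      module
    have h5 : f * (f - l • e) = (1 - l) • f := by
      rw [mul_sub, hff, mul_smul_comm, hfe, sub_smul, one_smul]
    rw [h5] at h3
    have h6 : (l * (1 - l)) • e = (1 - l) • f - (1 - l) • (f - l • e) := by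
      rw [← smul_sub, sub_sub_cancel, smul_smul, mul_comm]
    rw [h6]
    exact Submodule.sub_mem _ h3 (Submodule.smul_mem _ _ h1)
  have h3 : l * (1 - l) = 0 := by
    by_contra hne
    apply h.ne
    apply h.idem_HH ?_ h.ee
    have h4 := Submodule.smul_mem _ (l * (1 - l))⁻¹ h2
    rwa [smul_smul, inv_mul_cancel₀ hne, one_smul] at h4
  rcases mul_eq_zero.mp h3 with h4 | h4
  · left
    rw [h4, zero_smul, sub_zero] at h1
    exact h.idem_HH h1 hff
  · right
    have h5 : l = 1 := (sub_eq_zero.mp h4).symm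
    rw [h5, one_smul] at h1
    have h6 : e - f = 0 := by
      apply h.idem_HH
      · have e1 : e - f = -(f - e) := by abel
        rw [e1]
        exact Submodule.neg_mem _ h1
      · rw [sub_mul, mul_sub, mul_sub, h.ee, hef, hfe, hff, sub_self, sub_zero]
    exact (sub_eq_zero.mp h6).symm

end GL1

end Vale.Agent.P180.H386.Grd
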