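import Vale.Agent.P180.R2.H954.G1

/-!
P180 H386: the defect group of a block contains the `p`-elements which commute with it and with an
element of the support.
-/

set_option linter.all false

namespace Vale.Agent.P180.H386

open Vale.Agent.P180 Vale.Agent.P180.H768.Gd Vale.Agent.P180.R2.H954

section

variable {k : Type*} [Field k] {p : ℕ} [Fact p.Prime] [CharP k p] {G : Type} [Group G] [Finite G]

omit [Fact p.Prime] [CharP k p] [Finite G] in
theorem isPGroup_zpowers {v : G} (hv : ∃ j : ℕ, v ^ p ^ j = 1) :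
    IsPGroup p (Subgroup.zpowers v) := by
  obtain ⟨n, hn⟩ := hv
  intro g
  obtain ⟨i, hi⟩ := Subgroup.mem_zpowers_iff.1 g.2
  refine ⟨n, Subtype.ext ?_⟩
  rw [SubmonoidClass.coe_pow, ← hi, ← zpow_natCast, ← zpow_mul, mul_comm, zpow_mul,
    zpow_natCast, hn, one_zpow]
  rfl

/-- A `p`-element which commutes with `Q` and with an element of the support of `e = tr_Q^L z`
which is centralised by `Q`, belongs to `Q`. -/
theorem mem_of_coeff {Q L : Subgroup G} (hQ : IsPGroup p Q) (hQL : Q ≤ L)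
    {e z : MonoidAlgebra k G} (hzF : z ∈ Fix (cj k G) Q) (he : e = tr (cj k G) Q L z)
    {c v : G} (hc : e.coeff c ≠ 0) (hcQ : ∀ q ∈ Q, c * q = q * c) (hv : v ∈ L)
    (hvp : ∃ j : ℕ, v ^ p ^ j = 1) (hvQ : ∀ q ∈ Q, v * q = q * v) (hvc : v * c = c * v) :
    v ∈ Q := by
  classical
  have hn : Subgroup.zpowers v ≤ Subgroup.normalizer (Q : Set G) := by
    rw [Subgroup.zpowers_le, Subgroup.mem_normalizer_iff]
    intro h
    constructor
    · intro hh
      rw [hvQ h hh, mul_inv_cancel_right]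
      exact hh
    · intro hh
      have h1 := hvQ _ hh
      have h2 : v * h * v⁻¹ = h := by
        have h3 : v * (v * h * v⁻¹) = v * h := by rw [h1]; group
        exact mul_left_cancel h3
      rwa [h2] at hh
  have hP : IsPGroup p (Subgroup.zpowers v ⊔ Q : Subgroup G) :=
    (isPGroup_zpowers hvp).to_sup_of_normal_right' hQ hn
  have hPL : Subgroup.zpowers v ⊔ Q ≤ L := sup_le (by rwa [Subgroup.zpowers_le]) hQL
  have hPc : Subgroup.zpowers v ⊔ Q ≤ Subgroup.centralizer ({c} : Set G) := by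
    refine sup_le ?_ ?_
    · rw [Subgroup.zpowers_le, Subgroup.mem_centralizer_singleton_iff]
      exact hvc
    · intro q hq
      rw [Subgroup.mem_centralizer_singleton_iff]
      exact (hcQ q hq).symm
  obtain ⟨x, -, hx⟩ := exists_conj_of_coeff hQL hPL hP hzF he (c := c)
    (fun h hh => by
      rw [Subgroup.mem_centralizer_singleton_iff.mp (hPc hh), mul_inv_cancel_right]) hc
  have h1 : Nat.card (Subgroup.zpowers v ⊔ Q : Subgroup G) ≤ Nat.card Q := by
    refine Nat.card_le_card_of_injective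
      (fun y : (Subgroup.zpowers v ⊔ Q : Subgroup G) => (⟨x⁻¹ * y * x, hx y y.2⟩ : Q)) ?_
    intro y y' hyy
    have h2 : x⁻¹ * (y : G) * x = x⁻¹ * (y' : G) * x := congrArg Subtype.val hyy
    exact Subtype.ext (mul_left_cancel (mul_right_cancel h2))
  have h2 : Q = Subgroup.zpowers v ⊔ Q := Subgroup.eq_of_le_of_card_ge le_sup_right h1
  rw [h2]
  exact Subgroup.mem_sup_left (Subgroup.mem_zpowers v)

/-- **Maximality of the defect group.** If `e = tr_{L ∩ R}^L z` and `Br_R(e) ≠ 0` then each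
`p`-element of `L` which commutes with `L ∩ R` and with `C_L(R)` belongs to `L ∩ R`. -/
theorem mem_of_br {R L : Subgroup G} (hR : IsPGroup p R) {e z : MonoidAlgebra k G}
    (hz : z ∈ SubAlg k L) (hzF : z ∈ Fix (cj k G) (L ⊓ R)) (he : e = tr (cj k G) (L ⊓ R) L z)
    (hbr : br R e ≠ 0) {v : G} (hv : v ∈ L) (hvp : ∃ j : ℕ, v ^ p ^ j = 1)
    (hvQ : ∀ q ∈ L ⊓ R, v * q = q * v)
    (hvC : ∀ c ∈ L, (∀ r ∈ R, c * r = r * c) → v * c = c * v) : v ∈ L ⊓ R := by
  classical
  obtain ⟨c, hcR, hc⟩ := exists_coeff_of_br hbr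
  have hcR' : ∀ r ∈ R, c * r = r * c := by
    intro r hr
    have h1 := hcR r hr
    calc c * r = r * c * r⁻¹ * r := by rw [h1]
      _ = r * c := by group
  have heL : e ∈ SubAlg k L := by
    rw [he]
    exact tr_mem_SubAlg le_rfl hz
  have hcL : c ∈ L := heL c hc
  exact mem_of_coeff (hR.to_le inf_le_right) inf_le_left hzF he hc
    (fun q hq => hcR' q hq.2) hv hvp hvQ (hvC c hcL hcR')

omit [Finite G] in
/-- an element which acts on `L` as an inner automorphism, through a `p`-element of `L` -/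
theorem exists_p_part [Finite G] {L : Subgroup G} (hZ : ¬ p ∣ Nat.card (Subgroup.center L)) {r : G}
    (hr : r ∈ L ⊔ Subgroup.centralizer (L : Set G)) (hrp : ∃ j : ℕ, r ^ p ^ j = 1) :
    ∃ l ∈ L, ∃ c ∈ Subgroup.centralizer (L : Set G), r = l * c ∧ ∃ j : ℕ, l ^ p ^ j = 1 := by
  have hp : p.Prime := Fact.out
  obtain ⟨j, hj⟩ := hrp
  obtain ⟨l, hl, c, hc, hlc⟩ := mem_sup_of_commute
    (fun s hs c hc => Subgroup.mem_centralizer_iff.mp hc s hs) hr
  have hcm : Commute l c := Subgroup.mem_centralizer_iff.mp hc l hl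
  -- the `p ^ j`-th power of `l` is central in `L`
  have hcen : l ^ p ^ j ∈ Subgroup.centralizer (L : Set G) := by
    have h1 : l ^ p ^ j * c ^ p ^ j = 1 := by
      rw [← hcm.mul_pow, show l * c = r from hlc, hj]
    rw [eq_inv_of_mul_eq_one_left h1]
    exact Subgroup.inv_mem _ (Subgroup.pow_mem _ hc _)
  obtain ⟨m, hm⟩ : ∃ m, m = Nat.card (Subgroup.center L) := ⟨_, rfl⟩
  rw [← hm] at hZ
  have hcop : (p ^ j).Coprime m :=
    Nat.Coprime.pow_left j ((Nat.Prime.coprime_iff_not_dvd hp).mpr hZ)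
  have hlm : (l ^ p ^ j) ^ m = 1 := by
    have h1 : (⟨l, hl⟩ : L) ^ p ^ j ∈ Subgroup.center L := by
      rw [Subgroup.mem_center_iff]
      intro g
      apply Subtype.ext
      exact Subgroup.mem_centralizer_iff.mp hcen g g.2
    have h2 : (⟨_, h1⟩ : Subgroup.center L) ^ m = 1 := by
      rw [hm]
      exact pow_card_eq_one'
    have h3 := congrArg (fun z : Subgroup.center L => ((z : L) : G)) h2
    exact h3
  -- a Bézout exponent
  obtain ⟨a, b, hab⟩ : ∃ a b : ℤ, (1 : ℤ) = a * (p ^ j : ℕ) + b * (m : ℕ) := by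
    have h1 := Nat.gcd_eq_gcd_ab (p ^ j) m
    rw [Nat.coprime_iff_gcd_eq_one.mp hcop] at h1
    refine ⟨Nat.gcdA (p ^ j) m, Nat.gcdB (p ^ j) m, ?_⟩
    rw [mul_comm (Nat.gcdA _ _), mul_comm (Nat.gcdB _ _)]
    exact_mod_cast h1
  have hsplit : l = l ^ (b * (m : ℤ)) * l ^ (a * ((p ^ j : ℕ) : ℤ)) := by
    rw [← zpow_add, add_comm, ← hab, zpow_one]
  refine ⟨l ^ (b * (m : ℤ)), L.zpow_mem hl _, l ^ (a * ((p ^ j : ℕ) : ℤ)) * c, ?_, ?_, j, ?_⟩
  · refine Subgroup.mul_mem _ ?_ hc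
    rw [mul_comm, zpow_mul, zpow_natCast]
    exact Subgroup.zpow_mem _ hcen _
  · rw [← mul_assoc, ← hsplit]
    exact hlc.symm
  · rw [← zpow_natCast, ← zpow_mul,
      show b * (m : ℤ) * ((p ^ j : ℕ) : ℤ) = ((p ^ j : ℕ) : ℤ) * (m : ℤ) * b by ring, zpow_mul,
      zpow_mul, zpow_natCast, zpow_natCast, hlm, one_zpow]

/-- an element of `R` which centralises `L ∩ R` and which acts on `L` as the `p`-element `l` of
`L`: then `l` belongs to `L ∩ R` -/
theorem mem_of_inner {R L : Subgroup G} (hR : IsPGroup p R) {e z : MonoidAlgebra k G}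
    (hz : z ∈ SubAlg k L) (hzF : z ∈ Fix (cj k G) (L ⊓ R)) (he : e = tr (cj k G) (L ⊓ R) L z)
    (hbr : br R e ≠ 0) {r l c : G} (hr : r ∈ R) (hl : l ∈ L)
    (hc : c ∈ Subgroup.centralizer (L : Set G)) (hrl : r = l * c) (hlp : ∃ j : ℕ, l ^ p ^ j = 1)
    (hrQ : ∀ q ∈ L ⊓ R, r * q = q * r) : l ∈ L ⊓ R := by
  have key : ∀ s ∈ L, r * s = s * r → l * s = s * l := by
    intro s hs hrs
    have h1 : s * c = c * s := Subgroup.mem_centralizer_iff.mp hc s hs
    have h2 : l = r * c⁻¹ := by rw [hrl, mul_inv_cancel_right]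
    have h3 : c⁻¹ * s = s * c⁻¹ := by
      calc c⁻¹ * s = c⁻¹ * (s * c) * c⁻¹ := by group
        _ = c⁻¹ * (c * s) * c⁻¹ := by rw [h1]
        _ = s * c⁻¹ := by group
    rw [h2, mul_assoc, h3, ← mul_assoc, hrs, mul_assoc]
  exact mem_of_br hR hz hzF he hbr hl hlp (fun q hq => key q hq.1 (hrQ q hq))
    (fun s hs hsR => key s hs (hsR r hr).symm)

/-- If `L ∩ R = 1` then the elements of `R` which act on `L` as inner automorphisms centralise
`L`. -/
theorem le_centralizer_of_bot {R L : Subgroup G} (hR : IsPGroup p R) {e z : MonoidAlgebra k G}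
    (hz : z ∈ SubAlg k L) (hzF : z ∈ Fix (cj k G) (L ⊓ R)) (he : e = tr (cj k G) (L ⊓ R) L z)
    (hbr : br R e ≠ 0) (hZ : ¬ p ∣ Nat.card (Subgroup.center L)) (hbot : L ⊓ R = ⊥) :
    R ⊓ (L ⊔ Subgroup.centralizer (L : Set G)) ≤ Subgroup.centralizer (L : Set G) := by
  rintro r ⟨hr, hrL⟩
  obtain ⟨j, hj⟩ := hR ⟨r, hr⟩
  have hj : r ^ p ^ j = 1 := congrArg Subtype.val hj
  obtain ⟨l, hl, c, hc, hrl, hlp⟩ := exists_p_part (p := p) hZ hrL ⟨j, hj⟩
  have h1 := mem_of_inner hR hz hzF he hbr hr hl hc hrl hlp (by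
    intro q hq
    rw [hbot, Subgroup.mem_bot] at hq
    rw [hq, mul_one, one_mul])
  rw [hbot, Subgroup.mem_bot] at h1
  rw [hrl, h1, one_mul]
  exact hc

end

end Vale.Agent.P180.H386
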