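import Vale.Agent.P180.H386.Sg
import Vale.Agent.P180.H337.Ir
import Vale.Agent.P180.H951.Small
import Vale.Agent.P180.R2.H799.BN3

/-!
P180 H386: idempotents which vanish modulo `p`.
-/

set_option linter.all false

namespace Vale.Agent.P180.H386

open Finset Subgroup IsLocalRing Vale.Agent.P180.R2.H799
  Vale.Agent.P180.R2.H471.Hc Vale.Agent.P180.R2.H954.Hc Vale.Agent.P180.R2.H12.Sl
  Vale.Agent.P180.H337
open Vale.Agent.P180.H393 (IsIr IsCF ev)

universe u

section

variable {k : Type u} [Field k] [IsAlgClosed k] {p : ℕ} [Fact p.Prime] [CharP k p]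
variable {H : Type} [Group H]

/-- an idempotent which vanishes modulo `p` is zero -/
theorem idem_eq_zero {i : MonoidAlgebra (WittVector p k) H} (hi : i * i = i)
    (h0 : MonoidAlgebra.mapRingHom H (WittVector.constantCoeff (p := p) (R := k)) i = 0) :
    i = 0 := by
  classical
  have hadic : IsAdicComplete (maximalIdeal (WittVector p k)) (WittVector p k) := adic
  -- divisibility of an element by `p`
  have h1 : ∃ j : MonoidAlgebra (WittVector p k) H, i = (p : WittVector p k) • j := by
    have h2 : ∀ h, ∃ c : WittVector p k, i.coeff h = (p : WittVector p k) * c := by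
      intro h
      have h3 : WittVector.constantCoeff (i.coeff h) = 0 := by
        rw [← MonoidAlgebra.coeff_mapRingHom, h0]; rfl
      have h4 : i.coeff h ∈ maximalIdeal (WittVector p k) := by
        rw [mem_maximalIdeal, mem_nonunits_iff, isUnit_iff_coeff]
        exact fun h => h h3
      rw [maxIdeal_eq, Ideal.mem_span_singleton] at h4
      exact h4
    choose c hc using h2
    refine ⟨∑ h ∈ i.coeff.support, MonoidAlgebra.single h (c h), ?_⟩
    apply MonoidAlgebra.coeff_injective
    ext g
    rw [MonoidAlgebra.coeff_smul, Finsupp.smul_apply, MonoidAlgebra.coeff_sum,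
      Finsupp.finset_sum_apply, smul_eq_mul]
    by_cases hg : g ∈ i.coeff.support
    · rw [Finset.sum_eq_single g]
      · rw [MonoidAlgebra.coeff_single, Finsupp.single_eq_same, hc]
      · intro b _ hb
        rw [MonoidAlgebra.coeff_single, Finsupp.single_eq_of_ne (Ne.symm hb)]
      · exact fun h => absurd hg h
    · rw [Finset.sum_eq_zero, mul_zero, Finsupp.notMem_support_iff.1 hg]
      intro b hb
      rw [MonoidAlgebra.coeff_single, Finsupp.single_eq_of_ne]
      rintro rfl
      exact hg hb
  obtain ⟨j, hj⟩ := h1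
  have h2 : ∀ n : ℕ, ∃ j : MonoidAlgebra (WittVector p k) H, i = ((p : WittVector p k) ^ n) • j := by
    intro n
    induction n with
    | zero => exact ⟨i, by rw [pow_zero, one_smul]⟩
    | succ n ih =>
      obtain ⟨j', hj'⟩ := ih
      refine ⟨j * j', ?_⟩
      calc i = i * i := hi.symm
        _ = ((p : WittVector p k) • j) * (((p : WittVector p k) ^ n) • j') := by
          rw [← hj, ← hj']
        _ = _ := by rw [smul_mul_smul_comm, pow_succ']
  apply MonoidAlgebra.coeff_injective
  ext1 g
  rw [MonoidAlgebra.coeff_zero, Finsupp.coe_zero, Pi.zero_apply]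
  refine IsHausdorff.haus (I := maximalIdeal (WittVector p k)) inferInstance _ fun n => ?_
  rw [SModEq.zero, smul_eq_mul, Ideal.mul_top]
  obtain ⟨j', hj'⟩ := h2 n
  rw [hj', MonoidAlgebra.coeff_smul, Finsupp.smul_apply, smul_eq_mul]
  refine Ideal.mul_mem_right _ _ (Ideal.pow_mem_pow ?_ n)
  rw [maxIdeal_eq]
  exact Ideal.mem_span_singleton_self _

variable [Finite H]

/-- the average over a group of order prime to `p` kills a central idempotent if it does so
modulo `p` -/
theorem av_mul_lift {C : Subgroup H} (hC : ¬ p ∣ Nat.card C)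
    {E : MonoidAlgebra (WittVector p k) H} (hEE : E * E = E) (hEc : ∀ y, y * E = E * y)
    (h0 : BN.av k C *
      MonoidAlgebra.mapRingHom H (WittVector.constantCoeff (p := p) (R := k)) E = 0) :
    BN.av (KK k p) C * MonoidAlgebra.mapRingHom H (toKK k p) E = 0 := by
  classical
  have hchar : CharZero (KK k p) := charZero_KK k p
  obtain ⟨A, hA1, hA2⟩ := H951.exists_av (k := k) (p := p) hC
  have hC0 : ((Nat.card C : ℕ) : KK k p) ≠ 0 := by
    have : Nat.card C ≠ 0 := Nat.card_pos.ne'
    exact_mod_cast this
  have hAA : A * A = A := by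
    apply H951.mapKK_injective (k := k) (p := p)
    rw [map_mul, hA2, BN.av_idem hC0]
  have h1 : (A * E) * (A * E) = A * E := by
    calc (A * E) * (A * E) = A * (E * A) * E := by simp only [mul_assoc]
      _ = (A * A) * (E * E) := by rw [← hEc A]; simp only [mul_assoc]
      _ = A * E := by rw [hAA, hEE]
  have h2 : A * E = 0 := idem_eq_zero h1 (by rw [map_mul, hA1, h0])
  rw [← hA2, ← map_mul, h2, map_zero]

/-- vanishing of the sums of an irreducible character over the cosets of `C` -/
theorem sum_eq_zero {C : Subgroup H} [Fintype H] [Fintype C] (hC : ¬ p ∣ Nat.card C)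
    {E : MonoidAlgebra (WittVector p k) H} (hEE : E * E = E) (hEc : ∀ y, y * E = E * y)
    (h0 : BN.av k C *
      MonoidAlgebra.mapRingHom H (WittVector.constantCoeff (p := p) (R := k)) E = 0)
    {ζ : H → KK k p} (hζ : IsIr (KK k p) H ζ)
    (hne : ev ζ (MonoidAlgebra.mapRingHom H (toKK k p) E) ≠ 0) (y : H) :
    ∑ c : C, ζ (y * c) = 0 := by
  classical
  have hchar : CharZero (KK k p) := charZero_KK k p
  have h1 := av_mul_lift hC hEE hEc h0
  set EK := MonoidAlgebra.mapRingHom H (toKK k p) E with hEK
  have hc : ∀ x, x * EK = EK * x := fun x => mapRingHom_central _ hEc x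
  have hi : EK * EK = EK := by rw [hEK, ← map_mul, hEE]
  have h2 := (ev_central_ne_iff hζ hc hi).1 hne
    (MonoidAlgebra.single y (1 : KK k p) * BN.av (KK k p) C)
  rw [← hc, mul_assoc, h1, mul_zero] at h2
  have h3 : ev ζ (0 : MonoidAlgebra (KK k p) H) = 0 := by
    rw [← evL_apply, map_zero]
  rw [h3] at h2
  have h4 : ev ζ (MonoidAlgebra.single y (1 : KK k p) * BN.av (KK k p) C) =
      ((Nat.card C : ℕ) : KK k p)⁻¹ * ∑ c : C, ζ (y * c) := by
    unfold BN.av
    rw [← evL_apply, mul_smul_comm, map_smul, smul_eq_mul, Finset.mul_sum, map_sum]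
    congr 1
    have : ∀ c : C, evL ζ (MonoidAlgebra.single y (1 : KK k p) * MonoidAlgebra.single (c : H) 1) =
        ζ (y * c) := fun c => by
      rw [MonoidAlgebra.single_mul_single, one_mul, evL_apply, ev_single, one_mul]
    exact Finset.sum_congr
      (Finset.ext fun x =>
        ⟨fun _ => @Finset.mem_univ _ _ x, fun _ => @Finset.mem_univ _ (Fintype.ofFinite C) x⟩)
      fun c _ => this c
  rw [h4] at h2
  have hC0 : ((Nat.card C : ℕ) : KK k p)⁻¹ ≠ 0 := by
    have : Nat.card C ≠ 0 := Nat.card_pos.ne'
    exact inv_ne_zero (by exact_mod_cast this)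
  exact (mul_eq_zero.1 h2.symm).resolve_left hC0

end

end Vale.Agent.P180.H386
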