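import Vale.Agent.P180.H386.Sieg

/-!
P180 H386: relative positions of two singular subspaces, the intermediate ones.
-/

set_option linter.all false

namespace Vale.Agent.P180.H386.Fm

open Module Vale.Agent.P180.R2.H854
open Vale.Agent.P180.H354.Fm

variable {K E : Type*} [Field K] [AddCommGroup E] [Module K E] {Φ : HForm K E} {q : E → K}
  {τ : K → K}

theorem mul_apply' (g h : E ≃ₗ[K] E) (x : E) : (g * h) x = g (h x) := rfl

theorem inv_apply_self' (g : E ≃ₗ[K] E) (x : E) : g⁻¹ (g x) = x := LinearEquiv.symm_apply_apply g x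

theorem apply_inv_self'' (g : E ≃ₗ[K] E) (x : E) : g (g⁻¹ x) = x :=
  LinearEquiv.apply_symm_apply g x

/-- The unipotent radical of the stabiliser of the singular subspace `A` of `W`. -/
def UA (Φ : HForm K E) (q : E → K) (W A : Submodule K E) : Subgroup (E ≃ₗ[K] E) where
  carrier := {g | g ∈ GW Φ q W ∧ (∀ a ∈ A, g a = a) ∧ ∀ z ∈ Φ.perp A, g z - z ∈ A}
  one_mem' := ⟨(GW Φ q W).one_mem, fun _ _ => rfl, fun z _ => by
    change z - z ∈ A
    rw [sub_self]
    exact A.zero_mem⟩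
  mul_mem' := by
    intro g h hg hh
    refine ⟨(GW Φ q W).mul_mem hg.1 hh.1, fun a ha => ?_, fun z hz => ?_⟩
    · rw [mul_apply', hh.2.1 a ha, hg.2.1 a ha]
    · rw [mul_apply']
      have h1 : g (h z) = g z + (h z - z) := by
        conv_lhs => rw [← sub_add_cancel (h z) z]
        rw [map_add, hg.2.1 _ (hh.2.2 z hz), add_comm]
      rw [h1, add_sub_right_comm]
      exact A.add_mem (hg.2.2 z hz) (hh.2.2 z hz)
  inv_mem' := by
    intro g hg
    have h1 : ∀ a ∈ A, g⁻¹ a = a := by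
      intro a ha
      have h := inv_apply_self' g a
      rwa [hg.2.1 a ha] at h
    refine ⟨(GW Φ q W).inv_mem hg.1, h1, fun z hz => ?_⟩
    have h2 : g⁻¹ (g z - z) = g z - z := h1 _ (hg.2.2 z hz)
    rw [map_sub, inv_apply_self'] at h2
    have h3 : g⁻¹ z - z = -(g z - z) := by
      rw [← h2]; abel
    rw [h3]
    exact A.neg_mem (hg.2.2 z hz)

theorem mem_perp_map {W : Submodule K E} {g : E ≃ₗ[K] E} (hg : g ∈ GW Φ q W) {A : Submodule K E}
    {z : E} : z ∈ Φ.perp (A.map (g : E →ₗ[K] E)) ↔ g⁻¹ z ∈ Φ.perp A := by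
  constructor
  · intro hz y hy
    have h1 := hz (g y) ⟨y, hy, rfl⟩
    rw [← apply_inv_self'' g z, hg.1.1] at h1
    exact h1
  · rintro hz _ ⟨y, hy, rfl⟩
    have h1 := hz y hy
    rw [← hg.1.1, apply_inv_self''] at h1
    exact h1

/-- conjugation of the unipotent radical -/
theorem mem_UA_map {W A : Submodule K E} {g : E ≃ₗ[K] E} (hg : g ∈ GW Φ q W) {w : E ≃ₗ[K] E}
    (hw : w ∈ UA Φ q W (A.map (g : E →ₗ[K] E))) : g⁻¹ * w * g ∈ UA Φ q W A := by
  refine ⟨(GW Φ q W).mul_mem ((GW Φ q W).mul_mem ((GW Φ q W).inv_mem hg) hw.1) hg, ?_, ?_⟩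
  · intro a ha
    rw [mul_apply', mul_apply', hw.2.1 (g a) ⟨a, ha, rfl⟩, inv_apply_self']
  · intro z hz
    have h1 : g z ∈ Φ.perp (A.map (g : E →ₗ[K] E)) := by
      rw [mem_perp_map hg, inv_apply_self']
      exact hz
    obtain ⟨a, ha, h2⟩ := hw.2.2 (g z) h1
    have h3 : g a = w (g z) - g z := h2
    have h4 : g⁻¹ (w (g z) - g z) = a := by rw [← h3, inv_apply_self']
    rw [map_sub, inv_apply_self'] at h4
    rw [mul_apply', mul_apply', h4]
    exact ha

theorem exists_conj_UA {W A : Submodule K E} {g : E ≃ₗ[K] E} (hg : g ∈ GW Φ q W) {w : E ≃ₗ[K] E}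
    (hw : w ∈ UA Φ q W (A.map (g : E →ₗ[K] E))) : ∃ u ∈ UA Φ q W A, w = g * u * g⁻¹ :=
  ⟨_, mem_UA_map hg hw, by group⟩

/-- a linear form with given restrictions -/
theorem exists_ext {A N : Submodule K E} (lam : A →ₗ[K] K) (h : ∀ a : A, (a : E) ∈ N → lam a = 0) :
    ∃ l : E →ₗ[K] K, (∀ a : A, l a = lam a) ∧ ∀ z ∈ N, l z = 0 := by
  let f : A →ₗ[K] E ⧸ N := N.mkQ ∘ₗ A.subtype
  have h1 : lam ∈ (LinearMap.ker f).dualAnnihilator := by
    rw [Submodule.mem_dualAnnihilator]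
    intro a ha
    apply h
    have h2 : N.mkQ (a : E) = 0 := ha
    rwa [Submodule.mkQ_apply, Submodule.Quotient.mk_eq_zero] at h2
  rw [← LinearMap.range_dualMap_eq_dualAnnihilator_ker] at h1
  obtain ⟨l, hl⟩ := h1
  refine ⟨l ∘ₗ N.mkQ, fun a => ?_, fun z hz => ?_⟩
  · rw [← hl]
    rfl
  · have h2 : N.mkQ z = 0 := by rwa [Submodule.mkQ_apply, Submodule.Quotient.mk_eq_zero]
    rw [LinearMap.comp_apply, h2, map_zero]

variable [FiniteDimensional K E] [Finite K]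

/-- the elements of the two unipotent radicals -/
def Both (Φ : HForm K E) (q : E → K) (W A A' : Submodule K E) (n : A →ₗ[K] E) : Prop :=
  ∃ w ∈ UA Φ q W A', (∀ a : A, w a = a + n a) ∧ ∀ z ∈ Φ.perp A, w z - z ∈ A

omit [FiniteDimensional K E] [Finite K] in
theorem Both.zero {W A A' : Submodule K E} : Both Φ q W A A' 0 :=
  ⟨1, (UA Φ q W A').one_mem, fun a => by
    rw [LinearMap.zero_apply, add_zero]; rfl, fun z _ => by
      change z - z ∈ A
      rw [sub_self]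
      exact A.zero_mem⟩

omit [FiniteDimensional K E] [Finite K] in
theorem Both.add {W A A' C : Submodule K E} {n n' : A →ₗ[K] E} (hn : ∀ a, n a ∈ C)
    (hn' : ∀ a, n' a ∈ C)
    (hCA : C ≤ A) (hnC : ∀ a : A, (a : E) ∈ C → n a = 0) (h : Both Φ q W A A' n)
    (h' : Both Φ q W A A' n') : Both Φ q W A A' (n + n') := by
  obtain ⟨w, hw, h1, h2⟩ := h
  obtain ⟨w', hw', h1', h2'⟩ := h'
  have hwA : ∀ a ∈ A, w a - a ∈ A := by
    intro a ha
    have h3 : w a = a + n ⟨a, ha⟩ := h1 ⟨a, ha⟩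
    have h4 : w a - a = n ⟨a, ha⟩ := by
      rw [h3]; abel
    rw [h4]
    exact hCA (hn _)
  refine ⟨w * w', (UA Φ q W A').mul_mem hw hw', fun a => ?_, fun z hz => ?_⟩
  · rw [mul_apply', h1' a, map_add, h1 a]
    have h3 : w (n' a) = n' a := by
      have h4 := h1 ⟨n' a, hCA (hn' a)⟩
      rw [hnC _ (hn' a), add_zero] at h4
      exact h4
    rw [h3, LinearMap.add_apply]
    abel
  · rw [mul_apply']
    have h3 : w (w' z) - z = (w z - z) + (w (w' z - z) - (w' z - z)) + (w' z - z) := by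
      rw [map_sub]; abel
    rw [h3]
    exact A.add_mem (A.add_mem (h2 z hz) (hwA _ (h2' z hz))) (h2' z hz)

/-- rank one, `C = A ∩ A'` -/
theorem both_one₁ (hQ : QP Φ q τ) {W A A' : Submodule K E} (hW : W ⊓ Φ.perp W = ⊥) (hA : A ≤ W)
    (hA' : A' ≤ W) (hsA : Sing Φ q A) (hsA' : Sing Φ q A') {c : E} (hc : c ∈ A ⊓ A')
    (lam : A →ₗ[K] K) (hlam : ∀ a : A, (a : E) ∈ A ⊓ A' → lam a = 0) :
    Both Φ q W A A' (lam.smulRight c) := by
  obtain ⟨l, hl1, hl2⟩ := exists_ext (N := A' ⊔ Φ.perp W) (-Φ.ε • lam) (by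
    intro a ha
    obtain ⟨a', ha', z, hz, h1⟩ := Submodule.mem_sup.mp ha
    have h2 : z ∈ W ⊓ Φ.perp W := by
      refine ⟨?_, hz⟩
      have h3 : z = a - a' := by rw [← h1]; abel
      rw [h3]
      exact W.sub_mem (hA a.2) (hA' ha')
    rw [hW, Submodule.mem_bot] at h2
    rw [h2, add_zero] at h1
    rw [LinearMap.smul_apply, hlam a ⟨a.2, by rw [← h1]; exact ha'⟩, smul_zero])
  obtain ⟨x, hx⟩ := Φ.exists_riesz l
  have hxA' : ∀ y ∈ A', Φ.B y x = 0 := fun y hy => by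
    rw [← hx, hl2 y (Submodule.mem_sup_left hy)]
  have hxW : ∀ y ∈ Φ.perp W, Φ.B y x = 0 := fun y hy => by
    rw [← hx, hl2 y (Submodule.mem_sup_right hy)]
  have hcx : Φ.B c x = 0 := hxA' c hc.2
  obtain ⟨g, t, hg, -, hgz⟩ := exists_siegel hQ (hsA.1 c hc.1) (hsA.2 c hc.1 c hc.1)
    (Φ.eq_zero_comm hcx)
  have hzc : ∀ z, Φ.B z c = 0 → g z = z - (Φ.θ Φ.ε * Φ.B z x) • c := by
    intro z hz
    rw [hgz, hz, mul_zero, zero_smul, zero_smul, add_zero, sub_zero]
  refine ⟨g, ⟨⟨hg, ?_⟩, ?_, ?_⟩, ?_, ?_⟩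
  · intro z hz
    rw [hzc z (hz c (hA hc.1)), hxW z hz, mul_zero, zero_smul, sub_zero]
  · intro a ha
    rw [hzc a (hsA'.2 a ha c hc.2), hxA' a ha, mul_zero, zero_smul, sub_zero]
  · intro z hz
    rw [hzc z (hz c hc.2), sub_sub_cancel_left]
    exact A'.neg_mem (A'.smul_mem _ hc.2)
  · intro a
    rw [hzc a (hsA.2 a a.2 c hc.1), ← hx, hl1, LinearMap.smul_apply, LinearMap.smulRight_apply,
      smul_eq_mul]
    have e : Φ.θ Φ.ε * (-Φ.ε * lam a) = -lam a := by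
      linear_combination (-lam a) * Φ.εε
    rw [e, neg_smul, sub_neg_eq_add]
  · intro z hz
    rw [hzc z (hz c hc.1), sub_sub_cancel_left]
    exact A.neg_mem (A.smul_mem _ hc.1)

/-- rank one, `C = A ∩ A'^⊥` -/
theorem both_one₂ (hQ : QP Φ q τ) {W A A' : Submodule K E} (hA : A ≤ W)
    (hA' : A' ≤ W) (hsA : Sing Φ q A) (hsA' : Sing Φ q A') {c : E} (hc : c ∈ A ⊓ Φ.perp A')
    (lam : A →ₗ[K] K) (hlam : ∀ a : A, (a : E) ∈ A ⊓ Φ.perp A' → lam a = 0) :
    Both Φ q W A A' (lam.smulRight c) := by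
  obtain ⟨l, hl1, hl2⟩ := exists_ext (N := Φ.perp A') (-Φ.ε • lam) (by
    intro a ha
    rw [LinearMap.smul_apply, hlam a ⟨a.2, ha⟩, smul_zero])
  obtain ⟨x, hx⟩ := Φ.exists_riesz l
  have hxA' : x ∈ A' := by
    rw [← Φ.perp_perp A', Φ.mem_perp']
    intro y hy
    rw [← hx, hl2 y hy]
  have hcx : Φ.B c x = 0 := hc.2 x hxA'
  obtain ⟨g, t, hg, ht, hgz⟩ := exists_siegel hQ (hsA.1 c hc.1) (hsA.2 c hc.1 c hc.1)
    (Φ.eq_zero_comm hcx)
  have ht0 := ht (hsA'.1 x hxA') (hsA'.2 x hxA' x hxA')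
  have hgz' : ∀ z, g z = z + Φ.B z c • x - (Φ.θ Φ.ε * Φ.B z x) • c := by
    intro z
    rw [hgz, ht0, zero_mul, zero_smul, sub_zero]
  have hzc : ∀ z, Φ.B z c = 0 → g z = z - (Φ.θ Φ.ε * Φ.B z x) • c := by
    intro z hz
    rw [hgz', hz, zero_smul, add_zero]
  refine ⟨g, ⟨⟨hg, ?_⟩, ?_, ?_⟩, ?_, ?_⟩
  · intro z hz
    rw [hzc z (hz c (hA hc.1)), hz x (hA' hxA'), mul_zero, zero_smul, sub_zero]
  · intro a ha
    rw [hzc a (Φ.eq_zero_comm (hc.2 a ha)), hsA'.2 a ha x hxA', mul_zero, zero_smul, sub_zero]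
  · intro z hz
    rw [hgz', hz x hxA', mul_zero, zero_smul, sub_zero, add_sub_cancel_left]
    exact A'.smul_mem _ hxA'
  · intro a
    rw [hzc a (hsA.2 a a.2 c hc.1), ← hx, hl1, LinearMap.smul_apply, LinearMap.smulRight_apply,
      smul_eq_mul]
    have e : Φ.θ Φ.ε * (-Φ.ε * lam a) = -lam a := by
      linear_combination (-lam a) * Φ.εε
    rw [e, neg_smul, sub_neg_eq_add]
  · intro z hz
    rw [hzc z (hz c hc.1), sub_sub_cancel_left]
    exact A.neg_mem (A.smul_mem _ hc.1)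

omit [Finite K] in
/-- from rank one to all the maps -/
theorem both_of_one {W A A' C : Submodule K E} (hCA : C ≤ A)
    (h1 : ∀ c ∈ C, ∀ lam : A →ₗ[K] K, (∀ a : A, (a : E) ∈ C → lam a = 0) →
      Both Φ q W A A' (lam.smulRight c)) (n : A →ₗ[K] E) (hn : ∀ a, n a ∈ C)
    (hnC : ∀ a : A, (a : E) ∈ C → n a = 0) : Both Φ q W A A' n := by
  classical
  let b := Module.finBasis K C
  let n' : A →ₗ[K] C := n.codRestrict C hn
  let lam : Fin (finrank K C) → (A →ₗ[K] K) := fun i => b.coord i ∘ₗ n'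
  have hlam : ∀ i, ∀ a : A, (a : E) ∈ C → lam i a = 0 := by
    intro i a ha
    change b.coord i (n' a) = 0
    have h2 : n' a = 0 := Subtype.ext (hnC a ha)
    rw [h2, map_zero]
  have key : ∀ s : Finset (Fin (finrank K C)),
      Both Φ q W A A' (∑ i ∈ s, (lam i).smulRight ((b i : C) : E)) ∧
        ∀ a, (∑ i ∈ s, (lam i).smulRight ((b i : C) : E)) a ∈ C := by
    intro s
    induction s using Finset.induction_on with
    | empty =>
      rw [Finset.sum_empty]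
      exact ⟨Both.zero, fun a => C.zero_mem⟩
    | insert i s his ih =>
      rw [Finset.sum_insert his]
      have h3 : ∀ a, (lam i).smulRight ((b i : C) : E) a ∈ C := fun a => by
        rw [LinearMap.smulRight_apply]
        exact C.smul_mem _ (b i).2
      refine ⟨Both.add h3 ih.2 hCA ?_ (h1 _ (b i).2 _ (hlam i)) ih.1, fun a => ?_⟩
      · intro a ha
        rw [LinearMap.smulRight_apply, hlam i a ha, zero_smul]
      · rw [LinearMap.add_apply]
        exact C.add_mem (h3 a) (ih.2 a)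
  have h4 : n = ∑ i, (lam i).smulRight ((b i : C) : E) := by
    apply LinearMap.ext
    intro a
    rw [LinearMap.sum_apply]
    have h5 := b.sum_repr (n' a)
    have h6 := congrArg (fun y : C => (y : E)) h5
    change ((∑ i, b.repr (n' a) i • b i : C) : E) = n a at h6
    rw [← h6, Submodule.coe_sum]
    exact Finset.sum_congr rfl fun i _ => rfl
  rw [h4]
  exact (key Finset.univ).1

/-- **The intermediate positions.** -/
theorem both_mid (hQ : QP Φ q τ) {W A A' C : Submodule K E} (hW : W ⊓ Φ.perp W = ⊥) (hA : A ≤ W)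
    (hA' : A' ≤ W) (hsA : Sing Φ q A) (hsA' : Sing Φ q A')
    (hC : C = A ⊓ A' ∨ C = A ⊓ Φ.perp A') (n : A →ₗ[K] E) (hn : ∀ a, n a ∈ C)
    (hnC : ∀ a : A, (a : E) ∈ C → n a = 0) : Both Φ q W A A' n := by
  rcases hC with rfl | rfl
  · exact both_of_one inf_le_left (fun c hc lam h => both_one₁ hQ hW hA hA' hsA hsA' hc lam h) n
      hn hnC
  · exact both_of_one inf_le_left (fun c hc lam h => both_one₂ hQ hA hA' hsA hsA' hc lam h) n
      hn hnC

end Vale.Agent.P180.H386.Fm
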