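import Vale.Agent.P180.H386.Pos

/-!
P180 H386: relative positions of two singular subspaces, the extreme ones.
-/

set_option linter.all false

namespace Vale.Agent.P180.H386.Fm

open Module Vale.Agent.P180.R2.H854
open Vale.Agent.P180.H354.Fm

variable {K E : Type*} [Field K] [AddCommGroup E] [Module K E] {Φ : HForm K E} {q : E → K}
  {τ : K → K} [FiniteDimensional K E] [Finite K]

theorem finrank_perp (P : Submodule K E) : finrank K (Φ.perp P) + finrank K P = finrank K E := by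
  classical
  have hfin : Finite E := Module.finite_of_finite K
  have h1 : Nat.card (Φ.perp P) = Nat.card (P.dualAnnihilator) := by
    let f : Φ.perp P → P.dualAnnihilator := fun x => ⟨Φ.fn x, by
      rw [Submodule.mem_dualAnnihilator]
      intro y hy
      rw [Φ.fn_apply]
      exact Φ.mem_perp'.mp x.2 y hy⟩
    have hf : Function.Bijective f := by
      constructor
      · intro x y hxy
        apply Subtype.ext
        apply Φ.eq_of_right
        intro z
        have h2 := congrArg (fun l : P.dualAnnihilator => (l : Dual K E) z) hxy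
        exact h2
      · rintro ⟨l, hl⟩
        obtain ⟨u, hu⟩ := Φ.exists_riesz l
        rw [Submodule.mem_dualAnnihilator] at hl
        refine ⟨⟨u, ?_⟩, ?_⟩
        · rw [Φ.mem_perp']
          intro y hy
          rw [← hu]
          exact hl y hy
        · apply Subtype.ext
          apply LinearMap.ext
          intro z
          exact (hu z).symm
    exact Nat.card_eq_of_bijective f hf
  have h2 : Finite (Dual K E) := Module.finite_of_finite K
  rw [Module.natCard_eq_pow_finrank (K := K) (V := Φ.perp P),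
    Module.natCard_eq_pow_finrank (K := K) (V := P.dualAnnihilator)] at h1
  have h3 : 1 < Nat.card K := Finite.one_lt_card
  have h4 := Nat.pow_right_injective h3 h1
  rw [h4, ← Subspace.finrank_add_finrank_dualAnnihilator_eq P, add_comm]

/-- `E = R ⊕ P^⊥` for two subspaces in duality -/
theorem isCompl_perp {P R : Submodule K E} (h : R ⊓ Φ.perp P = ⊥)
    (hf : finrank K P = finrank K R) : IsCompl R (Φ.perp P) := by
  refine ⟨disjoint_iff.mpr h, codisjoint_iff.mpr ?_⟩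
  apply Submodule.eq_top_of_finrank_eq
  have h1 := Submodule.finrank_sup_add_finrank_inf_eq R (Φ.perp P)
  rw [h, finrank_bot, add_zero] at h1
  rw [h1, ← hf, add_comm]
  exact finrank_perp P

theorem dual_symm {P R : Submodule K E} (h : R ⊓ Φ.perp P = ⊥)
    (hf : finrank K P = finrank K R) : P ⊓ Φ.perp R = ⊥ := by
  have h1 := (isCompl_perp h hf).sup_eq_top
  have h2 := Φ.perp_sup R (Φ.perp P)
  rw [h1, Φ.perp_top, Φ.perp_perp] at h2
  rw [inf_comm, ← h2]

/-- the projection onto `R` with kernel `P^⊥` -/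
theorem exists_pr {P R : Submodule K E} (h : R ⊓ Φ.perp P = ⊥)
    (hf : finrank K P = finrank K R) : ∃ π : E →ₗ[K] E, (∀ v, π v ∈ R) ∧ (∀ v ∈ R, π v = v) ∧
      (∀ v, v - π v ∈ Φ.perp P) ∧ ∀ v ∈ Φ.perp P, π v = 0 := by
  have hc := isCompl_perp h hf
  have h1 : ∀ v ∈ R, R.projection (Φ.perp P) hc v = v :=
    fun v hv => Submodule.projection_apply_of_mem_left hc hv
  refine ⟨R.projection (Φ.perp P) hc, fun v => Submodule.projection_apply_mem hc v, h1,
    fun v => ?_, fun v hv => Submodule.projection_apply_of_mem_right hc hv⟩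
  rw [← Submodule.projection_apply_eq_zero_iff hc, map_sub,
    h1 _ (Submodule.projection_apply_mem hc v), sub_self]

/-- **The opposite subspaces.** -/
theorem exists_opp (hQ : QP Φ q τ) {W A D D' : Submodule K E} (hA : A ≤ W) (hD : D ≤ W)
    (hD' : D' ≤ W) (hsA : Sing Φ q A) (hsD : Sing Φ q D) (hsD' : Sing Φ q D')
    (h1 : D ⊓ Φ.perp A = ⊥) (h1' : D' ⊓ Φ.perp A = ⊥) (hf : finrank K A = finrank K D)
    (hf' : finrank K A = finrank K D') :
    ∃ u ∈ UA Φ q W A, D.map (u : E →ₗ[K] E) = D' := by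
  obtain ⟨π, pD, pid, psub, pker⟩ := exists_pr h1 hf
  obtain ⟨π', pD', pid', psub', pker'⟩ := exists_pr h1' hf'
  let γ : E →ₗ[K] E := π' - π
  have hγ : ∀ v, γ v = π' v - π v := fun v => rfl
  have hγW : ∀ v, γ v ∈ W := fun v => W.sub_mem (hD' (pD' v)) (hD (pD v))
  have hγA : ∀ v, γ v ∈ Φ.perp A := by
    intro v
    have e : γ v = (v - π v) - (v - π' v) := by rw [hγ]; abel
    rw [e]
    exact (Φ.perp A).sub_mem (psub v) (psub' v)
  have hγ0 : ∀ v ∈ Φ.perp A, γ v = 0 := by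
    intro v hv
    rw [hγ, pker v hv, pker' v hv, sub_self]
  have hgA : ∀ v, Φ.adj γ v ∈ A := by
    intro v
    rw [← Φ.perp_perp A]
    intro y hy
    rw [Φ.adj_left, hγ0 y hy, Φ.zero_right]
  have hAA : ∀ a ∈ A, a ∈ Φ.perp A := fun a ha y hy => hsA.2 a ha y hy
  let f : E →ₗ[K] E := LinearMap.id + γ - Φ.adj γ ∘ₗ (LinearMap.id - π)
  let b : E → E := fun v => -Φ.adj γ (v - π v)
  have hbA : ∀ v, b v ∈ A := fun v => A.neg_mem (hgA _)
  have hf0 : ∀ v, f v = v + (γ v + b v) := by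
    intro v
    have e : f v = v + γ v - Φ.adj γ (v - π v) := rfl
    rw [e]
    change _ = v + (γ v + -Φ.adj γ (v - π v))
    abel
  have hbB : ∀ v y, Φ.B (b v) y = -Φ.B v (γ y) + Φ.B (π v) (γ y) := by
    intro v y
    change Φ.B (-Φ.adj γ (v - π v)) y = _
    rw [Φ.neg_left, Φ.adj_left, Φ.sub_left]
    ring
  have hBb : ∀ v y, Φ.B v (b y) = -Φ.B (γ v) y + Φ.B (γ v) (π y) := by
    intro v y
    rw [Φ.symm (b y) v, hbB, map_add, map_neg, mul_add, mul_neg, ← Φ.symm, ← Φ.symm]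
  have hγb : ∀ v y, Φ.B (γ v) (b y) = 0 := fun v y => hγA v _ (hbA y)
  have hbγ : ∀ v y, Φ.B (b v) (γ y) = 0 := fun v y => Φ.eq_zero_comm (hγb y v)
  have hbb : ∀ v y, Φ.B (b v) (b y) = 0 := fun v y => hsA.2 _ (hbA v) _ (hbA y)
  have hππ : ∀ v y, Φ.B (π v) (π y) = 0 := fun v y => hsD.2 _ (pD v) _ (pD y)
  have hπ' : ∀ v, π' v = π v + γ v := fun v => by rw [hγ]; abel
  have hππ' : ∀ v y, Φ.B (π v) (γ y) + Φ.B (γ v) (π y) + Φ.B (γ v) (γ y) = 0 := by
    intro v y
    have h := hsD'.2 _ (pD' v) _ (pD' y)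
    rw [hπ', hπ', Φ.add_left, Φ.add_right, Φ.add_right, hππ] at h
    linear_combination h
  have hB : ∀ v y, Φ.B (f v) (f y) = Φ.B v y := by
    intro v y
    rw [hf0, hf0]
    simp only [Φ.add_left, Φ.add_right, hγb, hbγ, hbb, hBb, hbB]
    linear_combination hππ' v y
  have hτs : ∀ v y, τ (Φ.B y v) = τ (Φ.B v y) := fun v y => by
    rw [Φ.symm v y, hQ.τ_symm]
  have hq : ∀ v, q (f v) = q v := by
    intro v
    have h2 : q (γ v) + τ (Φ.B (π v) (γ v)) = 0 := by
      have h := hsD'.1 _ (pD' v)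
      rw [hπ', hQ.add, hsD.1 _ (pD v), zero_add] at h
      exact h
    have h3 : τ (Φ.B v (γ v + b v)) = τ (Φ.B (π v) (γ v)) := by
      rw [Φ.add_right, hBb, hQ.τ_add, hQ.τ_add, hQ.τ_neg, hτs v (γ v), hτs (π v) (γ v)]
      ring
    rw [hf0, hQ.add, hQ.add, hsA.1 _ (hbA v), hγb, hQ.τ_zero, h3]
    linear_combination h2
  obtain ⟨u, hu⟩ := exists_equiv hB
  have hu1 : u ∈ GI Φ q := ⟨fun x y => by rw [hu, hu, hB], fun x => by rw [hu, hq]⟩
  refine ⟨u, ⟨⟨hu1, ?_⟩, ?_, ?_⟩, ?_⟩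
  · intro v hv
    have h2 : v ∈ Φ.perp A := fun y hy => hv y (hA hy)
    have h3 : Φ.adj γ v = 0 := by
      apply Φ.nondeg
      intro y
      rw [Φ.adj_left]
      exact hv _ (hγW y)
    rw [hu, hf0, hγ0 v h2]
    change v + (0 + -Φ.adj γ (v - π v)) = v
    rw [pker v h2, sub_zero, h3, neg_zero, add_zero, add_zero]
  · intro a ha
    have h3 : Φ.adj γ a = 0 := by
      apply Φ.nondeg
      intro y
      rw [Φ.adj_left]
      exact Φ.eq_zero_comm (hγA y a ha)
    rw [hu, hf0, hγ0 a (hAA a ha)]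
    change a + (0 + -Φ.adj γ (a - π a)) = a
    rw [pker a (hAA a ha), sub_zero, h3, neg_zero, add_zero, add_zero]
  · intro z hz
    rw [hu, hf0, hγ0 z hz, zero_add, add_sub_cancel_left]
    exact hbA z
  · have h2 : D.map (u : E →ₗ[K] E) ≤ D' := by
      rintro _ ⟨y, hy, rfl⟩
      have h3 : u y = π' y := by
        rw [hu, hf0]
        change y + (γ y + -Φ.adj γ (y - π y)) = _
        rw [pid y hy, sub_self, map_zero, neg_zero, add_zero, hγ, pid y hy]
        abel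
      change u y ∈ D'
      rw [h3]
      exact pD' y
    apply Submodule.eq_of_le_of_finrank_eq h2
    rw [LinearEquiv.finrank_map_eq u D, ← hf, hf']

/-- rank one elements of the unipotent radical -/
theorem exists_unip_one (hQ : QP Φ q τ) {W A A' : Submodule K E} (hW : W ⊓ Φ.perp W = ⊥)
    (hA : A ≤ W) (hA' : A' ≤ W) (hsA : Sing Φ q A) (hp : A' ≤ Φ.perp A) (h0 : A' ⊓ A = ⊥) {c : E}
    (hc : c ∈ A) (lam : A' →ₗ[K] K) : ∃ u ∈ UA Φ q W A, ∀ z : A', u z = z + lam z • c := by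
  obtain ⟨l, hl1, hl2⟩ := exists_ext (N := A ⊔ Φ.perp W) (-Φ.ε • lam) (by
    intro z hz
    obtain ⟨a, ha, y, hy, h1⟩ := Submodule.mem_sup.mp hz
    have h2 : y ∈ W ⊓ Φ.perp W := by
      refine ⟨?_, hy⟩
      have h3 : y = z - a := by rw [← h1]; abel
      rw [h3]
      exact W.sub_mem (hA' z.2) (hA ha)
    rw [hW, Submodule.mem_bot] at h2
    rw [h2, add_zero] at h1
    have h3 : (z : E) ∈ A' ⊓ A := ⟨z.2, by rw [← h1]; exact ha⟩
    rw [h0, Submodule.mem_bot] at h3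
    have h4 : z = 0 := Subtype.ext h3
    rw [h4, map_zero])
  obtain ⟨x, hx⟩ := Φ.exists_riesz l
  have hxA : ∀ y ∈ A, Φ.B y x = 0 := fun y hy => by
    rw [← hx, hl2 y (Submodule.mem_sup_left hy)]
  have hxW : ∀ y ∈ Φ.perp W, Φ.B y x = 0 := fun y hy => by
    rw [← hx, hl2 y (Submodule.mem_sup_right hy)]
  obtain ⟨g, t, hg, -, hgz⟩ := exists_siegel hQ (hsA.1 c hc) (hsA.2 c hc c hc)
    (Φ.eq_zero_comm (hxA c hc))
  have hzc : ∀ z, Φ.B z c = 0 → g z = z - (Φ.θ Φ.ε * Φ.B z x) • c := by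
    intro z hz
    rw [hgz, hz, mul_zero, zero_smul, zero_smul, add_zero, sub_zero]
  refine ⟨g, ⟨⟨hg, ?_⟩, ?_, ?_⟩, ?_⟩
  · intro z hz
    rw [hzc z (hz c (hA hc)), hxW z hz, mul_zero, zero_smul, sub_zero]
  · intro a ha
    rw [hzc a (hsA.2 a ha c hc), hxA a ha, mul_zero, zero_smul, sub_zero]
  · intro z hz
    rw [hzc z (hz c hc), sub_sub_cancel_left]
    exact A.neg_mem (A.smul_mem _ hc)
  · intro z
    rw [hzc z (hp z.2 c hc), ← hx, hl1, LinearMap.smul_apply, smul_eq_mul]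
    have e : Φ.θ Φ.ε * (-Φ.ε * lam z) = -lam z := by
      linear_combination (-lam z) * Φ.εε
    rw [e, neg_smul, sub_neg_eq_add]

/-- elements of the unipotent radical with given restriction -/
theorem exists_unip (hQ : QP Φ q τ) {W A A' : Submodule K E} (hW : W ⊓ Φ.perp W = ⊥)
    (hA : A ≤ W) (hA' : A' ≤ W) (hsA : Sing Φ q A) (hp : A' ≤ Φ.perp A) (h0 : A' ⊓ A = ⊥)
    (n : A' →ₗ[K] E) (hn : ∀ z, n z ∈ A) : ∃ u ∈ UA Φ q W A, ∀ z : A', u z = z + n z := by
  classical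
  let b := Module.finBasis K A
  let n' : A' →ₗ[K] A := n.codRestrict A hn
  have key : ∀ s : Finset (Fin (finrank K A)), ∃ u ∈ UA Φ q W A, ∀ z : A',
      u z = z + ∑ i ∈ s, (b.repr (n' z) i) • ((b i : A) : E) := by
    intro s
    induction s using Finset.induction_on with
    | empty =>
      refine ⟨1, (UA Φ q W A).one_mem, fun z => ?_⟩
      rw [Finset.sum_empty, add_zero]
      rfl
    | insert i s his ih =>
      obtain ⟨u, hu, h1⟩ := ih
      obtain ⟨v, hv, h2⟩ := exists_unip_one hQ hW hA hA' hsA hp h0 (b i).2 (b.coord i ∘ₗ n')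
      refine ⟨u * v, (UA Φ q W A).mul_mem hu hv, fun z => ?_⟩
      have h3 : u ((b i : A) : E) = (b i : A) := hu.2.1 _ (b i).2
      rw [Finset.sum_insert his, mul_apply', h2, map_add, map_smul, h1, h3,
        LinearMap.comp_apply, Basis.coord_apply]
      abel
  obtain ⟨u, hu, h1⟩ := key Finset.univ
  refine ⟨u, hu, fun z => ?_⟩
  rw [h1]
  congr 1
  have h5 := b.sum_repr (n' z)
  have h6 := congrArg (fun y : A => (y : E)) h5
  change ((∑ i, b.repr (n' z) i • b i : A) : E) = n z at h6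
  rw [← h6, Submodule.coe_sum]
  exact Finset.sum_congr rfl fun i _ => rfl

/-- **The orthogonal position.** -/
theorem exists_to_perp (hQ : QP Φ q τ) {W A A' D : Submodule K E} (hW : W ⊓ Φ.perp W = ⊥)
    (hA : A ≤ W) (hA' : A' ≤ W) (hsA : Sing Φ q A) (hp : A' ≤ Φ.perp A)
    (h0 : A' ⊓ A = ⊥) (h1 : D ⊓ Φ.perp A = ⊥) (hf : finrank K A = finrank K D) :
    ∃ u ∈ UA Φ q W A, A'.map (u : E →ₗ[K] E) ≤ W ⊓ Φ.perp (A ⊔ D) := by
  obtain ⟨π, pD, pid, psub, pker⟩ := exists_pr (dual_symm h1 hf) hf.symm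
  obtain ⟨u, hu, h2⟩ := exists_unip hQ hW hA hA' hsA hp h0 (-(π ∘ₗ A'.subtype))
    (fun z => A.neg_mem (pD _))
  refine ⟨u, hu, ?_⟩
  rintro _ ⟨z, hz, rfl⟩
  have h3 : u z = z - π z := by
    rw [h2 ⟨z, hz⟩, sub_eq_add_neg]
    rfl
  change u z ∈ _
  rw [h3]
  refine ⟨W.sub_mem (hA' hz) (hA (pD z)), ?_⟩
  rw [Φ.perp_sup]
  refine ⟨(Φ.perp A).sub_mem (hp hz) (fun y hy => hsA.2 _ (pD z) y hy), psub z⟩

end Vale.Agent.P180.H386.Fm
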