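import Vale.Agent.P180.H386.PosC
import Vale.Agent.P180.H354.Fam
import Vale.Agent.P180.H393.TowDat

/-!
P180 H386: the Mackey formula for a frame.
-/

set_option linter.all false

namespace Vale.Agent.P180.H386.Fm

open Module Vale.Agent.P180 Vale.Agent.P180.R2.H854 Vale.Agent.P180.R2.H799
  Vale.Agent.P180.R2.H799.BN Vale.Agent.P180.H19.Atwo
open Vale.Agent.P180.H354.Fm Vale.Agent.P180.H393.Fm Vale.Agent.P180.H386.Mack

universe u

variable {K E : Type} [Field K] [AddCommGroup E] [Module K E] {Φ : HForm K E} {ι : Type}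
  [Fintype ι] {m : ℕ}

/-- the norm -/
abbrev qq (Φ : HForm K E) : E → K := fun x => Φ.B x x

/-- the space of level `i` -/
def WF (F : Frame Φ ι m) (i : ℕ) : Submodule K E := Wf Φ (Finset.Ico i m) F.x F.y

theorem fam (F : Frame Φ ι m) (i : ℕ) : Fam Φ (Finset.Ico i m) F.x F.y where
  xx j hj l hl a b := F.xx j (Finset.mem_Ico.mp hj).2 l (Finset.mem_Ico.mp hl).2 a b
  yy j hj l hl a b := F.yy j (Finset.mem_Ico.mp hj).2 l (Finset.mem_Ico.mp hl).2 a b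
  xy j hj l hl a b := F.xy j (Finset.mem_Ico.mp hj).2 l (Finset.mem_Ico.mp hl).2 a b

section

variable [DecidableEq ι] (F : Frame Φ ι m)

theorem GW_WF (i : ℕ) : GW Φ (qq Φ) (WF F i) = F.H i := by
  ext g
  rw [WF, (fam F i).mem_GW, F.mem_H]
  constructor
  · rintro ⟨h1, h2⟩
    exact ⟨h1, fun j hj hjm => ⟨fun a => (h2 j (Finset.mem_Ico.mpr ⟨hj, hjm⟩) a).1,
      fun a => (h2 j (Finset.mem_Ico.mpr ⟨hj, hjm⟩) a).2⟩⟩
  · rintro ⟨h1, h2⟩
    refine ⟨h1, fun j hj a => ?_⟩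
    obtain ⟨h3, h4⟩ := Finset.mem_Ico.mp hj
    exact ⟨(h2 j h3 h4).1 a, (h2 j h3 h4).2 a⟩

theorem x_mem_WF {i : ℕ} (hi : i < m) (a : ι → K) : F.x i a ∈ WF F (i + 1) := by
  intro j hj b
  obtain ⟨h1, h2⟩ := Finset.mem_Ico.mp hj
  exact ⟨F.xx i hi j h2 a b, by rw [F.xy i hi j h2, if_neg (by omega)]⟩

theorem y_mem_WF {i : ℕ} (hi : i < m) (a : ι → K) : F.y i a ∈ WF F (i + 1) := by
  intro j hj b
  obtain ⟨h1, h2⟩ := Finset.mem_Ico.mp hj
  exact ⟨by rw [F.yx i hi j h2, if_neg (by omega)], F.yy i hi j h2 a b⟩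

theorem mem_perp_x {P : Hyp Φ ι} {v : E} : v ∈ Φ.perp (LinearMap.range P.x) ↔ P.py v = 0 := by
  constructor
  · intro h
    apply hh_ext_left (θ := Φ.θ)
    intro b
    rw [P.hh_py, h _ ⟨b, rfl⟩, mul_zero, hh_zero_left]
  · rintro h _ ⟨b, rfl⟩
    rw [P.B_x, h, hh_zero_left, mul_zero]

theorem mem_perp_y {P : Hyp Φ ι} {v : E} : v ∈ Φ.perp (LinearMap.range P.y) ↔ P.px v = 0 := by
  constructor
  · intro h
    apply hh_ext_left (θ := Φ.θ)
    intro b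
    rw [P.hh_px, h _ ⟨b, rfl⟩, hh_zero_left]
  · rintro h _ ⟨b, rfl⟩
    rw [P.B_y, h, hh_zero_left]

theorem WF_inf {i : ℕ} (hi : i < m) :
    WF F (i + 1) ⊓ Φ.perp (LinearMap.range (F.hyp i hi).x ⊔ LinearMap.range (F.hyp i hi).y) =
      WF F i := by
  rw [Φ.perp_sup]
  ext v
  constructor
  · rintro ⟨h1, h2, h3⟩ j hj a
    obtain ⟨h4, h5⟩ := Finset.mem_Ico.mp hj
    rcases Nat.eq_or_lt_of_le h4 with h | h
    · subst h
      exact ⟨h2 _ ⟨a, rfl⟩, h3 _ ⟨a, rfl⟩⟩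
    · exact h1 j (Finset.mem_Ico.mpr ⟨h, h5⟩) a
  · intro h
    refine ⟨fun j hj a => ?_, ?_, ?_⟩
    · obtain ⟨h4, h5⟩ := Finset.mem_Ico.mp hj
      exact h j (Finset.mem_Ico.mpr ⟨by omega, h5⟩) a
    · rintro _ ⟨a, rfl⟩
      exact (h i (Finset.mem_Ico.mpr ⟨le_rfl, hi⟩) a).1
    · rintro _ ⟨a, rfl⟩
      exact (h i (Finset.mem_Ico.mpr ⟨le_rfl, hi⟩) a).2

theorem U_eq {i : ℕ} (hi : i < m) :
    F.U i hi = UA Φ (qq Φ) (WF F (i + 1)) (LinearMap.range (F.hyp i hi).x) := by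
  ext g
  constructor
  · rintro ⟨⟨h1, h2, h3⟩, h4⟩
    refine ⟨by rw [GW_WF]; exact h4, ?_, ?_⟩
    · rintro _ ⟨a, rfl⟩
      exact h2 a
    · intro z hz
      obtain ⟨a, ha⟩ := h3 z (mem_perp_x.mp hz)
      exact ⟨a, ha.symm⟩
  · rintro ⟨h1, h2, h3⟩
    rw [GW_WF] at h1
    refine ⟨⟨h1.1, fun a => h2 _ ⟨a, rfl⟩, fun v hv => ?_⟩, h1⟩
    obtain ⟨a, ha⟩ := h3 v (mem_perp_x.mpr hv)
    exact ⟨a, ha.symm⟩

variable [FiniteDimensional K E] [Finite K]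

theorem finrank_range_x (P : Hyp Φ ι) : finrank K (LinearMap.range P.x) = Fintype.card ι := by
  rw [LinearMap.finrank_range_of_inj P.x_injective, finrank_fintype_fun_eq_card]

theorem finrank_range_y (P : Hyp Φ ι) : finrank K (LinearMap.range P.y) = Fintype.card ι := by
  rw [LinearMap.finrank_range_of_inj P.y_injective, finrank_fintype_fun_eq_card]

theorem lv {i : ℕ} (hi : i < m) : Lv Φ (qq Φ) (WF F (i + 1)) (LinearMap.range (F.hyp i hi).x)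
    (LinearMap.range (F.hyp i hi).y) where
  hW := (fam F (i + 1)).nondeg
  hA := by
    rintro _ ⟨a, rfl⟩
    exact x_mem_WF F hi a
  hD := by
    rintro _ ⟨a, rfl⟩
    exact y_mem_WF F hi a
  sA := by
    constructor
    · rintro _ ⟨a, rfl⟩
      exact (F.hyp i hi).xx a a
    · rintro _ ⟨a, rfl⟩ _ ⟨b, rfl⟩
      exact (F.hyp i hi).xx a b
  sD := by
    constructor
    · rintro _ ⟨a, rfl⟩
      exact (F.hyp i hi).yy a a
    · rintro _ ⟨a, rfl⟩ _ ⟨b, rfl⟩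
      exact (F.hyp i hi).yy a b
  dual := by
    rw [eq_bot_iff]
    rintro _ ⟨⟨a, rfl⟩, h⟩
    rw [SetLike.mem_coe, mem_perp_x, Hyp.py_y] at h
    rw [h, map_zero]
    exact Submodule.zero_mem _
  rk := by rw [finrank_range_x, finrank_range_y]

end

end Vale.Agent.P180.H386.Fm
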