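import Vale.Agent.P180.H386.PosF

/-!
P180 H386: the Mackey formula for a frame, in the letters of the tower.
-/

set_option linter.all false

namespace Vale.Agent.P180.H386.Fm

open Module Vale.Agent.P180 Vale.Agent.P180.R2.H854 Vale.Agent.P180.R2.H799
  Vale.Agent.P180.R2.H799.BN Vale.Agent.P180.H19.Atwo
open Vale.Agent.P180.H354.Fm Vale.Agent.P180.H393.Fm Vale.Agent.P180.H386.Mack

universe u

variable {k : Type u} [Field k] {K E : Type} [Field K] [AddCommGroup E] [Module K E]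
  [Finite (E ≃ₗ[K] E)] {Φ : HForm K E} {ι : Type} [Fintype ι] [DecidableEq ι] {m : ℕ}
  (F : Frame Φ ι m) {ε : MonoidAlgebra k ((ι → K) ≃ₗ[K] (ι → K))}

/-- the data of one level -/
noncomputable def datF [CharZero k] (hε : ε * ε = ε)
    (hp : ∀ h, ∃ c : k, ε * MonoidAlgebra.single h 1 * ε = c • ε) {i : ℕ} (hi : i < m) :
    Dat k ((ι → K) ≃ₗ[K] (ι → K)) (E ≃ₗ[K] E) where
  d := (F.hyp i hi).gl
  U := F.U i hi
  G' := F.H i
  ε := ε
  hcU := by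
    have : Nat.card (F.U i hi) ≠ 0 := Nat.card_pos.ne'
    exact_mod_cast this
  dU := fun h u hu => F.gl_norm_U hi h hu
  GU := fun g hg u hu => F.H_norm_U hi hg hu
  comm := fun g hg h => (F.gl_comm_H hi h hg).symm
  idem := hε
  prim := hp

theorem datF_E [CharZero k] (hε : ε * ε = ε)
    (hp : ∀ h, ∃ c : k, ε * MonoidAlgebra.single h 1 * ε = c • ε) {i : ℕ} (hi : i < m) :
    (datF F hε hp hi).E = F.EE ε i := by
  rw [F.EE_eq ε hi]
  rfl

/-- the radicals -/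
theorem cusp_conv [CharZero k] [Finite ((ι → K) ≃ₗ[K] (ι → K))]
    (hc : ∀ A1 : Submodule K (ι → K), A1 ≠ ⊥ → A1 ≠ ⊤ → ε * av k (Rad A1) = 0) (P : Hyp Φ ι)
    (C : Submodule K E) (hC0 : C ≠ ⊥) (hCA : C < LinearMap.range P.x) :
    ∃ s : Finset ((ι → K) ≃ₗ[K] (ι → K)), ((s.card : ℕ) : k) ≠ 0 ∧
      ε * ∑ h ∈ s, MonoidAlgebra.single h 1 = 0 ∧
        ∀ h ∈ s, (∀ a ∈ LinearMap.range P.x, P.gl h a - a ∈ C) ∧ ∀ a ∈ C, P.gl h a = a := by
  classical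
  letI := Fintype.ofFinite ((ι → K) ≃ₗ[K] (ι → K))
  let A1 : Submodule K (ι → K) := C.comap P.x
  have h1 : A1 ≠ ⊥ := by
    intro h
    apply hC0
    rw [eq_bot_iff]
    intro v hv
    obtain ⟨a, rfl⟩ := hCA.le hv
    have h2 : a ∈ A1 := hv
    rw [h, Submodule.mem_bot] at h2
    rw [h2, map_zero]
    exact Submodule.zero_mem _
  have h2 : A1 ≠ ⊤ := by
    intro h
    apply hCA.not_ge
    rintro _ ⟨a, rfl⟩
    have h3 : a ∈ A1 := by rw [h]; trivial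
    exact h3
  have h3 := hc A1 h1 h2
  letI := Fintype.ofFinite (Rad A1)
  have hcard : ((Nat.card (Rad A1) : ℕ) : k) ≠ 0 := by
    have : Nat.card (Rad A1) ≠ 0 := Nat.card_pos.ne'
    exact_mod_cast this
  refine ⟨Finset.univ.filter (fun h => h ∈ Rad A1), ?_, ?_, ?_⟩
  · have : (Finset.univ.filter (fun h => h ∈ Rad A1)).card ≠ 0 := by
      rw [Finset.card_ne_zero]
      exact ⟨1, Finset.mem_filter.mpr ⟨Finset.mem_univ _, (Rad A1).one_mem⟩⟩
    exact_mod_cast this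
  · have h4 : av k (Rad A1) = ((Nat.card (Rad A1) : ℕ) : k)⁻¹ •
        ∑ h ∈ Finset.univ.filter (fun h => h ∈ Rad A1), MonoidAlgebra.single h 1 := by
      unfold av
      congr 1
      symm
      apply Finset.sum_subtype
      intro x
      rw [Finset.mem_filter]
      exact ⟨fun h => h.2, fun h => ⟨Finset.mem_univ _, h⟩⟩
    rw [h4, mul_smul_comm] at h3
    exact (smul_eq_zero.mp h3).resolve_left (inv_ne_zero hcard)
  · intro h hh
    obtain ⟨h5, h6⟩ := (Finset.mem_filter.mp hh).2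
    constructor
    · rintro _ ⟨a, rfl⟩
      rw [P.gl_x, ← map_sub]
      exact h5 a
    · intro a ha
      obtain ⟨b, rfl⟩ := hCA.le ha
      rw [P.gl_x, h6 b ha]

variable [FiniteDimensional K E] [Finite K]

omit [Finite (E ≃ₗ[K] E)] [FiniteDimensional K E] [Finite K] in
theorem exists_gl (P : Hyp Φ ι) (f : E ≃ₗ[K] E)
    (hf : (LinearMap.range P.x).map (f : E →ₗ[K] E) = LinearMap.range P.x) :
    ∃ h, ∀ a ∈ LinearMap.range P.x, P.gl h a = f a := by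
  have h1 : ∀ a, ∃ b, f (P.x a) = P.x b := by
    intro a
    have h2 : f (P.x a) ∈ (LinearMap.range P.x).map (f : E →ₗ[K] E) := ⟨P.x a, ⟨a, rfl⟩, rfl⟩
    rw [hf] at h2
    obtain ⟨b, hb⟩ := h2
    exact ⟨b, hb.symm⟩
  let g : (ι → K) →ₗ[K] (ι → K) := P.px ∘ₗ (f : E →ₗ[K] E) ∘ₗ P.x
  have hg : ∀ a, P.x (g a) = f (P.x a) := by
    intro a
    obtain ⟨b, hb⟩ := h1 a
    change P.x (P.px (f (P.x a))) = _
    rw [hb, P.px_x]
  have hinj : Function.Injective g := by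
    intro a b hab
    apply P.x_injective
    apply f.injective
    rw [← hg, ← hg, hab]
  refine ⟨LinearEquiv.ofInjectiveEndo g hinj, ?_⟩
  rintro _ ⟨a, rfl⟩
  rw [P.gl_x]
  exact hg a

section frame

variable (hT : Φ.Tr) [CharZero k] [Finite ((ι → K) ≃ₗ[K] (ι → K))] (hε : ε * ε = ε)
  (hp : ∀ h, ∃ c : k, ε * MonoidAlgebra.single h 1 * ε = c • ε)
  (hc : ∀ A1 : Submodule K (ι → K), A1 ≠ ⊥ → A1 ≠ ⊤ → ε * av k (Rad A1) = 0)

include hT hε hp hc

theorem mackF {i : ℕ} (hi : i < m) {s : E ≃ₗ[K] E}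
    (hs : ∀ S : Submodule K E, S ≤ WF F i → Sing Φ (qq Φ) S → finrank K S = Fintype.card ι →
      s ∈ F.H (i + 1) ∧ (LinearMap.range (F.x i)).map (s : E →ₗ[K] E) ≤ WF F i ∧
      ∀ h, s * (F.hyp i hi).gl h * s⁻¹ ∈ F.H i)
    {g : E ≃ₗ[K] E} (hg : g ∈ F.H (i + 1)) :
    ((LinearMap.range (F.x i)).map (g : E →ₗ[K] E) = LinearMap.range (F.x i) ∧
      ∃ c : k, ∃ g' ∈ F.H i, F.EE ε i * MonoidAlgebra.single g 1 * F.EE ε i =
        c • (MonoidAlgebra.single g' 1 * F.EE ε i)) ∨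
      ((LinearMap.range (F.x i)).map (g : E →ₗ[K] E) ≠ LinearMap.range (F.x i) ∧
        (F.EE ε i * MonoidAlgebra.single g 1 * F.EE ε i = 0 ∨
        (∃ h, ∃ g' ∈ F.H i, F.EE ε i * MonoidAlgebra.single g 1 * F.EE ε i =
          F.EE ε i * MonoidAlgebra.single ((F.hyp i hi).tt * (F.hyp i hi).gl h) 1 * F.EE ε i *
            MonoidAlgebra.single g' 1) ∨
        ((∃ S : Submodule K E, S ≤ WF F i ∧ Sing Φ (qq Φ) S ∧ finrank K S = Fintype.card ι) ∧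
          ∃ g₁ ∈ F.H i, ∃ g₂ ∈ F.H i,
          F.EE ε i * MonoidAlgebra.single g 1 * F.EE ε i = MonoidAlgebra.single g₁ 1 *
            (F.EE ε i * MonoidAlgebra.single s 1 * F.EE ε i) * MonoidAlgebra.single g₂ 1))) := by
  have hQ := qp_form Φ hT
  have key := (lv F hi).mackey (g := g) (t := (F.hyp i hi).tt) (s := s) hQ (datF F hε hp hi)
    (U_eq F hi)
    (by rw [WF_inf F hi, GW_WF F i]; rfl)
    (by
      intro h
      rw [GW_WF]
      exact F.gl_mem_H hi h)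
    (by
      rintro h _ ⟨a, rfl⟩
      exact ⟨h a, ((F.hyp i hi).gl_x h a).symm⟩)
    (by
      rintro h _ ⟨a, rfl⟩
      exact ⟨adjL Φ.θ h a, ((F.hyp i hi).gl_y h a).symm⟩)
    (by
      intro h z hz
      rw [mem_perp_x] at hz
      change (F.hyp i hi).gl h z - z ∈ _
      rw [(F.hyp i hi).gl_apply, hz, map_zero, sub_zero, map_zero, add_zero, add_sub_cancel_left]
      exact ⟨_, rfl⟩)
    (exists_gl (F.hyp i hi))
    (cusp_conv hc (F.hyp i hi))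
    (by
      rw [GW_WF]
      exact F.tt_mem_H hi)
    (by
      apply le_antisymm
      · rintro _ ⟨_, ⟨a, rfl⟩, rfl⟩
        exact ⟨a, ((F.hyp i hi).tt_x a).symm⟩
      · rintro _ ⟨a, rfl⟩
        exact ⟨_, ⟨a, rfl⟩, (F.hyp i hi).tt_x a⟩)
    (by
      rw [WF_inf F hi, GW_WF F (i + 1)]
      intro S h1 h2 h3
      exact hs S h1 h2 (h3.trans (finrank_range_x _)))
    (by rw [GW_WF]; exact hg)
  rw [datF_E, WF_inf F hi, finrank_range_x (F.hyp i hi)] at key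
  exact key

/-- **The Mackey formula, bottom level.** -/
theorem mack0 (h0 : 0 < m) (hmax : ∀ S : Submodule K E, S ≤ WF F 0 →
      (∀ x ∈ S, ∀ y ∈ S, Φ.B x y = 0) → finrank K S ≠ Fintype.card ι)
    {g : E ≃ₗ[K] E} (hg : g ∈ F.H 1) :
    ((LinearMap.range (F.x 0)).map (g : E →ₗ[K] E) = LinearMap.range (F.x 0) ∧
      ∃ c : k, ∃ g' ∈ F.H 0, F.EE ε 0 * MonoidAlgebra.single g 1 * F.EE ε 0 =
        c • (MonoidAlgebra.single g' 1 * F.EE ε 0)) ∨
      ((LinearMap.range (F.x 0)).map (g : E →ₗ[K] E) ≠ LinearMap.range (F.x 0) ∧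
        (F.EE ε 0 * MonoidAlgebra.single g 1 * F.EE ε 0 = 0 ∨
        (∃ h, ∃ g' ∈ F.H 0, F.EE ε 0 * MonoidAlgebra.single g 1 * F.EE ε 0 =
          F.EE ε 0 * MonoidAlgebra.single ((F.hyp 0 h0).tt * (F.hyp 0 h0).gl h) 1 * F.EE ε 0 *
            MonoidAlgebra.single g' 1))) := by
  have hno : ∀ S : Submodule K E, S ≤ WF F 0 → Sing Φ (qq Φ) S → finrank K S ≠ Fintype.card ι :=
    fun S h1 h2 => hmax S h1 h2.2
  rcases mackF F hT hε hp hc h0 (s := 1) (fun S h1 h2 h3 => absurd h3 (hno S h1 h2)) hg with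
    h | ⟨h, h1 | h1 | ⟨⟨S, h1, h2, h3⟩, -⟩⟩
  · exact Or.inl h
  · exact Or.inr ⟨h, Or.inl h1⟩
  · exact Or.inr ⟨h, Or.inr h1⟩
  · exact absurd h3 (hno S h1 h2)

/-- **The Mackey formula.** -/
theorem mackS {i : ℕ} (hi : i + 1 < m) {g : E ≃ₗ[K] E} (hg : g ∈ F.H (i + 2)) :
    ((LinearMap.range (F.x (i + 1))).map (g : E →ₗ[K] E) = LinearMap.range (F.x (i + 1)) ∧
      ∃ c : k, ∃ g' ∈ F.H (i + 1), F.EE ε (i + 1) * MonoidAlgebra.single g 1 * F.EE ε (i + 1) =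
        c • (MonoidAlgebra.single g' 1 * F.EE ε (i + 1))) ∨
      ((LinearMap.range (F.x (i + 1))).map (g : E →ₗ[K] E) ≠ LinearMap.range (F.x (i + 1)) ∧
        (F.EE ε (i + 1) * MonoidAlgebra.single g 1 * F.EE ε (i + 1) = 0 ∨
        (∃ h, ∃ g' ∈ F.H (i + 1), F.EE ε (i + 1) * MonoidAlgebra.single g 1 * F.EE ε (i + 1) =
          F.EE ε (i + 1) * MonoidAlgebra.single ((F.hyp (i + 1) hi).tt *
            (F.hyp (i + 1) hi).gl h) 1 * F.EE ε (i + 1) * MonoidAlgebra.single g' 1) ∨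
        (∃ g₁ ∈ F.H (i + 1), ∃ g₂ ∈ F.H (i + 1),
          F.EE ε (i + 1) * MonoidAlgebra.single g 1 * F.EE ε (i + 1) =
            MonoidAlgebra.single g₁ 1 * F.TT ε i * MonoidAlgebra.single g₂ 1))) := by
  have h0 : i < m := Nat.lt_of_succ_lt hi
  rcases mackF F hT hε hp hc hi (s := F.s i hi) (fun S h1 h2 h3 => by
      refine ⟨F.s_mem hi, ?_, fun h => ?_⟩
      · rintro _ ⟨_, ⟨a, rfl⟩, rfl⟩
        have h4 : F.s i hi (F.x (i + 1) a) = F.x i a := F.s_x_succ hi a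
        change F.s i hi (F.x (i + 1) a) ∈ _
        rw [h4]
        exact x_mem_WF F h0 a
      · rw [F.s_inv, F.s_gl' hi]
        exact F.gl_mem_H h0 h) hg with h | ⟨h, h1 | h1 | ⟨-, h1⟩⟩
  · exact Or.inl h
  · exact Or.inr ⟨h, Or.inl h1⟩
  · exact Or.inr ⟨h, Or.inr (Or.inl h1)⟩
  · rw [← F.TT_eq ε hi] at h1
    exact Or.inr ⟨h, Or.inr (Or.inr h1)⟩

end frame

end Vale.Agent.P180.H386.Fm
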