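import Vale.Agent.P180.H386.PosG

/-!
P180 H386: the Mackey formula for a frame, as the last two fields of the tower.
-/

set_option linter.all false

namespace Vale.Agent.P180.H386.Fm

open Module Vale.Agent.P180 Vale.Agent.P180.R2.H854 Vale.Agent.P180.R2.H799
  Vale.Agent.P180.R2.H799.BN Vale.Agent.P180.H19.Atwo
open Vale.Agent.P180.H354.Fm Vale.Agent.P180.H393.Fm Vale.Agent.P180.H386.Mack

universe u

variable {k : Type u} [Field k]

/-- linear extension -/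
theorem ext_SubAlg {G : Type*} [Group G] {S : Subgroup G} {e e' : MonoidAlgebra k G}
    {N : Submodule k (MonoidAlgebra k G)}
    (h : ∀ g ∈ S, e * MonoidAlgebra.single g 1 * e' ∈ N) {x : MonoidAlgebra k G}
    (hx : x ∈ SubAlg k S) : e * x * e' ∈ N := by
  refine SuppIn.induction (P := fun x => e * x * e' ∈ N) hx ?_ ?_ ?_
  · rw [mul_zero, zero_mul]
    exact N.zero_mem
  · intro a b ha hb
    rw [mul_add, add_mul]
    exact N.add_mem ha hb
  · intro g hg c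
    rw [mul_smul_comm, smul_mul_assoc]
    exact N.smul_mem c (h g hg)

variable {K E : Type} [Field K] [AddCommGroup E] [Module K E]
  [Finite (E ≃ₗ[K] E)] {Φ : HForm K E} {ι : Type} [Fintype ι] [DecidableEq ι] {m : ℕ}
  (F : Frame Φ ι m) {ε : MonoidAlgebra k ((ι → K) ≃ₗ[K] (ι → K))}
  [FiniteDimensional K E] [Finite K]
  (hT : Φ.Tr) [CharZero k] [Finite ((ι → K) ≃ₗ[K] (ι → K))] (hε : ε * ε = ε)
  (hp : ∀ h, ∃ c : k, ε * MonoidAlgebra.single h 1 * ε = c • ε)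
  (hc : ∀ A1 : Submodule K (ι → K), A1 ≠ ⊥ → A1 ≠ ⊤ → ε * av k (Rad A1) = 0)
  {X : ℕ → MonoidAlgebra k (E ≃ₗ[K] E)}
  (hX : ∀ i (hi : i < m), ∀ h, ∃ c : k,
    F.EE ε i * MonoidAlgebra.single ((F.hyp i hi).tt * (F.hyp i hi).gl h) 1 * F.EE ε i = c • X i)
  (hXc : ∀ i < m, ∀ g ∈ F.H i, X i * MonoidAlgebra.single g 1 = MonoidAlgebra.single g 1 * X i)

include hT hε hp hc hX hXc

/-- the elements which move the subspace, bottom level -/
theorem gen0_ne (h0 : 0 < m) (hmax : ∀ S : Submodule K E, S ≤ WF F 0 →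
      (∀ x ∈ S, ∀ y ∈ S, Φ.B x y = 0) → finrank K S ≠ Fintype.card ι)
    {g : E ≃ₗ[K] E} (hg : g ∈ F.H 1)
    (hne : (LinearMap.range (F.x 0)).map (g : E →ₗ[K] E) ≠ LinearMap.range (F.x 0)) :
    F.EE ε 0 * MonoidAlgebra.single g 1 * F.EE ε 0 ∈
      Submodule.span k {z | ∃ y ∈ SubAlg k (F.H 0), z = y * X 0} := by
  rcases mack0 F hT hε hp hc h0 hmax hg with ⟨h, -⟩ | ⟨-, h | ⟨h, g', hg', h1⟩⟩
  · exact absurd h hne
  · rw [h]
    exact Submodule.zero_mem _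
  · obtain ⟨c, hcx⟩ := hX 0 h0 h
    rw [h1, hcx, smul_mul_assoc, hXc 0 h0 g' hg']
    exact Submodule.smul_mem _ c (Submodule.subset_span ⟨_, single_mem_SubAlg hg' 1, rfl⟩)

/-- **Mackey, bottom**: the field `gen0` of the tower. -/
theorem gen0 (h0 : 0 < m) (hmax : ∀ S : Submodule K E, S ≤ WF F 0 →
      (∀ x ∈ S, ∀ y ∈ S, Φ.B x y = 0) → finrank K S ≠ Fintype.card ι) :
    ∀ x ∈ SubAlg k (F.H 1), F.EE ε 0 * x * F.EE ε 0 ∈ Submodule.span k
      {z | ∃ y ∈ SubAlg k (F.H 0), z = y * F.EE ε 0 ∨ z = y * X 0} := by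
  intro x hx
  refine ext_SubAlg (fun g hg => ?_) hx
  rcases mack0 F hT hε hp hc h0 hmax hg with ⟨-, c, g', hg', h1⟩ | ⟨hne, -⟩
  · rw [h1]
    exact Submodule.smul_mem _ c (Submodule.subset_span
      ⟨_, single_mem_SubAlg hg' 1, Or.inl rfl⟩)
  · refine Submodule.span_mono ?_ (gen0_ne F hT hε hp hc hX hXc h0 hmax hg hne)
    rintro z ⟨y, hy, rfl⟩
    exact ⟨y, hy, Or.inr rfl⟩

/-- the elements which move the subspace -/
theorem gen_ne {i : ℕ} (hi : i + 1 < m) {g : E ≃ₗ[K] E} (hg : g ∈ F.H (i + 2))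
    (hne : (LinearMap.range (F.x (i + 1))).map (g : E →ₗ[K] E) ≠ LinearMap.range (F.x (i + 1))) :
    F.EE ε (i + 1) * MonoidAlgebra.single g 1 * F.EE ε (i + 1) ∈
      Submodule.span k {z | ∃ y ∈ SubAlg k (F.H (i + 1)), ∃ y' ∈ SubAlg k (F.H (i + 1)),
        z = y * X (i + 1) ∨ z = y * F.TT ε i * y'} := by
  rcases mackS F hT hε hp hc hi hg with ⟨h, -⟩ | ⟨-, h | ⟨h, g', hg', h1⟩ | ⟨g₁, hg₁, g₂, hg₂, h1⟩⟩
  · exact absurd h hne
  · rw [h]
    exact Submodule.zero_mem _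
  · obtain ⟨c, hcx⟩ := hX (i + 1) hi h
    rw [h1, hcx, smul_mul_assoc, hXc (i + 1) hi g' hg']
    exact Submodule.smul_mem _ c (Submodule.subset_span
      ⟨_, single_mem_SubAlg hg' 1, 1, Subalgebra.one_mem _, Or.inl rfl⟩)
  · rw [h1]
    exact Submodule.subset_span
      ⟨_, single_mem_SubAlg hg₁ 1, _, single_mem_SubAlg hg₂ 1, Or.inr rfl⟩

/-- **Mackey**: the field `gen` of the tower. -/
theorem gen {i : ℕ} (hi : i + 1 < m) :
    ∀ x ∈ SubAlg k (F.H (i + 2)), F.EE ε (i + 1) * x * F.EE ε (i + 1) ∈ Submodule.span k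
      {z | ∃ y ∈ SubAlg k (F.H (i + 1)), ∃ y' ∈ SubAlg k (F.H (i + 1)),
        z = y * F.EE ε (i + 1) ∨ z = y * X (i + 1) ∨ z = y * F.TT ε i * y'} := by
  intro x hx
  refine ext_SubAlg (fun g hg => ?_) hx
  rcases mackS F hT hε hp hc hi hg with ⟨-, c, g', hg', h1⟩ | ⟨hne, -⟩
  · rw [h1]
    exact Submodule.smul_mem _ c (Submodule.subset_span
      ⟨_, single_mem_SubAlg hg' 1, 1, Subalgebra.one_mem _, Or.inl rfl⟩)
  · refine Submodule.span_mono ?_ (gen_ne F hT hε hp hc hX hXc hi hg hne)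
    rintro z ⟨y, hy, y', hy', rfl | rfl⟩
    · exact ⟨y, hy, y', hy', Or.inr (Or.inl rfl)⟩
    · exact ⟨y, hy, y', hy', Or.inr (Or.inr rfl)⟩

end Vale.Agent.P180.H386.Fm
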