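import Vale.Agent.P180.H386.Idm
import Vale.Agent.P180.H386.Cos
import Vale.Agent.P180.H393.Cc
import Vale.Agent.P180.H19.Cusp

/-!
P180 H386 (block B3 of theorem B): Harish-Chandra restriction kills the singular part of a
character in a block with a homogeneous abelian defect group.
-/

set_option linter.all false

namespace Vale.Agent.P180.H386

open Finset Subgroup Vale.Agent.P180.R2.H799
  Vale.Agent.P180.R2.H471.Hc Vale.Agent.P180.R2.H954.Hc Vale.Agent.P180.R2.H12.Sl
  Vale.Agent.P180.H337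
open Vale.Agent.P180.H393 (IsIr IsCF ev PB UB Res sk sk_mul sk_inj UB_norm)
open P179X (pp)
open P179C (pr)

universe u

open scoped Classical

section

variable {k : Type u} [Field k] [IsAlgClosed k] {p : ℕ} [hp : Fact p.Prime] [CharP k p]

/-- the second main theorem for `χ` at `x`, with the lift `E` of the Brauer image of the block -/
def Blk2 {G : Type} [Group G] (χ : G → KK k p) (x : G)
    (E : MonoidAlgebra (WittVector p k) (centralizer ({x} : Set G))) : Prop :=
  ∀ [Fintype (centralizer ({x} : Set G))] (ζ : centralizer ({x} : Set G) → KK k p),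
    IsIr (KK k p) _ ζ → ev ζ (MonoidAlgebra.mapRingHom _ (toKK k p) E) = 0 →
    ∑ s : centralizer ({x} : Set G), (if p ∣ orderOf s then 0 else χ (s * x) * ζ s⁻¹) = 0

/-- the coset sums vanish -/
theorem coset_sum {G : Type} [Group G] [Finite G] {χ : G → KK k p} (hχ : IsCF χ) {U : Subgroup G}
    [Fintype U] (hU : ¬ p ∣ Nat.card U) {m : G} (hm : ∀ j : ℕ, ∀ v, v ∈ U ↔ m ^ j * v * (m ^ j)⁻¹ ∈ U)
    (h : pp p m ≠ 1 → ∃ E : MonoidAlgebra (WittVector p k) (centralizer ({pp p m} : Set G)),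
      E * E = E ∧ (∀ y, y * E = E * y) ∧
      BN.av k ((cU U (pp p m)).subgroupOf (centralizer ({pp p m} : Set G))) *
        MonoidAlgebra.mapRingHom _ (WittVector.constantCoeff (p := p) (R := k)) E = 0 ∧
      Blk2 χ (pp p m) E) :
    ∑ u : U, sg p χ (m * u) = 0 := by
  have hchar : CharZero (KK k p) := charZero_KK k p
  have hm1 : ∀ v, v ∈ U ↔ m * v * m⁻¹ ∈ U := fun v => by
    have := hm 1 v
    rwa [pow_one] at this
  by_cases hreg : p ∣ orderOf m
  swap
  · refine Finset.sum_eq_zero fun u _ => ?_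
    rw [sg, if_neg (reg_coset hU hm1 u.2 hreg)]
  have hpp1 : pp p m ≠ 1 := by
    rw [Ne, P179P.pp_eq_one_iff, not_not]
    exact hreg
  have h1 : ∀ u : U, sg p χ (m * u) = χ (m * u) := fun u => by
    rw [sg, if_pos ((reg_coset_iff hU hm1 u.2).2 hreg)]
  rw [Finset.sum_congr rfl fun u _ => h1 u]
  -- `x` and `y` are powers of `m`
  obtain ⟨ex, hex⟩ := exists_exp (p := p) (G := G)
  have hyex : ∃ e : ℕ, m ^ e = pr p m := ⟨_, rfl⟩
  obtain ⟨ey, hey⟩ := hyex
  have hxN : ∀ v, v ∈ U ↔ pp p m * v * (pp p m)⁻¹ ∈ U := fun v => by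
    rw [← hex m]; exact hm ex v
  have hyN : ∀ v, v ∈ U ↔ pr p m * v * (pr p m)⁻¹ ∈ U := fun v => by
    rw [← hey]; exact hm ey v
  have hxy := P179P.pp_comm (p := p) m
  have hy := P179P.pr_regular' (p := p) m
  have hmm := P179P.pp_mul_pr (p := p) m
  have hxp := P179P.pp_pow_eq_one (p := p) m
  have hcf := Fintype.ofFinite (cU U (pp p m))
  set x := pp p m with hxdef
  set y := pr p m with hydef
  obtain ⟨E, hEE, hEc, h0, h2⟩ := h hpp1
  have h3 := sum_coset (K := KK k p) hU hxp hy hxy hxN hyN (f := χ) hχ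
  rw [hmm] at h3
  have hc0 : ((Nat.card (cU U x) : ℕ) : KK k p) ≠ 0 := by
    have : Nat.card (cU U x) ≠ 0 := Nat.card_pos.ne'
    exact_mod_cast this
  have hcC : ¬ p ∣ Nat.card (cU U x) := by
    intro hd
    refine hU (hd.trans ?_)
    exact Subgroup.card_dvd_of_le (inf_le_left)
  suffices h4 : ∑ c : cU U x, χ (x * (y * c)) = 0 by
    rw [h4, mul_zero] at h3
    exact (mul_eq_zero.1 h3).resolve_left hc0
  -- the group `H`
  let H : Subgroup G := centralizer ({x} : Set G)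
  have _ : Fintype H := Fintype.ofFinite _
  have hyH : y ∈ H := by
    change y ∈ centralizer ({x} : Set G)
    rw [Subgroup.mem_centralizer_singleton_iff]
    exact hxy.symm
  have hcH : ∀ c : cU U x, (c : G) ∈ H := fun c => (mem_inf.1 c.2).2
  let C : Subgroup H := (cU U x).subgroupOf H
  have _ : Fintype C := Fintype.ofFinite _
  let e : cU U x ≃ C :=
    { toFun := fun c => ⟨⟨c, hcH c⟩, c.2⟩
      invFun := fun c => ⟨(c.1 : G), c.2⟩
      left_inv := fun c => rfl
      right_inv := fun c => rfl }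
  have hC : ¬ p ∣ Nat.card C := by rwa [← Nat.card_congr e]
  let θ : H → KK k p := fun s => if p ∣ orderOf s then 0 else χ (s * x)
  have hθ : IsCF θ := by
    intro a b
    have h5 : orderOf (a * b * a⁻¹) = orderOf b := by
      have := MulEquiv.orderOf_eq (MulAut.conj a) b
      rwa [MulAut.conj_apply] at this
    simp only [θ, h5]
    congr 1
    have h6 : ((a * b * a⁻¹ : H) : G) * x = a * (b * x) * (a : G)⁻¹ := by
      have h7 : (a : G) * x = x * a := Subgroup.mem_centralizer_singleton_iff.1 a.2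
      have h8 : (a : G)⁻¹ * x = x * (a : G)⁻¹ := by
        rw [inv_mul_eq_iff_eq_mul, ← mul_assoc, h7, mul_inv_cancel_right]
      push_cast
      rw [mul_assoc, h8]; simp only [mul_assoc]
    rw [h6, hχ]
  have h5 : ∀ c : cU U x, χ (x * (y * c)) = θ (⟨y, hyH⟩ * ⟨c, hcH c⟩) := by
    intro c
    have h6 : ¬ p ∣ orderOf ((⟨y, hyH⟩ * ⟨c, hcH c⟩ : H)) := by
      have := reg_coset hU hyN (mem_cU.1 c.2).1 hy
      rwa [← Subgroup.orderOf_coe]
    simp only [θ, if_neg h6]
    congr 1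
    have h7 : (c : G) * x = x * c := (mem_cU.1 c.2).2
    change x * (y * c) = y * c * x
    rw [mul_assoc, h7, ← mul_assoc, hxy, mul_assoc]
  rw [Finset.sum_congr rfl fun c _ => h5 c]
  have h6 : ∀ c : cU U x, θ (⟨y, hyH⟩ * ⟨c, hcH c⟩) =
      ∑ ζ : IrK (KK k p) H, ip θ ζ.1 * ζ.1 (⟨y, hyH⟩ * ⟨c, hcH c⟩) := fun c => complete hθ _
  rw [Finset.sum_congr rfl fun c _ => h6 c, Finset.sum_comm]
  refine Finset.sum_eq_zero fun ζ _ => ?_
  rw [← Finset.mul_sum]
  by_cases hz : ev ζ.1 (MonoidAlgebra.mapRingHom _ (toKK k p) E) = 0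
  · have h7 := h2 ζ.1 ζ.2 hz
    have h8 : ip θ ζ.1 = 0 := by
      unfold ip
      have h9 : ∑ s : H, θ s * ζ.1 s⁻¹ = 0 := by
        rw [← h7]
        refine Finset.sum_congr rfl fun s _ => ?_
        simp only [θ]
        split_ifs <;> simp
      rw [h9, mul_zero]
    rw [h8, zero_mul]
  · have h7 := sum_eq_zero (k := k) (p := p) hC hEE hEc h0 ζ.2 hz ⟨y, hyH⟩
    have h8 : ∑ c : cU U x, ζ.1 (⟨y, hyH⟩ * ⟨c, hcH c⟩) = ∑ c : C, ζ.1 (⟨y, hyH⟩ * c) :=
      Equiv.sum_comp e (fun c : C => ζ.1 (⟨y, hyH⟩ * c))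
    rw [h8, h7, mul_zero]

end

end Vale.Agent.P180.H386
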