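import Vale.Agent.P180.H393.Ir

/-!
P180 H386: the singular part of a class function.
-/

set_option linter.all false

namespace Vale.Agent.P180.H386

universe u

open scoped Classical in
/-- the restriction to the `p`-singular elements, extended by zero -/
noncomputable def sg (p : ℕ) {K : Type u} [Field K] {G : Type} [Group G] (χ : G → K) (g : G) : K :=
  if p ∣ orderOf g then χ g else 0

end Vale.Agent.P180.H386
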