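import Vale.Agent.P180.H354.Fm

/-!
P180 H386: Siegel transvections.
-/

set_option linter.all false

namespace Vale.Agent.P180.H386.Fm

open Module Vale.Agent.P180.R2.H854
open Vale.Agent.P180.H354.Fm

variable {K E : Type*} [Field K] [AddCommGroup E] [Module K E] {Φ : HForm K E} {q : E → K}
  {τ : K → K}

theorem isom_inj {f : E →ₗ[K] E} (hf : ∀ x y, Φ.B (f x) (f y) = Φ.B x y) :
    Function.Injective f := by
  rw [injective_iff_map_eq_zero]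
  intro x hx
  apply Φ.nondeg
  intro y
  rw [← hf, hx, Φ.zero_left]

/-- an isometry as a linear equivalence -/
theorem exists_equiv [FiniteDimensional K E] {f : E →ₗ[K] E}
    (hf : ∀ x y, Φ.B (f x) (f y) = Φ.B x y) : ∃ g : E ≃ₗ[K] E, ∀ x, g x = f x :=
  ⟨LinearEquiv.ofInjectiveEndo f (isom_inj hf), fun _ => rfl⟩

/-- **Siegel transvections.** -/
theorem exists_siegel [FiniteDimensional K E] (h : QP Φ q τ) {c x : E} (hc : q c = 0)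
    (hcc : Φ.B c c = 0) (hxc : Φ.B x c = 0) : ∃ (g : E ≃ₗ[K] E) (t : K), g ∈ GI Φ q ∧
      (q x = 0 → Φ.B x x = 0 → t = 0) ∧
      ∀ z, g z = z + Φ.B z c • x - (Φ.θ Φ.ε * Φ.B z x) • c - (t * Φ.B z c) • c := by
  classical
  obtain ⟨t₀, ht1, ht2, ht3⟩ : ∃ t, τ t = q x ∧ t + Φ.ε * Φ.θ t = Φ.B x x ∧
      (q x = 0 → Φ.B x x = 0 → t = 0) := by
    by_cases h0 : q x = 0 ∧ Φ.B x x = 0
    · refine ⟨0, ?_, ?_, fun _ _ => rfl⟩
      · rw [h.τ_zero, h0.1]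
      · rw [map_zero, mul_zero, add_zero, h0.2]
    · obtain ⟨t, h1, h2⟩ := h.surj x
      exact ⟨t, h1, h2, fun h3 h4 => absurd ⟨h3, h4⟩ h0⟩
  have hcx : Φ.B c x = 0 := Φ.eq_zero_comm hxc
  have hεε : Φ.θ Φ.ε * Φ.ε = 1 := by rw [mul_comm]; exact Φ.εε
  let f : E →ₗ[K] E := LinearMap.id + (Φ.fn c).smulRight x - (Φ.θ Φ.ε • Φ.fn x).smulRight c -
    (Φ.θ t₀ • Φ.fn c).smulRight c
  have hf : ∀ z, f z = z + Φ.B z c • x - (Φ.θ Φ.ε * Φ.B z x) • c - (Φ.θ t₀ * Φ.B z c) • c :=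
    fun z => rfl
  have hf' : ∀ z, f z = z + (Φ.B z c • x + (-(Φ.θ Φ.ε * Φ.B z x) - Φ.θ t₀ * Φ.B z c) • c) := by
    intro z
    rw [hf, sub_smul, neg_smul]
    abel
  have hθθ := Φ.θθ
  have hB : ∀ z y, Φ.B (f z) (f y) = Φ.B z y := by
    intro z y
    rw [hf', hf']
    have e1 : Φ.B x y = Φ.ε * Φ.θ (Φ.B y x) := Φ.symm y x
    have e2 : Φ.B c y = Φ.ε * Φ.θ (Φ.B y c) := Φ.symm y c
    simp only [Φ.add_left, Φ.add_right, Φ.smul_left, Φ.smul_right, hcc, hxc, hcx, e1, e2, map_sub,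
      map_neg, map_mul, hθθ, mul_zero, add_zero, zero_add]
    have e3 : Φ.B x x = t₀ + Φ.ε * Φ.θ t₀ := ht2.symm
    rw [e3]
    linear_combination (-(Φ.B z x) * Φ.θ (Φ.B y c)) * hεε
  have hq : ∀ z, q (f z) = q z := by
    intro z
    rw [hf', h.add, h.add, h.smul, h.smul, hc, mul_zero, add_zero]
    have e4 : Φ.B (Φ.B z c • x) ((-(Φ.θ Φ.ε * Φ.B z x) - Φ.θ t₀ * Φ.B z c) • c) = 0 := by
      rw [Φ.smul_left, Φ.smul_right, hxc, mul_zero, mul_zero]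
    rw [e4, h.τ_zero, add_zero]
    have e5 : Φ.B z (Φ.B z c • x + (-(Φ.θ Φ.ε * Φ.B z x) - Φ.θ t₀ * Φ.B z c) • c) =
        (Φ.θ (Φ.B z c) * Φ.B z x) + -(Φ.ε * Φ.θ (Φ.θ (Φ.B z c) * Φ.B z x)) +
          -(Φ.B z c * Φ.θ (Φ.B z c) * t₀) := by
      rw [Φ.add_right, Φ.smul_right, Φ.smul_right]
      simp only [map_sub, map_neg, map_mul, hθθ]
      ring
    rw [e5, h.τ_add, h.τ_add, h.τ_neg, h.τ_neg, h.τ_symm, h.τ_smul, ht1]
    ring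
  obtain ⟨g, hg⟩ := exists_equiv hB
  refine ⟨g, Φ.θ t₀, ⟨fun x y => by rw [hg, hg, hB], fun x => by rw [hg, hq]⟩, ?_, fun z => by
    rw [hg, hf]⟩
  intro h1 h2
  rw [ht3 h1 h2, map_zero]

end Vale.Agent.P180.H386.Fm
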