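import Vale.Agent.P180.H386.SigA

/-! P180, H1: no proper field automorphisms, for nonscalar `Q`, `p` odd. -/

set_option linter.all false

namespace Vale.Agent.P180.H386

open Polynomial Module Vale.Agent.P180.R2.H471.Au

section main

variable {K : Type*} [Field K] {V : Type*} [AddCommGroup V] [Module K V]
variable [FiniteDimensional K V] [Finite K] {p : ℕ} [Fact p.Prime]

/-- an element of `Q` with given eigenvalues -/
theorem exists_W {Q : Subgroup (SpecialLinearGroup K V)} (hQ : PClosed p Q)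
    {u : SpecialLinearGroup K V} (hu : u ∈ Q) {n : ℕ} {v : ℕ → K}
    (hv : Set.InjOn v (Finset.range n))
    (hP : aeval (en u) (∏ i ∈ Finset.range n, (X - C (v i))) = 0) {h : ℕ → K} {a : ℕ}
    (hh : ∀ i, h i ^ p ^ a = 1) (hdet : LinearMap.det (ww (en u) n v h) = 1) :
    ∃ w ∈ Q, en w = ww (en u) n v h := by
  have hp : p.Prime := Fact.out
  have hpow : ww (en u) n v h ^ p ^ a = 1 := by
    rw [ww_pow hv hP]
    simp only [hh]
    exact ww_one hv hP
  obtain ⟨w₁, hw₁, hw₁1⟩ := exists_equiv (pow_pos hp.pos a) hpow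
  have hdet' : LinearEquiv.det w₁ = 1 := by
    apply Units.ext
    rw [LinearEquiv.coe_det, hw₁, hdet, Units.val_one]
  exact ⟨⟨w₁, hdet'⟩, hQ u hu _ _ ⟨a, Subtype.ext hw₁1⟩ hw₁, hw₁⟩

/-- the core -/
theorem fix_gen (hp2 : p ≠ 2) {Q : Subgroup (SpecialLinearGroup K V)} (hQ : PClosed p Q)
    {u : SpecialLinearGroup K V} (hu : u ∈ Q) {σ : RingAut K} {g : V ≃+ V}
    (hg : ∀ (c : K) v, g (c • v) = σ c • g v) (hgQ : ∀ w ∈ Q, ∀ v, g (w v) = w (g v))
    {s : ℕ} (hσ : σ ^ p ^ s = 1) {ξ ζ b : K} {a : ℕ} (hξ : IsPrimitiveRoot ξ (p ^ a))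
    (ha : 1 ≤ a) (hζ : IsPrimitiveRoot ζ p) (hb0 : b ≠ 0) (hσb : σ b ^ p = b ^ p)
    (hP : aeval (en u) (∏ i ∈ Finset.range p, (X - C (ζ ^ i * b))) = 0)
    {i₁ i₂ : ℕ} (h₁ : i₁ < p) (h₂ : i₂ < p) (hne : i₁ ≠ i₂)
    (e₁ : ∃ x, x ≠ 0 ∧ en u x = (ζ ^ i₁ * b) • x) (e₂ : ∃ x, x ≠ 0 ∧ en u x = (ζ ^ i₂ * b) • x)
    (ho : orderOf (dd (en u) p (fun i => ζ ^ i * b) i₁ ξ) ∣
      orderOf (dd (en u) p (fun i => ζ ^ i * b) i₂ ξ)) : σ ξ = ξ := by
  classical
  have hp : p.Prime := Fact.out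
  set v : ℕ → K := fun i => ζ ^ i * b with hvdef
  have hv : Set.InjOn v (Finset.range p) := by
    intro i hi j hj hij
    have h1 : ζ ^ i = ζ ^ j := mul_right_cancel₀ hb0 hij
    exact hζ.pow_inj (Finset.mem_range.mp hi) (Finset.mem_range.mp hj) h1
  have hξ0 : ξ ≠ 0 := hξ.ne_zero (pow_pos hp.pos a).ne'
  have hξ1 : ξ ≠ 1 := by
    intro h
    have h1 := hξ.eq_orderOf
    rw [h, orderOf_one] at h1
    have h2 : 1 < p ^ a := Nat.one_lt_pow (by omega) hp.one_lt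
    omega
  have hξp : ξ ^ p ^ a = 1 := hξ.pow_eq_one
  -- the second eigenvalue
  obtain ⟨y, hyp, hy⟩ : ∃ y : K, y ^ p ^ a = 1 ∧ dd (en u) p v i₁ ξ * dd (en u) p v i₂ y = 1 := by
    have h1 : dd (en u) p v i₂ ξ ^ p ^ a = 1 := by rw [← dd_pow hv hP, hξp, dd_one hv hP]
    have h2 : 0 < orderOf (dd (en u) p v i₂ ξ) :=
      orderOf_pos_iff.mpr (isOfFinOrder_iff_pow_eq_one.mpr ⟨_, pow_pos hp.pos a, h1⟩)
    haveI : NeZero (orderOf (dd (en u) p v i₂ ξ)) := ⟨h2.ne'⟩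
    obtain ⟨i, -, hi⟩ := (IsPrimitiveRoot.orderOf (dd (en u) p v i₂ ξ)).eq_pow_of_pow_eq_one
      (orderOf_dvd_iff_pow_eq_one.mp ho)
    refine ⟨(ξ⁻¹) ^ i, ?_, ?_⟩
    · rw [← pow_mul, mul_comm, pow_mul, inv_pow, hξp, inv_one, one_pow]
    · rw [← hi, ← dd_pow hv hP, ← dd_mul hv hP, ← mul_pow, mul_inv_cancel₀ hξ0, one_pow,
        dd_one hv hP]
  -- the element of `Q`
  set h : ℕ → K := fun j => (if j = i₁ then ξ else 1) * (if j = i₂ then y else 1) with hh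
  have hhp : ∀ i, h i ^ p ^ a = 1 := by
    intro i
    rw [hh]
    show ((if i = i₁ then ξ else 1) * (if i = i₂ then y else 1)) ^ p ^ a = 1
    rw [mul_pow]
    by_cases h3 : i = i₁
    · by_cases h4 : i = i₂
      · rw [if_pos h3, if_pos h4, hξp, hyp, one_mul]
      · rw [if_pos h3, if_neg h4, hξp, one_pow, one_mul]
    · by_cases h4 : i = i₂
      · rw [if_neg h3, if_pos h4, hyp, one_pow, one_mul]
      · rw [if_neg h3, if_neg h4, one_pow, one_mul]
  obtain ⟨w, hw, hwe⟩ := exists_W hQ hu hv hP (a := a) hhp (by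
    rw [hh, ← ww_mul hv hP, map_mul]
    exact hy)
  have hh1 : h i₁ = ξ := by
    show (if i₁ = i₁ then ξ else 1) * (if i₁ = i₂ then y else 1) = ξ
    rw [if_pos rfl, if_neg hne, mul_one]
  have hh2 : h i₂ = y := by
    show (if i₂ = i₁ then ξ else 1) * (if i₂ = i₂ then y else 1) = y
    rw [if_pos rfl, if_neg hne.symm, one_mul]
  have hh3 : ∀ i, h i ≠ 1 → i = i₁ ∨ i = i₂ := by
    intro i hi
    by_contra hcon
    push Not at hcon
    apply hi
    show (if i = i₁ then ξ else 1) * (if i = i₂ then y else 1) = 1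
    rw [if_neg hcon.1, if_neg hcon.2, one_mul]
  -- the action of `σ` on the nodes
  haveI : NeZero p := ⟨hp.ne_zero⟩
  obtain ⟨t, ht, htb⟩ : ∃ t < p, σ b = ζ ^ t * b := by
    obtain ⟨t, ht, h3⟩ := hζ.eq_pow_of_pow_eq_one (ξ := σ b / b) (by
      rw [div_pow, hσb, div_self (pow_ne_zero _ hb0)])
    exact ⟨t, ht, by rw [h3, div_mul_cancel₀ _ hb0]⟩
  have hσζ : σ ζ = ζ := fix_root hσ hζ.pow_eq_one
  have hnode : ∀ i, σ (v i) = v ((i + t) % p) := by
    intro i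
    show σ (ζ ^ i * b) = ζ ^ ((i + t) % p) * b
    rw [map_mul, map_pow, hσζ, htb, ← mul_assoc, ← pow_add]
    congr 1
    conv_lhs => rw [← Nat.div_add_mod (i + t) p]
    rw [pow_add, pow_mul, hζ.pow_eq_one, one_pow, one_mul]
  have key : ∀ i, i < p → (∃ x, x ≠ 0 ∧ en u x = v i • x) → h ((i + t) % p) = σ (h i) := by
    rintro i hi ⟨x, hx0, hx⟩
    have h3 : en u (g x) = v ((i + t) % p) • g x := by
      have h4 := hgQ u hu x
      have h5 : (u : V ≃ₗ[K] V) x = v i • x := hx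
      have h6 : u x = v i • x := hx
      rw [h6, hg, hnode] at h4
      exact h4.symm
    have h7 := ww_eig (n := p) hv h (Nat.mod_lt _ hp.pos) h3
    have h8 := ww_eig hv h hi hx
    rw [← hwe] at h7 h8
    have h9 := hgQ w hw x
    have h10 : w x = h i • x := h8
    have h11 : w (g x) = h ((i + t) % p) • g x := h7
    rw [h10, hg, h11] at h9
    have h12 : g x ≠ 0 := fun h0 => hx0 ((map_eq_zero_iff g g.injective).mp h0)
    have h13 : (σ (h i) - h ((i + t) % p)) • g x = 0 := by rw [sub_smul, h9, sub_self]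
    rcases smul_eq_zero.mp h13 with h14 | h14
    · exact (sub_eq_zero.mp h14).symm
    · exact absurd h14 h12
  have k1 := key i₁ h₁ e₁
  have k2 := key i₂ h₂ e₂
  rw [hh1] at k1
  rw [hh2] at k2
  have hσξ1 : σ ξ ≠ 1 := by
    intro h3
    exact hξ1 (σ.injective (h3.trans (map_one σ).symm))
  rcases hh3 _ (by rw [k1]; exact hσξ1) with h3 | h3
  · rw [h3, hh1] at k1
    exact k1.symm
  · -- `t ≠ 0`
    exfalso
    rw [h3, hh2] at k1
    have hy1 : σ y ≠ 1 := by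
      intro h4
      have h5 : y = 1 := σ.injective (h4.trans (map_one σ).symm)
      rw [h5] at k1
      exact hσξ1 k1.symm
    have ht0 : t ≠ 0 := by
      rintro rfl
      rw [add_zero, Nat.mod_eq_of_lt h₁] at h3
      exact hne h3
    rcases hh3 _ (by rw [k2]; exact hy1) with h4 | h4
    · -- `i₁ + 2 t ≡ i₁`
      have h5 : (i₁ + 2 * t) ≡ i₁ [MOD p] := by
        have h6 : (i₁ + t) ≡ i₂ [MOD p] := by
          show (i₁ + t) % p = i₂ % p
          rw [h3, Nat.mod_eq_of_lt h₂]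
        have h7 : (i₂ + t) ≡ i₁ [MOD p] := by
          show (i₂ + t) % p = i₁ % p
          rw [h4, Nat.mod_eq_of_lt h₁]
        have h8 := (h6.add_right t).trans h7
        have h9 : i₁ + t + t = i₁ + 2 * t := by ring
        rwa [h9] at h8
      have h6 : p ∣ 2 * t := by
        have h7 : i₁ + 2 * t ≡ i₁ + 0 [MOD p] := by rw [add_zero]; exact h5
        exact (Nat.modEq_zero_iff_dvd).mp (Nat.ModEq.add_left_cancel' i₁ h7)
      rcases hp.dvd_mul.mp h6 with h7 | h7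
      · exact hp2 ((Nat.prime_dvd_prime_iff_eq hp Nat.prime_two).mp h7)
      · exact ht0 (Nat.eq_zero_of_dvd_of_lt h7 ht)
    · have h5 : (i₂ + t) ≡ i₂ + 0 [MOD p] := by
        show (i₂ + t) % p = (i₂ + 0) % p
        rw [h4, add_zero, Nat.mod_eq_of_lt h₂]
      have h6 := (Nat.modEq_zero_iff_dvd).mp (Nat.ModEq.add_left_cancel' i₂ h5)
      exact ht0 (Nat.eq_zero_of_dvd_of_lt h6 ht)

/-- **No proper field automorphisms** if `Q` is not a group of scalars. -/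
theorem sigma_eq_one_nc (hp2 : p ≠ 2) (hpK : (p : K) ≠ 0) (hp1 : p ∣ Nat.card K - 1)
    {Q : Subgroup (SpecialLinearGroup K V)} (hQp : IsPGroup p Q)
    (hnc : ∃ u ∈ Q, ¬ ∃ c : K, ∀ v, u v = c • v) (hQ : PClosed p Q) {σ : RingAut K}
    {g : V ≃+ V} (hg : ∀ (c : K) v, g (c • v) = σ c • g v)
    (hgQ : ∀ w ∈ Q, ∀ v, g (w v) = w (g v)) {s : ℕ} (hσ : σ ^ p ^ s = 1) : σ = 1 := by
  classical
  have hp : p.Prime := Fact.out
  obtain ⟨u, hu, huns, c, hc⟩ := exists_u hQp hnc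
  obtain ⟨ξ, a, ha, hξ, hgen⟩ := exists_gen (K := K) hp1
  have hξp : ξ ^ p ^ a = 1 := hξ.pow_eq_one
  -- it suffices that `ξ` is fixed
  suffices hfix : σ ξ = ξ by
    have hζ : IsPrimitiveRoot (ξ ^ p ^ (a - 1)) p := by
      refine hξ.pow (pow_pos hp.pos a) ?_
      rw [← pow_succ, Nat.sub_add_cancel ha]
    refine aut_eq_one (p := p) hσ hζ.pow_eq_one ?_ ?_
    · intro h
      have h1 := hζ.eq_orderOf
      rw [h, orderOf_one] at h1
      exact hp.one_lt.ne' h1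
    · intro ω hω
      obtain ⟨i, rfl⟩ := hgen ω hω
      rw [map_pow, hfix]
  -- a nonzero vector
  obtain ⟨x₀, hx₀⟩ : ∃ x : V, x ≠ 0 := by
    by_contra hcon
    push Not at hcon
    exact huns ⟨1, fun v => by rw [hcon (u v), hcon v, smul_zero]⟩
  -- `c` is fixed
  have hσc : σ c = c := by
    have h1 := hgQ (u ^ p) (Q.pow_mem hu p) x₀
    rw [hc, hc, hg] at h1
    have h2 : g x₀ ≠ 0 := fun h0 => hx₀ ((map_eq_zero_iff g g.injective).mp h0)
    have h3 : (σ c - c) • g x₀ = 0 := by rw [sub_smul, h1, sub_self]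
    rcases smul_eq_zero.mp h3 with h4 | h4
    · exact sub_eq_zero.mp h4
    · exact absurd h4 h2
  -- `c` has `p`-power order
  obtain ⟨k, hk⟩ : ∃ k, ξ ^ k = c := by
    apply hgen
    obtain ⟨j, hj⟩ := hQp ⟨u, hu⟩
    have hj' : u ^ p ^ j = 1 := congrArg Subtype.val hj
    refine ⟨j, ?_⟩
    have h1 : ∀ m : ℕ, ((u ^ p) ^ m) x₀ = c ^ m • x₀ := by
      intro m
      induction m with
      | zero => rw [pow_zero, pow_zero, one_smul]; rfl
      | succ m ih =>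
        have h2 : ((u ^ p) ^ (m + 1)) x₀ = ((u ^ p) ^ m) ((u ^ p) x₀) := by
          rw [pow_succ]
          rfl
        rw [h2, hc]
        have h3 : ((u ^ p) ^ m) (c • x₀) = c • ((u ^ p) ^ m) x₀ :=
          LinearEquiv.map_smul (((u ^ p) ^ m : SpecialLinearGroup K V) : V ≃ₗ[K] V) c x₀
        rw [h3, ih, smul_smul, pow_succ']
    have h2 := h1 (p ^ j)
    rw [← pow_mul, mul_comm, pow_mul, hj', one_pow] at h2
    have h3 : (1 - c ^ p ^ j) • x₀ = 0 := by
      rw [sub_smul, one_smul, ← h2]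
      exact sub_self _
    rcases smul_eq_zero.mp h3 with h4 | h4
    · exact (sub_eq_zero.mp h4).symm
    · exact absurd h4 hx₀
  by_cases hpk : p ∣ k
  · -- `c` is a `p`-th power
    obtain ⟨k', rfl⟩ := hpk
    set b : K := ξ ^ k' with hb
    have hbc : b ^ p = c := by rw [hb, ← pow_mul, mul_comm, hk]
    have hξ0 : ξ ≠ 0 := hξ.ne_zero (pow_pos hp.pos a).ne'
    have hb0 : b ≠ 0 := pow_ne_zero _ hξ0
    have hσb : σ b ^ p = b ^ p := by rw [← map_pow, hbc, hσc]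
    have hζ : IsPrimitiveRoot (ξ ^ p ^ (a - 1)) p := by
      refine hξ.pow (pow_pos hp.pos a) ?_
      rw [← pow_succ, Nat.sub_add_cancel ha]
    have hP : aeval (en u) (∏ i ∈ Finset.range p, (X - C ((ξ ^ p ^ (a - 1)) ^ i * b))) = 0 := by
      rw [← X_pow_sub_C_eq_prod hζ hp.pos hbc, map_sub, map_pow, aeval_X, aeval_C, sub_eq_zero,
        ← en_pow]
      apply LinearMap.ext
      intro x
      exact hc x
    obtain ⟨i, hi, j, hj, hij, e1, e2⟩ := exists_two (φ := en u) (v := fun i =>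
      (ξ ^ p ^ (a - 1)) ^ i * b) hp.pos hP (fun h => huns h)
    have hv : Set.InjOn (fun i => (ξ ^ p ^ (a - 1)) ^ i * b) (Finset.range p) := by
      intro i hi j hj hij
      have h1 : (ξ ^ p ^ (a - 1)) ^ i = (ξ ^ p ^ (a - 1)) ^ j := mul_right_cancel₀ hb0 hij
      exact hζ.pow_inj (Finset.mem_range.mp hi) (Finset.mem_range.mp hj) h1
    have hord : ∀ i, orderOf (dd (en u) p (fun i => (ξ ^ p ^ (a - 1)) ^ i * b) i ξ) ∣ p ^ a := by
      intro i
      apply orderOf_dvd_of_pow_eq_one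
      rw [← dd_pow hv hP, hξp, dd_one hv hP]
    obtain ⟨r1, -, hr1⟩ := (Nat.dvd_prime_pow hp).mp (hord i)
    obtain ⟨r2, -, hr2⟩ := (Nat.dvd_prime_pow hp).mp (hord j)
    rcases le_total r1 r2 with hr | hr
    · exact fix_gen hp2 hQ hu hg hgQ hσ hξ ha hζ hb0 hσb hP hi hj hij e1 e2
        (by rw [hr1, hr2]; exact pow_dvd_pow p hr)
    · exact fix_gen hp2 hQ hu hg hgQ hσ hξ ha hζ hb0 hσb hP hj hi hij.symm e2 e1
        (by rw [hr1, hr2]; exact pow_dvd_pow p hr)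
  · -- `c` generates
    have hcop : Nat.Coprime k (p ^ a) :=
      (Nat.Coprime.pow_right _ ((Nat.Prime.coprime_iff_not_dvd hp).mpr hpk).symm)
    have hprim : IsPrimitiveRoot c (p ^ a) := by
      rw [← hk]
      exact hξ.pow_of_coprime k hcop
    haveI : NeZero (p ^ a) := ⟨(pow_pos hp.pos a).ne'⟩
    obtain ⟨i, -, hi⟩ := hprim.eq_pow_of_pow_eq_one hξp
    rw [← hi, map_pow, hσc]

end main

end Vale.Agent.P180.H386
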