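import Vale.Agent.P180.R2.H471.Au10
import Mathlib.LinearAlgebra.Lagrange
import Mathlib.FieldTheory.KummerExtension

/-! P180, H1: elements with scalar `p`-th power. -/

set_option linter.all false

namespace Vale.Agent.P180.H386

open Polynomial Module Vale.Agent.P180.R2.H471.Au

section one

variable {K : Type*} [Field K] [Finite K] {p : ℕ} [Fact p.Prime]

/-- a generator of the group of the roots of unity of `p`-power order -/
theorem exists_gen (hp1 : p ∣ Nat.card K - 1) : ∃ (ξ : K) (a : ℕ), 1 ≤ a ∧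
    IsPrimitiveRoot ξ (p ^ a) ∧ ∀ ω : K, (∃ j, ω ^ p ^ j = 1) → ∃ i, ξ ^ i = ω := by
  classical
  have hp : p.Prime := Fact.out
  obtain ⟨γ, hγ⟩ := IsCyclic.exists_ofOrder_eq_natCard (α := Kˣ)
  have hn0 : Nat.card Kˣ ≠ 0 := Nat.card_pos.ne'
  obtain ⟨a, n', hpn, hn⟩ := Nat.exists_eq_pow_mul_and_not_dvd hn0 p hp.ne_one
  rw [← Nat.card_units] at hp1
  have ha : 1 ≤ a := by
    rcases Nat.eq_zero_or_pos a with h | h
    · rw [h, pow_zero, one_mul] at hn
      rw [hn] at hp1
      exact absurd hp1 hpn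
    · exact h
  have hn'0 : n' ≠ 0 := by
    rintro rfl
    exact hpn (dvd_zero _)
  have hord : orderOf (γ ^ n') = p ^ a := by
    rw [orderOf_pow' _ hn'0, hγ, hn, Nat.gcd_mul_left_left, Nat.mul_div_cancel _
      (Nat.pos_of_ne_zero hn'0)]
  have hprim : IsPrimitiveRoot ((γ ^ n' : Kˣ) : K) (p ^ a) := by
    have h1 : orderOf ((γ ^ n' : Kˣ) : K) = p ^ a := by rw [orderOf_units, hord]
    rw [← h1]
    exact IsPrimitiveRoot.orderOf _
  refine ⟨((γ ^ n' : Kˣ) : K), a, ha, hprim, ?_⟩
  rintro ω ⟨j, hj⟩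
  have hω0 : ω ≠ 0 := by
    rintro rfl
    rw [zero_pow (pow_pos hp.pos j).ne'] at hj
    exact zero_ne_one hj
  have h1 : orderOf ω ∣ p ^ j := orderOf_dvd_of_pow_eq_one hj
  have h2 : orderOf ω ∣ Nat.card Kˣ := by
    have h3 : orderOf (Units.mk0 ω hω0) ∣ Nat.card Kˣ := orderOf_dvd_natCard _
    rwa [← orderOf_units, Units.val_mk0] at h3
  have h3 : orderOf ω ∣ p ^ a := by
    rw [hn] at h2
    have hcop : Nat.Coprime (orderOf ω) n' := by
      obtain ⟨i, -, hi⟩ := (Nat.dvd_prime_pow hp).mp h1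
      rw [hi]
      exact Nat.Coprime.pow_left _ ((Nat.Prime.coprime_iff_not_dvd hp).mpr hpn)
    exact hcop.dvd_of_dvd_mul_right h2
  haveI : NeZero (p ^ a) := ⟨(pow_pos hp.pos a).ne'⟩
  obtain ⟨i, -, hi⟩ := hprim.eq_pow_of_pow_eq_one (orderOf_dvd_iff_pow_eq_one.mp h3)
  exact ⟨i, hi⟩

end one

section two

variable {K : Type*} [Field K] {V : Type*} [AddCommGroup V] [Module K V] {p : ℕ} [Fact p.Prime]

/-- a nonscalar element with scalar `p`-th power -/
theorem exists_u {Q : Subgroup (SpecialLinearGroup K V)} (hQp : IsPGroup p Q)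
    (hnc : ∃ u ∈ Q, ¬ ∃ c : K, ∀ v, u v = c • v) :
    ∃ u ∈ Q, (¬ ∃ c : K, ∀ v, u v = c • v) ∧ ∃ c : K, ∀ v, (u ^ p) v = c • v := by
  classical
  obtain ⟨u, hu, hn⟩ := hnc
  obtain ⟨k, hk⟩ := hQp ⟨u, hu⟩
  have hk' : u ^ p ^ k = 1 := congrArg Subtype.val hk
  have hex : ∃ k, ∃ c : K, ∀ v, (u ^ p ^ k) v = c • v := by
    refine ⟨k, 1, fun v => ?_⟩
    rw [hk', one_smul]
    rfl
  have h1 := Nat.find_spec hex
  have h0 : Nat.find hex ≠ 0 := by
    intro h
    rw [h, pow_zero, pow_one] at h1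
    exact hn h1
  have h2 := Nat.find_min hex (m := Nat.find hex - 1) (by omega)
  refine ⟨u ^ p ^ (Nat.find hex - 1), Q.pow_mem hu _, h2, ?_⟩
  rw [← pow_mul, ← pow_succ, Nat.sub_add_cancel (Nat.pos_of_ne_zero h0)]
  exact h1

/-- polynomials on eigenvectors -/
theorem aeval_eig {φ : Module.End K V} {r : K} {x : V} (hx : φ x = r • x) (F : K[X]) :
    aeval φ F x = F.eval r • x := by
  induction F using Polynomial.induction_on' with
  | add P R hP hR => rw [map_add, LinearMap.add_apply, hP, hR, eval_add, add_smul]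
  | monomial m c =>
    rw [aeval_monomial, eval_monomial, ← Algebra.smul_def, LinearMap.smul_apply, mul_smul]
    congr 1
    induction m with
    | zero => rw [pow_zero, pow_zero, one_smul]; rfl
    | succ m ih =>
      rw [pow_succ', Module.End.mul_apply, ih, map_smul, hx, smul_smul, pow_succ]

end two

section three

variable {K : Type*} [Field K] {V : Type*} [AddCommGroup V] [Module K V]

/-- polynomials which vanish at all the nodes -/
theorem aeval_zero {φ : Module.End K V} {n : ℕ} {v : ℕ → K} (hv : Set.InjOn v (Finset.range n))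
    (hP : aeval φ (∏ i ∈ Finset.range n, (X - C (v i))) = 0) {F : K[X]}
    (hF : ∀ i < n, F.eval (v i) = 0) : aeval φ F = 0 := by
  have h1 : (∏ i ∈ Finset.range n, (X - C (v i))) ∣ F := by
    refine Finset.prod_dvd_of_coprime ?_ ?_
    · intro i hi j hj hij
      refine isCoprime_X_sub_C_of_isUnit_sub ?_
      exact (sub_ne_zero_of_ne fun h => hij (hv hi hj h)).isUnit
    · intro i hi
      rw [Polynomial.dvd_iff_isRoot]
      exact hF i (Finset.mem_range.mp hi)
  obtain ⟨R, rfl⟩ := h1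
  rw [map_mul, hP, zero_mul]

/-- the product of injective factors -/
theorem prod_inj {φ : Module.End K V} {v : ℕ → K} {s : Finset ℕ}
    (hs : ∀ i ∈ s, ∀ x, φ x = v i • x → x = 0) :
    ∀ x, aeval φ (∏ i ∈ s, (X - C (v i))) x = 0 → x = 0 := by
  classical
  induction s using Finset.induction_on with
  | empty =>
    intro x hx
    rw [Finset.prod_empty, map_one] at hx
    exact hx
  | insert b s hb ih =>
    intro x hx
    rw [Finset.prod_insert hb, map_mul, Module.End.mul_apply] at hx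
    have h1 : aeval φ (∏ i ∈ s, (X - C (v i))) x = 0 := by
      refine hs b (Finset.mem_insert_self _ _) _ ?_
      rw [map_sub, aeval_X, aeval_C, LinearMap.sub_apply, sub_eq_zero] at hx
      rw [hx]
      rfl
    exact ih (fun i hi => hs i (Finset.mem_insert_of_mem hi)) x h1

/-- a nonscalar map has two eigenvalues -/
theorem exists_two {φ : Module.End K V} {n : ℕ} {v : ℕ → K} (hn : 0 < n)
    (hP : aeval φ (∏ i ∈ Finset.range n, (X - C (v i))) = 0)
    (hns : ¬ ∃ c : K, ∀ x, φ x = c • x) :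
    ∃ i < n, ∃ j < n, i ≠ j ∧ (∃ x, x ≠ 0 ∧ φ x = v i • x) ∧ ∃ x, x ≠ 0 ∧ φ x = v j • x := by
  classical
  by_contra hcon
  push Not at hcon
  obtain ⟨i, hi, hall⟩ : ∃ i < n, ∀ j < n, j ≠ i → ∀ x, φ x = v j • x → x = 0 := by
    by_cases h : ∃ i < n, ∃ x, x ≠ 0 ∧ φ x = v i • x
    · obtain ⟨i, hi, x, hx0, hx⟩ := h
      refine ⟨i, hi, fun j hj hji y hy => ?_⟩
      by_contra hy0
      exact hcon i hi j hj hji.symm ⟨x, hx0, hx⟩ y hy0 hy
    · push Not at h
      refine ⟨0, hn, fun j hj _ x hx => ?_⟩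
      by_contra hx0
      exact h j hj x hx0 hx
  refine hns ⟨v i, fun x => ?_⟩
  have h1 : aeval φ (∏ j ∈ (Finset.range n).erase i, (X - C (v j))) (φ x - v i • x) = 0 := by
    have h2 : φ x - v i • x = aeval φ (X - C (v i)) x := by
      rw [map_sub, aeval_X, aeval_C, LinearMap.sub_apply]
      rfl
    have h3 : (X - C (v i)) * ∏ j ∈ (Finset.range n).erase i, (X - C (v j)) =
        ∏ j ∈ Finset.range n, (X - C (v j)) :=
      Finset.mul_prod_erase _ (fun j => X - C (v j)) (Finset.mem_range.mpr hi)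
    rw [h2, ← Module.End.mul_apply, ← map_mul, mul_comm, h3, hP]
    rfl
  have h2 := prod_inj (φ := φ) (v := v) (s := (Finset.range n).erase i) (fun j hj y hy =>
    hall j (Finset.mem_range.mp (Finset.mem_of_mem_erase hj)) (Finset.ne_of_mem_erase hj) y hy) _ h1
  exact sub_eq_zero.mp h2

/-- the map with eigenvalues `h i` -/
noncomputable def ww (φ : Module.End K V) (n : ℕ) (v : ℕ → K) (h : ℕ → K) : Module.End K V :=
  aeval φ (Lagrange.interpolate (Finset.range n) v h)

variable {φ : Module.End K V} {n : ℕ} {v : ℕ → K}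

theorem ww_eig (hv : Set.InjOn v (Finset.range n)) (h : ℕ → K) {i : ℕ} (hi : i < n) {x : V}
    (hx : φ x = v i • x) : ww φ n v h x = h i • x := by
  rw [ww, aeval_eig hx, Lagrange.eval_interpolate_at_node _ hv (Finset.mem_range.mpr hi)]

theorem ww_mul (hv : Set.InjOn v (Finset.range n))
    (hP : aeval φ (∏ i ∈ Finset.range n, (X - C (v i))) = 0) (h h' : ℕ → K) :
    ww φ n v h * ww φ n v h' = ww φ n v (fun i => h i * h' i) := by
  rw [ww, ww, ww, ← map_mul, ← sub_eq_zero, ← map_sub]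
  refine aeval_zero hv hP fun i hi => ?_
  rw [eval_sub, eval_mul, Lagrange.eval_interpolate_at_node _ hv (Finset.mem_range.mpr hi),
    Lagrange.eval_interpolate_at_node _ hv (Finset.mem_range.mpr hi),
    Lagrange.eval_interpolate_at_node _ hv (Finset.mem_range.mpr hi), sub_self]

theorem ww_one (hv : Set.InjOn v (Finset.range n))
    (hP : aeval φ (∏ i ∈ Finset.range n, (X - C (v i))) = 0) : ww φ n v (fun _ => 1) = 1 := by
  have h1 : (1 : Module.End K V) = aeval φ (1 : K[X]) := (map_one _).symm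
  rw [ww, h1, ← sub_eq_zero, ← map_sub]
  refine aeval_zero hv hP fun i hi => ?_
  rw [eval_sub, Lagrange.eval_interpolate_at_node _ hv (Finset.mem_range.mpr hi), eval_one,
    sub_self]

theorem ww_pow (hv : Set.InjOn v (Finset.range n))
    (hP : aeval φ (∏ i ∈ Finset.range n, (X - C (v i))) = 0) (h : ℕ → K) (m : ℕ) :
    ww φ n v h ^ m = ww φ n v (fun i => h i ^ m) := by
  induction m with
  | zero => simp only [pow_zero]; rw [ww_one hv hP]
  | succ m ih =>
    rw [pow_succ, ih, ww_mul hv hP]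
    simp only [pow_succ]

/-- the determinant -/
noncomputable def dd (φ : Module.End K V) (n : ℕ) (v : ℕ → K) (i : ℕ) (t : K) : K :=
  LinearMap.det (ww φ n v (fun j => if j = i then t else 1))

theorem dd_mul (hv : Set.InjOn v (Finset.range n))
    (hP : aeval φ (∏ i ∈ Finset.range n, (X - C (v i))) = 0) (i : ℕ) (t t' : K) :
    dd φ n v i (t * t') = dd φ n v i t * dd φ n v i t' := by
  rw [dd, dd, dd, ← map_mul, ww_mul hv hP]
  congr 2
  funext j
  by_cases h : j = i
  · rw [if_pos h, if_pos h, if_pos h]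
  · rw [if_neg h, if_neg h, if_neg h, mul_one]

theorem dd_one (hv : Set.InjOn v (Finset.range n))
    (hP : aeval φ (∏ i ∈ Finset.range n, (X - C (v i))) = 0) (i : ℕ) : dd φ n v i 1 = 1 := by
  rw [dd]
  have h1 : (fun j => if j = i then (1 : K) else 1) = fun _ => 1 := by
    funext j
    exact ite_self _
  rw [h1, ww_one hv hP, map_one]

theorem dd_pow (hv : Set.InjOn v (Finset.range n))
    (hP : aeval φ (∏ i ∈ Finset.range n, (X - C (v i))) = 0) (i : ℕ) (t : K) (m : ℕ) :
    dd φ n v i (t ^ m) = dd φ n v i t ^ m := by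
  induction m with
  | zero => rw [pow_zero, pow_zero, dd_one hv hP]
  | succ m ih => rw [pow_succ, dd_mul hv hP, ih, pow_succ]

end three

end Vale.Agent.P180.H386
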